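import Vale.Agent.P181.Six.R.D2_0
import Vale.Agent.P181.Six.R.B1

set_option maxRecDepth 100000
set_option maxHeartbeats 0

namespace Vale.Agent.P181.K

noncomputable def cR2_0_0 : L2 :=
 (Ls.cons Ls.nil
 (Ls.cons (Ls.cons Ent.zero (Ls.cons Ent.zero (Ls.cons Ent.zero (Ls.cons Ent.zero (Ls.cons Ent.zero (Ls.cons Ent.zero (Ls.cons Ent.zero (Ls.cons Ent.zero (Ls.cons Ent.zero (Ls.cons Ent.zero (Ls.cons Ent.zero (Ls.cons Ent.zero (Ls.cons (Ent.pos R2_17_1_0) (Ls.cons Ent.zero (Ls.cons (Ent.pos R2_15_1_0) (Ls.cons Ent.zero (Ls.cons (Ent.pos R2_13_1_0) (Ls.cons Ent.zero (Ls.cons (Ent.pos R2_11_1_0) (Ls.cons (Ent.neg R2_10_1_0) (Ls.cons Ent.zero (Ls.cons (Ent.neg R2_8_1_0) (Ls.cons Ent.zero (Ls.cons (Ent.neg R2_6_1_0) (Ls.cons Ent.zero (Ls.cons (Ent.neg R2_4_1_0) (Ls.cons (Ent.pos R2_3_1_0) (Ls.cons (Ent.neg R2_2_1_0)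 Ls.nil))))))))))))))))))))))))))))
 (Ls.cons (Ls.cons Ent.zero (Ls.cons Ent.zero (Ls.cons Ent.zero (Ls.cons Ent.zero (Ls.cons Ent.zero (Ls.cons Ent.zero (Ls.cons Ent.zero (Ls.cons Ent.zero (Ls.cons Ent.zero (Ls.cons Ent.zero (Ls.cons Ent.zero (Ls.cons Ent.zero (Ls.cons (Ent.neg R2_17_2_0) (Ls.cons Ent.zero (Ls.cons (Ent.neg R2_15_2_0) (Ls.cons Ent.zero (Ls.cons (Ent.neg R2_13_2_0) (Ls.cons Ent.zero (Ls.cons (Ent.neg R2_11_2_0) (Ls.cons (Ent.pos R2_10_2_0) (Ls.cons Ent.zero (Ls.cons (Ent.pos R2_8_2_0) (Ls.cons Ent.zero (Ls.cons (Ent.pos R2_6_2_0) (Ls.cons Ent.zero (Ls.cons (Ent.pos R2_4_2_0) (Ls.cons (Ent.neg R2_3_2_0) Ls.nil)))))))))))))))))))))))))))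
 (Ls.cons (Ls.cons Ent.zero (Ls.cons Ent.zero (Ls.cons Ent.zero (Ls.cons Ent.zero (Ls.cons Ent.zero (Ls.cons Ent.zero (Ls.cons Ent.zero (Ls.cons Ent.zero (Ls.cons Ent.zero (Ls.cons Ent.zero (Ls.cons Ent.zero (Ls.cons Ent.zero (Ls.cons (Ent.pos R2_17_3_0) (Ls.cons Ent.zero (Ls.cons (Ent.pos R2_15_3_0) (Ls.cons Ent.zero (Ls.cons (Ent.pos R2_13_3_0) (Ls.cons Ent.zero (Ls.cons (Ent.pos R2_11_3_0) (Ls.cons (Ent.neg R2_10_3_0) (Ls.cons Ent.zero (Ls.cons (Ent.neg R2_8_3_0) (Ls.cons Ent.zero (Ls.cons (Ent.neg R2_6_3_0) (Ls.cons Ent.zero (Ls.cons (Ent.neg R2_4_3_0) Ls.nil))))))))))))))))))))))))))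
 (Ls.cons (Ls.cons Ent.zero (Ls.cons Ent.zero (Ls.cons Ent.zero (Ls.cons Ent.zero (Ls.cons Ent.zero (Ls.cons Ent.zero (Ls.cons Ent.zero (Ls.cons Ent.zero (Ls.cons Ent.zero (Ls.cons Ent.zero (Ls.cons Ent.zero (Ls.cons Ent.zero (Ls.cons (Ent.neg R2_17_4_0) (Ls.cons Ent.zero (Ls.cons Ent.zero (Ls.cons Ent.zero (Ls.cons Ent.zero (Ls.cons Ent.zero (Ls.cons Ent.zero (Ls.cons Ent.zero (Ls.cons Ent.zero (Ls.cons Ent.zero (Ls.cons Ent.zero (Ls.cons Ent.zero (Ls.cons Ent.zero Ls.nil)))))))))))))))))))))))))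
 (Ls.cons (Ls.cons Ent.zero (Ls.cons Ent.zero (Ls.cons Ent.zero (Ls.cons Ent.zero (Ls.cons Ent.zero (Ls.cons Ent.zero (Ls.cons Ent.zero (Ls.cons Ent.zero (Ls.cons Ent.zero (Ls.cons Ent.zero (Ls.cons Ent.zero (Ls.cons Ent.zero (Ls.cons Ent.zero (Ls.cons Ent.zero (Ls.cons Ent.zero (Ls.cons Ent.zero (Ls.cons Ent.zero (Ls.cons Ent.zero (Ls.cons Ent.zero (Ls.cons Ent.zero (Ls.cons Ent.zero (Ls.cons Ent.zero (Ls.cons Ent.zero (Ls.cons Ent.zero Ls.nil))))))))))))))))))))))))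
 Ls.nil))))))

noncomputable def tbR2 : L3 := (Ls.cons cR2_0_0 Ls.nil)

noncomputable def bxR2_0 : L2 :=
 (Ls.cons (Ls.cons Ent.zero (Ls.cons Ent.zero (Ls.cons Ent.zero (Ls.cons Ent.zero (Ls.cons Ent.zero (Ls.cons Ent.zero (Ls.cons Ent.zero (Ls.cons Ent.zero (Ls.cons Ent.zero (Ls.cons Ent.zero (Ls.cons Ent.zero (Ls.cons Ent.zero (Ls.cons Ent.zero (Ls.cons Ent.zero (Ls.cons Ent.zero (Ls.cons Ent.zero (Ls.cons Ent.zero (Ls.cons Ent.zero (Ls.cons Ent.zero (Ls.cons Ent.zero (Ls.cons Ent.zero (Ls.cons Ent.zero (Ls.cons Ent.zero (Ls.cons Ent.zero (Ls.cons Ent.zero (Ls.cons Ent.zero (Ls.cons Ent.zero (Ls.cons Ent.zero (Ls.cons Ent.zero (Ls.cons Ent.zero Ls.nil))))))))))))))))))))))))))))))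
 (Ls.cons (Ls.cons Ent.zero (Ls.cons Ent.zero (Ls.cons Ent.zero (Ls.cons Ent.zero (Ls.cons Ent.zero (Ls.cons Ent.zero (Ls.cons Ent.zero (Ls.cons Ent.zero (Ls.cons Ent.zero (Ls.cons Ent.zero (Ls.cons Ent.zero (Ls.cons Ent.zero (Ls.cons (Ent.neg R2_17_4_0) (Ls.cons Ent.zero (Ls.cons Ent.zero (Ls.cons Ent.zero (Ls.cons Ent.zero (Ls.cons Ent.zero (Ls.cons Ent.zero (Ls.cons Ent.zero (Ls.cons Ent.zero (Ls.cons Ent.zero (Ls.cons Ent.zero (Ls.cons Ent.zero (Ls.cons Ent.zero (Ls.cons Ent.zero (Ls.cons (Ent.pos R2_4_3_0) (Ls.cons (Ent.neg R2_4_2_0) (Ls.cons (Ent.pos R2_4_1_0) (Ls.cons Ent.zero Ls.nil))))))))))))))))))))))))))))))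
 (Ls.cons (Ls.cons Ent.zero (Ls.cons Ent.zero (Ls.cons Ent.zero (Ls.cons Ent.zero (Ls.cons Ent.zero (Ls.cons Ent.zero (Ls.cons Ent.zero (Ls.cons Ent.zero (Ls.cons Ent.zero (Ls.cons Ent.zero (Ls.cons Ent.zero (Ls.cons Ent.zero (Ls.cons (Ent.pos R2_17_3_0) (Ls.cons Ent.zero (Ls.cons (Ent.pos R2_15_3_0) (Ls.cons Ent.zero (Ls.cons (Ent.pos R2_13_3_0) (Ls.cons Ent.zero (Ls.cons (Ent.pos R2_11_3_0) (Ls.cons (Ent.neg R2_10_3_0) (Ls.cons Ent.zero (Ls.cons (Ent.neg R2_8_3_0) (Ls.cons Ent.zero (Ls.cons (Ent.neg R2_6_3_0) (Ls.cons Ent.zero (Ls.cons (Ent.neg R2_4_3_0) (Ls.cons Ent.zero (Ls.cons (Ent.pos R2_3_2_0) (Ls.cons (Ent.neg R2_3_1_0) (Ls.cons Ent.zero Ls.nil))))))))))))))))))))))))))))))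
 (Ls.cons (Ls.cons Ent.zero (Ls.cons Ent.zero (Ls.cons Ent.zero (Ls.cons Ent.zero (Ls.cons Ent.zero (Ls.cons Ent.zero (Ls.cons Ent.zero (Ls.cons Ent.zero (Ls.cons Ent.zero (Ls.cons Ent.zero (Ls.cons Ent.zero (Ls.cons Ent.zero (Ls.cons (Ent.neg R2_17_2_0) (Ls.cons Ent.zero (Ls.cons (Ent.neg R2_15_2_0) (Ls.cons Ent.zero (Ls.cons (Ent.neg R2_13_2_0) (Ls.cons Ent.zero (Ls.cons (Ent.neg R2_11_2_0) (Ls.cons (Ent.pos R2_10_2_0) (Ls.cons Ent.zero (Ls.cons (Ent.pos R2_8_2_0) (Ls.cons Ent.zero (Ls.cons (Ent.pos R2_6_2_0) (Ls.cons Ent.zero (Ls.cons (Ent.pos R2_4_2_0) (Ls.cons (Ent.neg R2_3_2_0) (Ls.cons Ent.zero (Ls.cons (Ent.pos R2_2_1_0) (Ls.cons Ent.zero Ls.nil))))))))))))))))))))))))))))))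
 (Ls.cons (Ls.cons Ent.zero (Ls.cons Ent.zero (Ls.cons Ent.zero (Ls.cons Ent.zero (Ls.cons Ent.zero (Ls.cons Ent.zero (Ls.cons Ent.zero (Ls.cons Ent.zero (Ls.cons Ent.zero (Ls.cons Ent.zero (Ls.cons Ent.zero (Ls.cons Ent.zero (Ls.cons (Ent.pos R2_17_1_0) (Ls.cons Ent.zero (Ls.cons (Ent.pos R2_15_1_0) (Ls.cons Ent.zero (Ls.cons (Ent.pos R2_13_1_0) (Ls.cons Ent.zero (Ls.cons (Ent.pos R2_11_1_0) (Ls.cons (Ent.neg R2_10_1_0) (Ls.cons Ent.zero (Ls.cons (Ent.neg R2_8_1_0) (Ls.cons Ent.zero (Ls.cons (Ent.neg R2_6_1_0) (Ls.cons Ent.zero (Ls.cons (Ent.neg R2_4_1_0) (Ls.cons (Ent.pos R2_3_1_0) (Ls.cons (Ent.neg R2_2_1_0) (Ls.cons Ent.zero (Ls.cons Ent.zero Ls.nil))))))))))))))))))))))))))))))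
 (Ls.cons (Ls.cons Ent.zero (Ls.cons Ent.zero (Ls.cons Ent.zero (Ls.cons Ent.zero (Ls.cons Ent.zero (Ls.cons Ent.zero (Ls.cons Ent.zero (Ls.cons Ent.zero (Ls.cons Ent.zero (Ls.cons Ent.zero (Ls.cons Ent.zero (Ls.cons Ent.zero (Ls.cons Ent.zero (Ls.cons Ent.zero (Ls.cons Ent.zero (Ls.cons Ent.zero (Ls.cons Ent.zero (Ls.cons Ent.zero (Ls.cons Ent.zero (Ls.cons Ent.zero (Ls.cons Ent.zero (Ls.cons Ent.zero (Ls.cons Ent.zero (Ls.cons Ent.zero (Ls.cons Ent.zero (Ls.cons Ent.zero (Ls.cons Ent.zero (Ls.cons Ent.zero (Ls.cons Ent.zero (Ls.cons Ent.zero Ls.nil))))))))))))))))))))))))))))))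
 Ls.nil))))))

noncomputable def boxR2 : L3 := (Ls.cons bxR2_0 Ls.nil)

noncomputable def bsR3 : Ls L3 := Ls.cons boxR2 bsR2

end Vale.Agent.P181.K
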