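import Vale.Agent.P181.Six.R.D3_0
import Vale.Agent.P181.Six.R.B2

set_option maxRecDepth 100000
set_option maxHeartbeats 0

namespace Vale.Agent.P181.K

noncomputable def cR3_0_0 : L2 :=
 (Ls.cons Ls.nil
 (Ls.cons (Ls.cons Ent.zero (Ls.cons Ent.zero (Ls.cons Ent.zero (Ls.cons Ent.zero (Ls.cons Ent.zero (Ls.cons Ent.zero (Ls.cons (Ent.pos R3_23_1_0) (Ls.cons Ent.zero (Ls.cons (Ent.pos R3_21_1_0) (Ls.cons (Ent.pos R3_20_1_0) (Ls.cons (Ent.pos R3_19_1_0) (Ls.cons (Ent.pos R3_18_1_0) (Ls.cons (Ent.pos R3_17_1_0) (Ls.cons (Ent.pos R3_16_1_0) (Ls.cons (Ent.pos R3_15_1_0) (Ls.cons (Ent.pos R3_14_1_0) (Ls.cons (Ent.pos R3_13_1_0) (Ls.cons (Ent.neg R3_12_1_0) (Ls.cons (Ent.neg R3_11_1_0) (Ls.cons (Ent.neg R3_10_1_0) (Ls.cons (Ent.neg R3_9_1_0) (Ls.cons (Ent.neg R3_8_1_0) (Ls.cons (Ent.neg R3_7_1_0)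 (Ls.cons (Ent.neg R3_6_1_0) (Ls.cons (Ent.pos R3_5_1_0) (Ls.cons (Ent.neg R3_4_1_0) (Ls.cons (Ent.pos R3_3_1_0) (Ls.cons (Ent.neg R3_2_1_0) Ls.nil))))))))))))))))))))))))))))
 (Ls.cons (Ls.cons Ent.zero (Ls.cons Ent.zero (Ls.cons Ent.zero (Ls.cons Ent.zero (Ls.cons Ent.zero (Ls.cons Ent.zero (Ls.cons (Ent.neg R3_23_2_0) (Ls.cons Ent.zero (Ls.cons (Ent.neg R3_21_2_0) (Ls.cons (Ent.neg R3_20_2_0) (Ls.cons (Ent.neg R3_19_2_0) (Ls.cons (Ent.neg R3_18_2_0) (Ls.cons (Ent.neg R3_17_2_0) (Ls.cons (Ent.neg R3_16_2_0) (Ls.cons (Ent.neg R3_15_2_0) (Ls.cons (Ent.neg R3_14_2_0) (Ls.cons (Ent.neg R3_13_2_0) (Ls.cons (Ent.pos R3_12_2_0) (Ls.cons (Ent.pos R3_11_2_0) (Ls.cons (Ent.pos R3_10_2_0) (Ls.cons (Ent.pos R3_9_2_0) (Ls.cons (Ent.pos R3_8_2_0) (Ls.cons (Ent.pos R3_7_2_0) (Ls.cons (Ent.pos R3_6_2_0)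 (Ls.cons (Ent.neg R3_5_2_0) (Ls.cons (Ent.pos R3_4_2_0) (Ls.cons (Ent.neg R3_3_2_0) Ls.nil)))))))))))))))))))))))))))
 (Ls.cons (Ls.cons Ent.zero (Ls.cons Ent.zero (Ls.cons Ent.zero (Ls.cons Ent.zero (Ls.cons Ent.zero (Ls.cons Ent.zero (Ls.cons (Ent.pos R3_23_3_0) (Ls.cons Ent.zero (Ls.cons (Ent.pos R3_21_3_0) (Ls.cons (Ent.pos R3_20_3_0) (Ls.cons (Ent.pos R3_19_3_0) (Ls.cons (Ent.pos R3_18_3_0) (Ls.cons (Ent.pos R3_17_3_0) (Ls.cons Ent.zero (Ls.cons (Ent.pos R3_15_3_0) (Ls.cons Ent.zero (Ls.cons Ent.zero (Ls.cons (Ent.neg R3_12_3_0) (Ls.cons Ent.zero (Ls.cons (Ent.neg R3_10_3_0) (Ls.cons (Ent.neg R3_9_3_0) (Ls.cons (Ent.neg R3_8_3_0) (Ls.cons (Ent.neg R3_7_3_0) (Ls.cons (Ent.neg R3_6_3_0) (Ls.cons Ent.zero (Ls.cons (Ent.neg R3_4_3_0) Ls.nil))))))))))))))))))))))))))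
 (Ls.cons (Ls.cons Ent.zero (Ls.cons Ent.zero (Ls.cons Ent.zero (Ls.cons Ent.zero (Ls.cons Ent.zero (Ls.cons Ent.zero (Ls.cons (Ent.neg R3_23_4_0) (Ls.cons Ent.zero (Ls.cons Ent.zero (Ls.cons Ent.zero (Ls.cons Ent.zero (Ls.cons (Ent.pos R3_18_4_0) (Ls.cons Ent.zero (Ls.cons (Ent.pos R3_16_4_0) (Ls.cons (Ent.pos R3_15_4_0) (Ls.cons Ent.zero (Ls.cons Ent.zero (Ls.cons Ent.zero (Ls.cons (Ent.neg R3_11_4_0) (Ls.cons (Ent.neg R3_10_4_0) (Ls.cons Ent.zero (Ls.cons (Ent.neg R3_8_4_0) (Ls.cons Ent.zero (Ls.cons Ent.zero (Ls.cons Ent.zero Ls.nil)))))))))))))))))))))))))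
 (Ls.cons (Ls.cons Ent.zero (Ls.cons Ent.zero (Ls.cons Ent.zero (Ls.cons Ent.zero (Ls.cons Ent.zero (Ls.cons Ent.zero (Ls.cons Ent.zero (Ls.cons Ent.zero (Ls.cons Ent.zero (Ls.cons Ent.zero (Ls.cons (Ent.pos R3_19_5_0) (Ls.cons Ent.zero (Ls.cons (Ent.pos R3_17_5_0) (Ls.cons (Ent.pos R3_16_5_0) (Ls.cons (Ent.pos R3_15_5_0) (Ls.cons Ent.zero (Ls.cons (Ent.pos R3_13_5_0) (Ls.cons (Ent.neg R3_12_5_0) (Ls.cons Ent.zero (Ls.cons (Ent.neg R3_10_5_0) (Ls.cons (Ent.neg R3_9_5_0) (Ls.cons (Ent.neg R3_8_5_0) (Ls.cons Ent.zero (Ls.cons (Ent.neg R3_6_5_0) Ls.nil))))))))))))))))))))))))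
 Ls.nil))))))

noncomputable def tbR3 : L3 := (Ls.cons cR3_0_0 Ls.nil)

noncomputable def bxR3_0 : L2 :=
 (Ls.cons (Ls.cons Ent.zero (Ls.cons Ent.zero (Ls.cons Ent.zero (Ls.cons Ent.zero (Ls.cons Ent.zero (Ls.cons Ent.zero (Ls.cons Ent.zero (Ls.cons Ent.zero (Ls.cons Ent.zero (Ls.cons Ent.zero (Ls.cons (Ent.pos R3_19_5_0) (Ls.cons Ent.zero (Ls.cons (Ent.pos R3_17_5_0) (Ls.cons (Ent.pos R3_16_5_0) (Ls.cons (Ent.pos R3_15_5_0) (Ls.cons Ent.zero (Ls.cons (Ent.pos R3_13_5_0) (Ls.cons (Ent.neg R3_12_5_0) (Ls.cons Ent.zero (Ls.cons (Ent.neg R3_10_5_0) (Ls.cons (Ent.neg R3_9_5_0) (Ls.cons (Ent.neg R3_8_5_0) (Ls.cons Ent.zero (Ls.cons (Ent.neg R3_6_5_0) (Ls.cons Ent.zero (Ls.cons Ent.zero (Ls.cons Ent.zero (Ls.cons (Ent.pos R3_5_2_0) (Ls.cons (Ent.neg R3_5_1_0) (Ls.cons Ent.zero Ls.nil))))))))))))))))))))))))))))))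
 (Ls.cons (Ls.cons Ent.zero (Ls.cons Ent.zero (Ls.cons Ent.zero (Ls.cons Ent.zero (Ls.cons Ent.zero (Ls.cons Ent.zero (Ls.cons (Ent.neg R3_23_4_0) (Ls.cons Ent.zero (Ls.cons Ent.zero (Ls.cons Ent.zero (Ls.cons Ent.zero (Ls.cons (Ent.pos R3_18_4_0) (Ls.cons Ent.zero (Ls.cons (Ent.pos R3_16_4_0) (Ls.cons (Ent.pos R3_15_4_0) (Ls.cons Ent.zero (Ls.cons Ent.zero (Ls.cons Ent.zero (Ls.cons (Ent.neg R3_11_4_0) (Ls.cons (Ent.neg R3_10_4_0) (Ls.cons Ent.zero (Ls.cons (Ent.neg R3_8_4_0) (Ls.cons Ent.zero (Ls.cons Ent.zero (Ls.cons Ent.zero (Ls.cons Ent.zero (Ls.cons (Ent.pos R3_4_3_0) (Ls.cons (Ent.neg R3_4_2_0) (Ls.cons (Ent.pos R3_4_1_0) (Ls.cons Ent.zero Ls.nil))))))))))))))))))))))))))))))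
 (Ls.cons (Ls.cons Ent.zero (Ls.cons Ent.zero (Ls.cons Ent.zero (Ls.cons Ent.zero (Ls.cons Ent.zero (Ls.cons Ent.zero (Ls.cons (Ent.pos R3_23_3_0) (Ls.cons Ent.zero (Ls.cons (Ent.pos R3_21_3_0) (Ls.cons (Ent.pos R3_20_3_0) (Ls.cons (Ent.pos R3_19_3_0) (Ls.cons (Ent.pos R3_18_3_0) (Ls.cons (Ent.pos R3_17_3_0) (Ls.cons Ent.zero (Ls.cons (Ent.pos R3_15_3_0) (Ls.cons Ent.zero (Ls.cons Ent.zero (Ls.cons (Ent.neg R3_12_3_0) (Ls.cons Ent.zero (Ls.cons (Ent.neg R3_10_3_0) (Ls.cons (Ent.neg R3_9_3_0) (Ls.cons (Ent.neg R3_8_3_0) (Ls.cons (Ent.neg R3_7_3_0) (Ls.cons (Ent.neg R3_6_3_0) (Ls.cons Ent.zero (Ls.cons (Ent.neg R3_4_3_0) (Ls.cons Ent.zero (Ls.cons (Ent.pos R3_3_2_0) (Ls.cons (Ent.neg R3_3_1_0) (Ls.cons Ent.zero Ls.nil))))))))))))))))))))))))))))))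
 (Ls.cons (Ls.cons Ent.zero (Ls.cons Ent.zero (Ls.cons Ent.zero (Ls.cons Ent.zero (Ls.cons Ent.zero (Ls.cons Ent.zero (Ls.cons (Ent.neg R3_23_2_0) (Ls.cons Ent.zero (Ls.cons (Ent.neg R3_21_2_0) (Ls.cons (Ent.neg R3_20_2_0) (Ls.cons (Ent.neg R3_19_2_0) (Ls.cons (Ent.neg R3_18_2_0) (Ls.cons (Ent.neg R3_17_2_0) (Ls.cons (Ent.neg R3_16_2_0) (Ls.cons (Ent.neg R3_15_2_0) (Ls.cons (Ent.neg R3_14_2_0) (Ls.cons (Ent.neg R3_13_2_0) (Ls.cons (Ent.pos R3_12_2_0) (Ls.cons (Ent.pos R3_11_2_0) (Ls.cons (Ent.pos R3_10_2_0) (Ls.cons (Ent.pos R3_9_2_0) (Ls.cons (Ent.pos R3_8_2_0) (Ls.cons (Ent.pos R3_7_2_0) (Ls.cons (Ent.pos R3_6_2_0) (Ls.cons (Ent.neg R3_5_2_0) (Ls.cons (Ent.pos R3_4_2_0) (Ls.cons (Ent.neg R3_3_2_0) (Ls.cons Ent.zero (Ls.cons (Ent.pos R3_2_1_0) (Ls.cons Ent.zero Ls.nil))))))))))))))))))))))))))))))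
 (Ls.cons (Ls.cons Ent.zero (Ls.cons Ent.zero (Ls.cons Ent.zero (Ls.cons Ent.zero (Ls.cons Ent.zero (Ls.cons Ent.zero (Ls.cons (Ent.pos R3_23_1_0) (Ls.cons Ent.zero (Ls.cons (Ent.pos R3_21_1_0) (Ls.cons (Ent.pos R3_20_1_0) (Ls.cons (Ent.pos R3_19_1_0) (Ls.cons (Ent.pos R3_18_1_0) (Ls.cons (Ent.pos R3_17_1_0) (Ls.cons (Ent.pos R3_16_1_0) (Ls.cons (Ent.pos R3_15_1_0) (Ls.cons (Ent.pos R3_14_1_0) (Ls.cons (Ent.pos R3_13_1_0) (Ls.cons (Ent.neg R3_12_1_0) (Ls.cons (Ent.neg R3_11_1_0) (Ls.cons (Ent.neg R3_10_1_0) (Ls.cons (Ent.neg R3_9_1_0) (Ls.cons (Ent.neg R3_8_1_0) (Ls.cons (Ent.neg R3_7_1_0) (Ls.cons (Ent.neg R3_6_1_0) (Ls.cons (Ent.pos R3_5_1_0) (Ls.cons (Ent.neg R3_4_1_0) (Ls.cons (Ent.pos R3_3_1_0) (Ls.cons (Ent.neg R3_2_1_0) (Ls.cons Ent.zero (Ls.cons Ent.zero Ls.nil))))))))))))))))))))))))))))))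
 (Ls.cons (Ls.cons Ent.zero (Ls.cons Ent.zero (Ls.cons Ent.zero (Ls.cons Ent.zero (Ls.cons Ent.zero (Ls.cons Ent.zero (Ls.cons Ent.zero (Ls.cons Ent.zero (Ls.cons Ent.zero (Ls.cons Ent.zero (Ls.cons Ent.zero (Ls.cons Ent.zero (Ls.cons Ent.zero (Ls.cons Ent.zero (Ls.cons Ent.zero (Ls.cons Ent.zero (Ls.cons Ent.zero (Ls.cons Ent.zero (Ls.cons Ent.zero (Ls.cons Ent.zero (Ls.cons Ent.zero (Ls.cons Ent.zero (Ls.cons Ent.zero (Ls.cons Ent.zero (Ls.cons Ent.zero (Ls.cons Ent.zero (Ls.cons Ent.zero (Ls.cons Ent.zero (Ls.cons Ent.zero (Ls.cons Ent.zero Ls.nil))))))))))))))))))))))))))))))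
 Ls.nil))))))

noncomputable def boxR3 : L3 := (Ls.cons bxR3_0 Ls.nil)

noncomputable def bsR4 : Ls L3 := Ls.cons boxR3 bsR3

end Vale.Agent.P181.K
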