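import Vale.Agent.P181.Six.R.D4_0
import Vale.Agent.P181.Six.R.B3

set_option maxRecDepth 100000
set_option maxHeartbeats 0

namespace Vale.Agent.P181.K

noncomputable def cR4_0_0 : L2 :=
 (Ls.cons Ls.nil
 (Ls.cons (Ls.cons (Ent.pos R4_29_1_0) (Ls.cons Ent.zero (Ls.cons (Ent.pos R4_27_1_0) (Ls.cons (Ent.pos R4_26_1_0) (Ls.cons (Ent.pos R4_25_1_0) (Ls.cons (Ent.pos R4_24_1_0) (Ls.cons (Ent.pos R4_23_1_0) (Ls.cons (Ent.pos R4_22_1_0) (Ls.cons (Ent.pos R4_21_1_0) (Ls.cons (Ent.pos R4_20_1_0) (Ls.cons (Ent.pos R4_19_1_0) (Ls.cons (Ent.pos R4_18_1_0) (Ls.cons (Ent.pos R4_17_1_0) (Ls.cons (Ent.neg R4_16_1_0) (Ls.cons (Ent.neg R4_15_1_0) (Ls.cons (Ent.neg R4_14_1_0) (Ls.cons (Ent.neg R4_13_1_0) (Ls.cons (Ent.neg R4_12_1_0) (Ls.cons (Ent.neg R4_11_1_0) (Ls.cons (Ent.neg R4_10_1_0)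 (Ls.cons (Ent.neg R4_9_1_0) (Ls.cons (Ent.neg R4_8_1_0) (Ls.cons (Ent.neg R4_7_1_0) (Ls.cons (Ent.neg R4_6_1_0) (Ls.cons (Ent.pos R4_5_1_0) (Ls.cons (Ent.neg R4_4_1_0) (Ls.cons (Ent.pos R4_3_1_0) (Ls.cons (Ent.neg R4_2_1_0) Ls.nil))))))))))))))))))))))))))))
 (Ls.cons (Ls.cons Ent.zero (Ls.cons Ent.zero (Ls.cons (Ent.neg R4_27_2_0) (Ls.cons (Ent.neg R4_26_2_0) (Ls.cons (Ent.neg R4_25_2_0) (Ls.cons (Ent.neg R4_24_2_0) (Ls.cons (Ent.neg R4_23_2_0) (Ls.cons (Ent.neg R4_22_2_0) (Ls.cons (Ent.neg R4_21_2_0) (Ls.cons (Ent.neg R4_20_2_0) (Ls.cons (Ent.neg R4_19_2_0) (Ls.cons (Ent.neg R4_18_2_0) (Ls.cons (Ent.neg R4_17_2_0) (Ls.cons (Ent.pos R4_16_2_0) (Ls.cons (Ent.neg R4_15_2_0) (Ls.cons (Ent.pos R4_14_2_0) (Ls.cons (Ent.pos R4_13_2_0) (Ls.cons (Ent.pos R4_12_2_0) (Ls.cons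 (Ent.pos R4_11_2_0) (Ls.cons (Ent.pos R4_10_2_0) (Ls.cons (Ent.pos R4_9_2_0) (Ls.cons (Ent.pos R4_8_2_0) (Ls.cons (Ent.pos R4_7_2_0) (Ls.cons (Ent.pos R4_6_2_0) (Ls.cons (Ent.neg R4_5_2_0) (Ls.cons (Ent.pos R4_4_2_0) (Ls.cons (Ent.neg R4_3_2_0) Ls.nil)))))))))))))))))))))))))))
 (Ls.cons (Ls.cons Ent.zero (Ls.cons Ent.zero (Ls.cons (Ent.pos R4_27_3_0) (Ls.cons (Ent.pos R4_26_3_0) (Ls.cons (Ent.pos R4_25_3_0) (Ls.cons (Ent.pos R4_24_3_0) (Ls.cons (Ent.pos R4_23_3_0) (Ls.cons (Ent.pos R4_22_3_0) (Ls.cons (Ent.pos R4_21_3_0) (Ls.cons (Ent.pos R4_20_3_0) (Ls.cons (Ent.pos R4_19_3_0) (Ls.cons (Ent.neg R4_18_3_0) (Ls.cons (Ent.pos R4_17_3_0) (Ls.cons (Ent.neg R4_16_3_0) (Ls.cons (Ent.pos R4_15_3_0) (Ls.cons (Ent.neg R4_14_3_0) (Ls.cons (Ent.neg R4_13_3_0) (Ls.cons (Ent.neg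 R4_12_3_0) (Ls.cons (Ent.neg R4_11_3_0) (Ls.cons (Ent.neg R4_10_3_0) (Ls.cons (Ent.neg R4_9_3_0) (Ls.cons (Ent.neg R4_8_3_0) (Ls.cons (Ent.neg R4_7_3_0) (Ls.cons (Ent.neg R4_6_3_0) (Ls.cons (Ent.neg R4_5_3_0) (Ls.cons (Ent.neg R4_4_3_0) Ls.nil))))))))))))))))))))))))))
 (Ls.cons (Ls.cons Ent.zero (Ls.cons Ent.zero (Ls.cons Ent.zero (Ls.cons Ent.zero (Ls.cons Ent.zero (Ls.cons (Ent.pos R4_24_4_0) (Ls.cons (Ent.pos R4_23_4_0) (Ls.cons (Ent.pos R4_22_4_0) (Ls.cons (Ent.pos R4_21_4_0) (Ls.cons (Ent.pos R4_20_4_0) (Ls.cons (Ent.pos R4_19_4_0) (Ls.cons (Ent.pos R4_18_4_0) (Ls.cons (Ent.neg R4_17_4_0) (Ls.cons (Ent.pos R4_16_4_0) (Ls.cons (Ent.neg R4_15_4_0) (Ls.cons (Ent.neg R4_14_4_0) (Ls.cons (Ent.neg R4_13_4_0) (Ls.cons (Ent.neg R4_12_4_0) (Ls.cons (Ent.neg R4_11_4_0)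 (Ls.cons (Ent.neg R4_10_4_0) (Ls.cons (Ent.neg R4_9_4_0) (Ls.cons (Ent.neg R4_8_4_0) (Ls.cons (Ent.neg R4_7_4_0) (Ls.cons (Ent.pos R4_6_4_0) (Ls.cons (Ent.neg R4_5_4_0) Ls.nil)))))))))))))))))))))))))
 (Ls.cons (Ls.cons Ent.zero (Ls.cons Ent.zero (Ls.cons Ent.zero (Ls.cons Ent.zero (Ls.cons (Ent.pos R4_25_5_0) (Ls.cons (Ent.pos R4_24_5_0) (Ls.cons (Ent.pos R4_23_5_0) (Ls.cons (Ent.pos R4_22_5_0) (Ls.cons (Ent.pos R4_21_5_0) (Ls.cons (Ent.pos R4_20_5_0) (Ls.cons (Ent.pos R4_19_5_0) (Ls.cons (Ent.pos R4_18_5_0) (Ls.cons (Ent.pos R4_17_5_0) (Ls.cons (Ent.pos R4_16_5_0) (Ls.cons (Ent.pos R4_15_5_0) (Ls.cons (Ent.neg R4_14_5_0) (Ls.cons (Ent.neg R4_13_5_0) (Ls.cons (Ent.neg R4_12_5_0) (Ls.cons (Ent.neg R4_11_5_0) (Ls.cons (Ent.neg R4_10_5_0) (Ls.cons (Ent.neg R4_9_5_0) (Ls.cons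 (Ent.neg R4_8_5_0) (Ls.cons (Ent.neg R4_7_5_0) (Ls.cons (Ent.neg R4_6_5_0) Ls.nil))))))))))))))))))))))))
 Ls.nil))))))

noncomputable def tbR4 : L3 := (Ls.cons cR4_0_0 Ls.nil)

noncomputable def bxR4_0 : L2 :=
 (Ls.cons (Ls.cons Ent.zero (Ls.cons Ent.zero (Ls.cons Ent.zero (Ls.cons Ent.zero (Ls.cons (Ent.pos R4_25_5_0) (Ls.cons (Ent.pos R4_24_5_0) (Ls.cons (Ent.pos R4_23_5_0) (Ls.cons (Ent.pos R4_22_5_0) (Ls.cons (Ent.pos R4_21_5_0) (Ls.cons (Ent.pos R4_20_5_0) (Ls.cons (Ent.pos R4_19_5_0) (Ls.cons (Ent.pos R4_18_5_0) (Ls.cons (Ent.pos R4_17_5_0) (Ls.cons (Ent.pos R4_16_5_0) (Ls.cons (Ent.pos R4_15_5_0) (Ls.cons (Ent.neg R4_14_5_0) (Ls.cons (Ent.neg R4_13_5_0) (Ls.cons (Ent.neg R4_12_5_0) (Ls.cons (Ent.neg R4_11_5_0) (Ls.cons (Ent.neg R4_10_5_0) (Ls.cons (Ent.neg R4_9_5_0)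 (Ls.cons (Ent.neg R4_8_5_0) (Ls.cons (Ent.neg R4_7_5_0) (Ls.cons (Ent.neg R4_6_5_0) (Ls.cons Ent.zero (Ls.cons (Ent.pos R4_5_4_0) (Ls.cons (Ent.pos R4_5_3_0) (Ls.cons (Ent.pos R4_5_2_0) (Ls.cons (Ent.neg R4_5_1_0) (Ls.cons Ent.zero Ls.nil))))))))))))))))))))))))))))))
 (Ls.cons (Ls.cons Ent.zero (Ls.cons Ent.zero (Ls.cons Ent.zero (Ls.cons Ent.zero (Ls.cons Ent.zero (Ls.cons (Ent.pos R4_24_4_0) (Ls.cons (Ent.pos R4_23_4_0) (Ls.cons (Ent.pos R4_22_4_0) (Ls.cons (Ent.pos R4_21_4_0) (Ls.cons (Ent.pos R4_20_4_0) (Ls.cons (Ent.pos R4_19_4_0) (Ls.cons (Ent.pos R4_18_4_0) (Ls.cons (Ent.neg R4_17_4_0) (Ls.cons (Ent.pos R4_16_4_0) (Ls.cons (Ent.neg R4_15_4_0) (Ls.cons (Ent.neg R4_14_4_0) (Ls.cons (Ent.neg R4_13_4_0) (Ls.cons (Ent.neg R4_12_4_0) (Ls.cons (Ent.neg R4_11_4_0) (Ls.cons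 (Ent.neg R4_10_4_0) (Ls.cons (Ent.neg R4_9_4_0) (Ls.cons (Ent.neg R4_8_4_0) (Ls.cons (Ent.neg R4_7_4_0) (Ls.cons (Ent.pos R4_6_4_0) (Ls.cons (Ent.neg R4_5_4_0) (Ls.cons Ent.zero (Ls.cons (Ent.pos R4_4_3_0) (Ls.cons (Ent.neg R4_4_2_0) (Ls.cons (Ent.pos R4_4_1_0) (Ls.cons Ent.zero Ls.nil))))))))))))))))))))))))))))))
 (Ls.cons (Ls.cons Ent.zero (Ls.cons Ent.zero (Ls.cons (Ent.pos R4_27_3_0) (Ls.cons (Ent.pos R4_26_3_0) (Ls.cons (Ent.pos R4_25_3_0) (Ls.cons (Ent.pos R4_24_3_0) (Ls.cons (Ent.pos R4_23_3_0) (Ls.cons (Ent.pos R4_22_3_0) (Ls.cons (Ent.pos R4_21_3_0) (Ls.cons (Ent.pos R4_20_3_0) (Ls.cons (Ent.pos R4_19_3_0) (Ls.cons (Ent.neg R4_18_3_0) (Ls.cons (Ent.pos R4_17_3_0) (Ls.cons (Ent.neg R4_16_3_0) (Ls.cons (Ent.pos R4_15_3_0) (Ls.cons (Ent.neg R4_14_3_0) (Ls.cons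 (Ent.neg R4_13_3_0) (Ls.cons (Ent.neg R4_12_3_0) (Ls.cons (Ent.neg R4_11_3_0) (Ls.cons (Ent.neg R4_10_3_0) (Ls.cons (Ent.neg R4_9_3_0) (Ls.cons (Ent.neg R4_8_3_0) (Ls.cons (Ent.neg R4_7_3_0) (Ls.cons (Ent.neg R4_6_3_0) (Ls.cons (Ent.neg R4_5_3_0) (Ls.cons (Ent.neg R4_4_3_0) (Ls.cons Ent.zero (Ls.cons (Ent.pos R4_3_2_0) (Ls.cons (Ent.neg R4_3_1_0) (Ls.cons Ent.zero Ls.nil))))))))))))))))))))))))))))))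
 (Ls.cons (Ls.cons Ent.zero (Ls.cons Ent.zero (Ls.cons (Ent.neg R4_27_2_0) (Ls.cons (Ent.neg R4_26_2_0) (Ls.cons (Ent.neg R4_25_2_0) (Ls.cons (Ent.neg R4_24_2_0) (Ls.cons (Ent.neg R4_23_2_0) (Ls.cons (Ent.neg R4_22_2_0) (Ls.cons (Ent.neg R4_21_2_0) (Ls.cons (Ent.neg R4_20_2_0) (Ls.cons (Ent.neg R4_19_2_0) (Ls.cons (Ent.neg R4_18_2_0) (Ls.cons (Ent.neg R4_17_2_0) (Ls.cons (Ent.pos R4_16_2_0) (Ls.cons (Ent.neg R4_15_2_0) (Ls.cons (Ent.pos R4_14_2_0) (Ls.cons (Ent.pos R4_13_2_0) (Ls.cons (Ent.pos R4_12_2_0) (Ls.cons (Ent.pos R4_11_2_0) (Ls.cons (Ent.pos R4_10_2_0) (Ls.cons (Ent.pos R4_9_2_0) (Ls.cons (Ent.pos R4_8_2_0) (Ls.cons (Ent.pos R4_7_2_0) (Ls.cons (Ent.pos R4_6_2_0) (Ls.cons (Ent.neg R4_5_2_0) (Ls.cons (Ent.pos R4_4_2_0) (Ls.cons (Ent.neg R4_3_2_0) (Ls.cons Ent.zero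 (Ls.cons (Ent.pos R4_2_1_0) (Ls.cons Ent.zero Ls.nil))))))))))))))))))))))))))))))
 (Ls.cons (Ls.cons (Ent.pos R4_29_1_0) (Ls.cons Ent.zero (Ls.cons (Ent.pos R4_27_1_0) (Ls.cons (Ent.pos R4_26_1_0) (Ls.cons (Ent.pos R4_25_1_0) (Ls.cons (Ent.pos R4_24_1_0) (Ls.cons (Ent.pos R4_23_1_0) (Ls.cons (Ent.pos R4_22_1_0) (Ls.cons (Ent.pos R4_21_1_0) (Ls.cons (Ent.pos R4_20_1_0) (Ls.cons (Ent.pos R4_19_1_0) (Ls.cons (Ent.pos R4_18_1_0) (Ls.cons (Ent.pos R4_17_1_0) (Ls.cons (Ent.neg R4_16_1_0) (Ls.cons (Ent.neg R4_15_1_0) (Ls.cons (Ent.neg R4_14_1_0) (Ls.cons (Ent.neg R4_13_1_0) (Ls.cons (Ent.neg R4_12_1_0) (Ls.cons (Ent.neg R4_11_1_0) (Ls.cons (Ent.neg R4_10_1_0) (Ls.cons (Ent.neg R4_9_1_0) (Ls.cons (Ent.neg R4_8_1_0) (Ls.cons (Ent.neg R4_7_1_0) (Ls.cons (Ent.neg R4_6_1_0) (Ls.cons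 (Ent.pos R4_5_1_0) (Ls.cons (Ent.neg R4_4_1_0) (Ls.cons (Ent.pos R4_3_1_0) (Ls.cons (Ent.neg R4_2_1_0) (Ls.cons Ent.zero (Ls.cons Ent.zero Ls.nil))))))))))))))))))))))))))))))
 (Ls.cons (Ls.cons Ent.zero (Ls.cons Ent.zero (Ls.cons Ent.zero (Ls.cons Ent.zero (Ls.cons Ent.zero (Ls.cons Ent.zero (Ls.cons Ent.zero (Ls.cons Ent.zero (Ls.cons Ent.zero (Ls.cons Ent.zero (Ls.cons Ent.zero (Ls.cons Ent.zero (Ls.cons Ent.zero (Ls.cons Ent.zero (Ls.cons Ent.zero (Ls.cons Ent.zero (Ls.cons Ent.zero (Ls.cons Ent.zero (Ls.cons Ent.zero (Ls.cons Ent.zero (Ls.cons Ent.zero (Ls.cons Ent.zero (Ls.cons Ent.zero (Ls.cons Ent.zero (Ls.cons Ent.zero (Ls.cons Ent.zero (Ls.cons Ent.zero (Ls.cons Ent.zero (Ls.cons Ent.zero (Ls.cons Ent.zero Ls.nil))))))))))))))))))))))))))))))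
 Ls.nil))))))

noncomputable def boxR4 : L3 := (Ls.cons bxR4_0 Ls.nil)

noncomputable def bsR5 : Ls L3 := Ls.cons boxR4 bsR4

end Vale.Agent.P181.K
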