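import Vale.Agent.P181.Six.R.D5_0
import Vale.Agent.P181.Six.R.B4

set_option maxRecDepth 100000
set_option maxHeartbeats 0

namespace Vale.Agent.P181.K

noncomputable def cR5_0_0 : L2 :=
 (Ls.cons Ls.nil
 (Ls.cons (Ls.cons (Ent.pos R5_29_1_0) (Ls.cons (Ent.pos R5_28_1_0) (Ls.cons (Ent.pos R5_27_1_0) (Ls.cons (Ent.pos R5_26_1_0) (Ls.cons (Ent.pos R5_25_1_0) (Ls.cons (Ent.pos R5_24_1_0) (Ls.cons (Ent.pos R5_23_1_0) (Ls.cons (Ent.pos R5_22_1_0) (Ls.cons (Ent.pos R5_21_1_0) (Ls.cons (Ent.pos R5_20_1_0) (Ls.cons (Ent.pos R5_19_1_0) (Ls.cons (Ent.neg R5_18_1_0) (Ls.cons (Ent.neg R5_17_1_0) (Ls.cons (Ent.neg R5_16_1_0) (Ls.cons (Ent.neg R5_15_1_0) (Ls.cons (Ent.neg R5_14_1_0) (Ls.cons (Ent.neg R5_13_1_0) (Ls.cons (Ent.neg R5_12_1_0) (Ls.cons (Ent.neg R5_11_1_0) (Ls.cons (Ent.neg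 R5_10_1_0) (Ls.cons (Ent.neg R5_9_1_0) (Ls.cons (Ent.neg R5_8_1_0) (Ls.cons (Ent.neg R5_7_1_0) (Ls.cons (Ent.neg R5_6_1_0) (Ls.cons (Ent.pos R5_5_1_0) (Ls.cons (Ent.neg R5_4_1_0) (Ls.cons (Ent.pos R5_3_1_0) (Ls.cons (Ent.neg R5_2_1_0) Ls.nil))))))))))))))))))))))))))))
 (Ls.cons (Ls.cons Ent.zero (Ls.cons Ent.zero (Ls.cons (Ent.neg R5_27_2_0) (Ls.cons (Ent.neg R5_26_2_0) (Ls.cons (Ent.neg R5_25_2_0) (Ls.cons (Ent.neg R5_24_2_0) (Ls.cons (Ent.neg R5_23_2_0) (Ls.cons (Ent.neg R5_22_2_0) (Ls.cons (Ent.neg R5_21_2_0) (Ls.cons (Ent.neg R5_20_2_0) (Ls.cons (Ent.neg R5_19_2_0) (Ls.cons (Ent.pos R5_18_2_0) (Ls.cons (Ent.pos R5_17_2_0) (Ls.cons (Ent.pos R5_16_2_0) (Ls.cons (Ent.pos R5_15_2_0) (Ls.cons (Ent.pos R5_14_2_0) (Ls.cons (Ent.pos R5_13_2_0) (Ls.cons (Ent.pos R5_12_2_0)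 (Ls.cons (Ent.pos R5_11_2_0) (Ls.cons (Ent.pos R5_10_2_0) (Ls.cons (Ent.pos R5_9_2_0) (Ls.cons (Ent.pos R5_8_2_0) (Ls.cons (Ent.pos R5_7_2_0) (Ls.cons (Ent.pos R5_6_2_0) (Ls.cons (Ent.neg R5_5_2_0) (Ls.cons (Ent.pos R5_4_2_0) (Ls.cons (Ent.neg R5_3_2_0) Ls.nil)))))))))))))))))))))))))))
 (Ls.cons (Ls.cons Ent.zero (Ls.cons Ent.zero (Ls.cons (Ent.pos R5_27_3_0) (Ls.cons (Ent.pos R5_26_3_0) (Ls.cons (Ent.pos R5_25_3_0) (Ls.cons (Ent.pos R5_24_3_0) (Ls.cons (Ent.pos R5_23_3_0) (Ls.cons (Ent.pos R5_22_3_0) (Ls.cons (Ent.pos R5_21_3_0) (Ls.cons (Ent.neg R5_20_3_0) (Ls.cons (Ent.neg R5_19_3_0) (Ls.cons (Ent.neg R5_18_3_0) (Ls.cons (Ent.neg R5_17_3_0) (Ls.cons (Ent.neg R5_16_3_0) (Ls.cons (Ent.neg R5_15_3_0) (Ls.cons (Ent.neg R5_14_3_0) (Ls.cons (Ent.neg R5_13_3_0) (Ls.cons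 (Ent.neg R5_12_3_0) (Ls.cons (Ent.neg R5_11_3_0) (Ls.cons (Ent.neg R5_10_3_0) (Ls.cons (Ent.neg R5_9_3_0) (Ls.cons (Ent.neg R5_8_3_0) (Ls.cons (Ent.neg R5_7_3_0) (Ls.cons (Ent.neg R5_6_3_0) (Ls.cons (Ent.neg R5_5_3_0) (Ls.cons (Ent.neg R5_4_3_0) Ls.nil))))))))))))))))))))))))))
 (Ls.cons (Ls.cons Ent.zero (Ls.cons Ent.zero (Ls.cons Ent.zero (Ls.cons Ent.zero (Ls.cons (Ent.pos R5_25_4_0) (Ls.cons (Ent.pos R5_24_4_0) (Ls.cons (Ent.pos R5_23_4_0) (Ls.cons (Ent.pos R5_22_4_0) (Ls.cons (Ent.pos R5_21_4_0) (Ls.cons (Ent.pos R5_20_4_0) (Ls.cons (Ent.neg R5_19_4_0) (Ls.cons (Ent.neg R5_18_4_0) (Ls.cons (Ent.neg R5_17_4_0) (Ls.cons (Ent.neg R5_16_4_0) (Ls.cons (Ent.neg R5_15_4_0) (Ls.cons (Ent.neg R5_14_4_0) (Ls.cons (Ent.neg R5_13_4_0) (Ls.cons (Ent.neg R5_12_4_0) (Ls.cons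 (Ent.neg R5_11_4_0) (Ls.cons (Ent.neg R5_10_4_0) (Ls.cons (Ent.neg R5_9_4_0) (Ls.cons (Ent.neg R5_8_4_0) (Ls.cons (Ent.pos R5_7_4_0) (Ls.cons (Ent.pos R5_6_4_0) (Ls.cons (Ent.neg R5_5_4_0) Ls.nil)))))))))))))))))))))))))
 (Ls.cons (Ls.cons Ent.zero (Ls.cons Ent.zero (Ls.cons Ent.zero (Ls.cons Ent.zero (Ls.cons (Ent.pos R5_25_5_0) (Ls.cons (Ent.pos R5_24_5_0) (Ls.cons (Ent.pos R5_23_5_0) (Ls.cons (Ent.pos R5_22_5_0) (Ls.cons (Ent.pos R5_21_5_0) (Ls.cons (Ent.pos R5_20_5_0) (Ls.cons (Ent.pos R5_19_5_0) (Ls.cons (Ent.neg R5_18_5_0) (Ls.cons (Ent.neg R5_17_5_0) (Ls.cons (Ent.neg R5_16_5_0) (Ls.cons (Ent.neg R5_15_5_0) (Ls.cons (Ent.neg R5_14_5_0) (Ls.cons (Ent.neg R5_13_5_0) (Ls.cons (Ent.neg R5_12_5_0) (Ls.cons (Ent.neg R5_11_5_0) (Ls.cons (Ent.neg R5_10_5_0) (Ls.cons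 (Ent.neg R5_9_5_0) (Ls.cons (Ent.neg R5_8_5_0) (Ls.cons (Ent.neg R5_7_5_0) (Ls.cons (Ent.neg R5_6_5_0) Ls.nil))))))))))))))))))))))))
 Ls.nil))))))

noncomputable def tbR5 : L3 := (Ls.cons cR5_0_0 Ls.nil)

noncomputable def bxR5_0 : L2 :=
 (Ls.cons (Ls.cons Ent.zero (Ls.cons Ent.zero (Ls.cons Ent.zero (Ls.cons Ent.zero (Ls.cons (Ent.pos R5_25_5_0) (Ls.cons (Ent.pos R5_24_5_0) (Ls.cons (Ent.pos R5_23_5_0) (Ls.cons (Ent.pos R5_22_5_0) (Ls.cons (Ent.pos R5_21_5_0) (Ls.cons (Ent.pos R5_20_5_0) (Ls.cons (Ent.pos R5_19_5_0) (Ls.cons (Ent.neg R5_18_5_0) (Ls.cons (Ent.neg R5_17_5_0) (Ls.cons (Ent.neg R5_16_5_0) (Ls.cons (Ent.neg R5_15_5_0) (Ls.cons (Ent.neg R5_14_5_0) (Ls.cons (Ent.neg R5_13_5_0) (Ls.cons (Ent.neg R5_12_5_0) (Ls.cons (Ent.neg R5_11_5_0) (Ls.cons (Ent.neg R5_10_5_0)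 (Ls.cons (Ent.neg R5_9_5_0) (Ls.cons (Ent.neg R5_8_5_0) (Ls.cons (Ent.neg R5_7_5_0) (Ls.cons (Ent.neg R5_6_5_0) (Ls.cons Ent.zero (Ls.cons (Ent.pos R5_5_4_0) (Ls.cons (Ent.pos R5_5_3_0) (Ls.cons (Ent.pos R5_5_2_0) (Ls.cons (Ent.neg R5_5_1_0) (Ls.cons Ent.zero Ls.nil))))))))))))))))))))))))))))))
 (Ls.cons (Ls.cons Ent.zero (Ls.cons Ent.zero (Ls.cons Ent.zero (Ls.cons Ent.zero (Ls.cons (Ent.pos R5_25_4_0) (Ls.cons (Ent.pos R5_24_4_0) (Ls.cons (Ent.pos R5_23_4_0) (Ls.cons (Ent.pos R5_22_4_0) (Ls.cons (Ent.pos R5_21_4_0) (Ls.cons (Ent.pos R5_20_4_0) (Ls.cons (Ent.neg R5_19_4_0) (Ls.cons (Ent.neg R5_18_4_0) (Ls.cons (Ent.neg R5_17_4_0) (Ls.cons (Ent.neg R5_16_4_0) (Ls.cons (Ent.neg R5_15_4_0) (Ls.cons (Ent.neg R5_14_4_0) (Ls.cons (Ent.neg R5_13_4_0) (Ls.cons (Ent.neg R5_12_4_0)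 (Ls.cons (Ent.neg R5_11_4_0) (Ls.cons (Ent.neg R5_10_4_0) (Ls.cons (Ent.neg R5_9_4_0) (Ls.cons (Ent.neg R5_8_4_0) (Ls.cons (Ent.pos R5_7_4_0) (Ls.cons (Ent.pos R5_6_4_0) (Ls.cons (Ent.neg R5_5_4_0) (Ls.cons Ent.zero (Ls.cons (Ent.pos R5_4_3_0) (Ls.cons (Ent.neg R5_4_2_0) (Ls.cons (Ent.pos R5_4_1_0) (Ls.cons Ent.zero Ls.nil))))))))))))))))))))))))))))))
 (Ls.cons (Ls.cons Ent.zero (Ls.cons Ent.zero (Ls.cons (Ent.pos R5_27_3_0) (Ls.cons (Ent.pos R5_26_3_0) (Ls.cons (Ent.pos R5_25_3_0) (Ls.cons (Ent.pos R5_24_3_0) (Ls.cons (Ent.pos R5_23_3_0) (Ls.cons (Ent.pos R5_22_3_0) (Ls.cons (Ent.pos R5_21_3_0) (Ls.cons (Ent.neg R5_20_3_0) (Ls.cons (Ent.neg R5_19_3_0) (Ls.cons (Ent.neg R5_18_3_0) (Ls.cons (Ent.neg R5_17_3_0) (Ls.cons (Ent.neg R5_16_3_0) (Ls.cons (Ent.neg R5_15_3_0)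 (Ls.cons (Ent.neg R5_14_3_0) (Ls.cons (Ent.neg R5_13_3_0) (Ls.cons (Ent.neg R5_12_3_0) (Ls.cons (Ent.neg R5_11_3_0) (Ls.cons (Ent.neg R5_10_3_0) (Ls.cons (Ent.neg R5_9_3_0) (Ls.cons (Ent.neg R5_8_3_0) (Ls.cons (Ent.neg R5_7_3_0) (Ls.cons (Ent.neg R5_6_3_0) (Ls.cons (Ent.neg R5_5_3_0) (Ls.cons (Ent.neg R5_4_3_0) (Ls.cons Ent.zero (Ls.cons (Ent.pos R5_3_2_0) (Ls.cons (Ent.neg R5_3_1_0) (Ls.cons Ent.zero Ls.nil))))))))))))))))))))))))))))))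
 (Ls.cons (Ls.cons Ent.zero (Ls.cons Ent.zero (Ls.cons (Ent.neg R5_27_2_0) (Ls.cons (Ent.neg R5_26_2_0) (Ls.cons (Ent.neg R5_25_2_0) (Ls.cons (Ent.neg R5_24_2_0) (Ls.cons (Ent.neg R5_23_2_0) (Ls.cons (Ent.neg R5_22_2_0) (Ls.cons (Ent.neg R5_21_2_0) (Ls.cons (Ent.neg R5_20_2_0) (Ls.cons (Ent.neg R5_19_2_0) (Ls.cons (Ent.pos R5_18_2_0) (Ls.cons (Ent.pos R5_17_2_0) (Ls.cons (Ent.pos R5_16_2_0) (Ls.cons (Ent.pos R5_15_2_0) (Ls.cons (Ent.pos R5_14_2_0) (Ls.cons (Ent.pos R5_13_2_0) (Ls.cons (Ent.pos R5_12_2_0) (Ls.cons (Ent.pos R5_11_2_0) (Ls.cons (Ent.pos R5_10_2_0) (Ls.cons (Ent.pos R5_9_2_0) (Ls.cons (Ent.pos R5_8_2_0) (Ls.cons (Ent.pos R5_7_2_0) (Ls.cons (Ent.pos R5_6_2_0) (Ls.cons (Ent.neg R5_5_2_0) (Ls.cons (Ent.pos R5_4_2_0) (Ls.cons (Ent.neg R5_3_2_0) (Ls.cons Ent.zero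 (Ls.cons (Ent.pos R5_2_1_0) (Ls.cons Ent.zero Ls.nil))))))))))))))))))))))))))))))
 (Ls.cons (Ls.cons (Ent.pos R5_29_1_0) (Ls.cons (Ent.pos R5_28_1_0) (Ls.cons (Ent.pos R5_27_1_0) (Ls.cons (Ent.pos R5_26_1_0) (Ls.cons (Ent.pos R5_25_1_0) (Ls.cons (Ent.pos R5_24_1_0) (Ls.cons (Ent.pos R5_23_1_0) (Ls.cons (Ent.pos R5_22_1_0) (Ls.cons (Ent.pos R5_21_1_0) (Ls.cons (Ent.pos R5_20_1_0) (Ls.cons (Ent.pos R5_19_1_0) (Ls.cons (Ent.neg R5_18_1_0) (Ls.cons (Ent.neg R5_17_1_0) (Ls.cons (Ent.neg R5_16_1_0) (Ls.cons (Ent.neg R5_15_1_0) (Ls.cons (Ent.neg R5_14_1_0) (Ls.cons (Ent.neg R5_13_1_0) (Ls.cons (Ent.neg R5_12_1_0) (Ls.cons (Ent.neg R5_11_1_0) (Ls.cons (Ent.neg R5_10_1_0) (Ls.cons (Ent.neg R5_9_1_0) (Ls.cons (Ent.neg R5_8_1_0) (Ls.cons (Ent.neg R5_7_1_0) (Ls.cons (Ent.neg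 R5_6_1_0) (Ls.cons (Ent.pos R5_5_1_0) (Ls.cons (Ent.neg R5_4_1_0) (Ls.cons (Ent.pos R5_3_1_0) (Ls.cons (Ent.neg R5_2_1_0) (Ls.cons Ent.zero (Ls.cons Ent.zero Ls.nil))))))))))))))))))))))))))))))
 (Ls.cons (Ls.cons Ent.zero (Ls.cons Ent.zero (Ls.cons Ent.zero (Ls.cons Ent.zero (Ls.cons Ent.zero (Ls.cons Ent.zero (Ls.cons Ent.zero (Ls.cons Ent.zero (Ls.cons Ent.zero (Ls.cons Ent.zero (Ls.cons Ent.zero (Ls.cons Ent.zero (Ls.cons Ent.zero (Ls.cons Ent.zero (Ls.cons Ent.zero (Ls.cons Ent.zero (Ls.cons Ent.zero (Ls.cons Ent.zero (Ls.cons Ent.zero (Ls.cons Ent.zero (Ls.cons Ent.zero (Ls.cons Ent.zero (Ls.cons Ent.zero (Ls.cons Ent.zero (Ls.cons Ent.zero (Ls.cons Ent.zero (Ls.cons Ent.zero (Ls.cons Ent.zero (Ls.cons Ent.zero (Ls.cons Ent.zero Ls.nil))))))))))))))))))))))))))))))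
 Ls.nil))))))

noncomputable def boxR5 : L3 := (Ls.cons bxR5_0 Ls.nil)

noncomputable def bsR6 : Ls L3 := Ls.cons boxR5 bsR5

end Vale.Agent.P181.K
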