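import Vale.Agent.P181.Six.R.D6_0
import Vale.Agent.P181.Six.R.B5

set_option maxRecDepth 100000
set_option maxHeartbeats 0

namespace Vale.Agent.P181.K

noncomputable def cR6_0_0 : L2 :=
 (Ls.cons Ls.nil
 (Ls.cons (Ls.cons (Ent.pos R6_29_1_0) (Ls.cons (Ent.pos R6_28_1_0) (Ls.cons (Ent.pos R6_27_1_0) (Ls.cons (Ent.pos R6_26_1_0) (Ls.cons (Ent.pos R6_25_1_0) (Ls.cons (Ent.pos R6_24_1_0) (Ls.cons (Ent.pos R6_23_1_0) (Ls.cons (Ent.neg R6_22_1_0) (Ls.cons (Ent.neg R6_21_1_0) (Ls.cons (Ent.neg R6_20_1_0) (Ls.cons (Ent.neg R6_19_1_0) (Ls.cons (Ent.neg R6_18_1_0) (Ls.cons (Ent.neg R6_17_1_0) (Ls.cons (Ent.neg R6_16_1_0) (Ls.cons (Ent.neg R6_15_1_0) (Ls.cons (Ent.neg R6_14_1_0) (Ls.cons (Ent.neg R6_13_1_0) (Ls.cons (Ent.neg R6_12_1_0) (Ls.cons (Ent.neg R6_11_1_0) (Ls.cons (Ent.neg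 R6_10_1_0) (Ls.cons (Ent.neg R6_9_1_0) (Ls.cons (Ent.neg R6_8_1_0) (Ls.cons (Ent.neg R6_7_1_0) (Ls.cons (Ent.neg R6_6_1_0) (Ls.cons (Ent.pos R6_5_1_0) (Ls.cons (Ent.pos R6_4_1_0) (Ls.cons (Ent.pos R6_3_1_0) (Ls.cons (Ent.neg R6_2_1_0) Ls.nil))))))))))))))))))))))))))))
 (Ls.cons (Ls.cons Ent.zero (Ls.cons Ent.zero (Ls.cons (Ent.neg R6_27_2_0) (Ls.cons (Ent.neg R6_26_2_0) (Ls.cons (Ent.neg R6_25_2_0) (Ls.cons (Ent.neg R6_24_2_0) (Ls.cons (Ent.neg R6_23_2_0) (Ls.cons (Ent.pos R6_22_2_0) (Ls.cons (Ent.pos R6_21_2_0) (Ls.cons (Ent.pos R6_20_2_0) (Ls.cons (Ent.pos R6_19_2_0) (Ls.cons (Ent.pos R6_18_2_0) (Ls.cons (Ent.pos R6_17_2_0) (Ls.cons (Ent.pos R6_16_2_0) (Ls.cons (Ent.pos R6_15_2_0) (Ls.cons (Ent.pos R6_14_2_0) (Ls.cons (Ent.pos R6_13_2_0) (Ls.cons (Ent.pos R6_12_2_0)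 (Ls.cons (Ent.pos R6_11_2_0) (Ls.cons (Ent.pos R6_10_2_0) (Ls.cons (Ent.pos R6_9_2_0) (Ls.cons (Ent.pos R6_8_2_0) (Ls.cons (Ent.pos R6_7_2_0) (Ls.cons (Ent.pos R6_6_2_0) (Ls.cons (Ent.neg R6_5_2_0) (Ls.cons (Ent.neg R6_4_2_0) (Ls.cons (Ent.neg R6_3_2_0) Ls.nil)))))))))))))))))))))))))))
 (Ls.cons (Ls.cons Ent.zero (Ls.cons Ent.zero (Ls.cons (Ent.pos R6_27_3_0) (Ls.cons (Ent.pos R6_26_3_0) (Ls.cons (Ent.pos R6_25_3_0) (Ls.cons (Ent.neg R6_24_3_0) (Ls.cons (Ent.pos R6_23_3_0) (Ls.cons (Ent.neg R6_22_3_0) (Ls.cons (Ent.pos R6_21_3_0) (Ls.cons (Ent.neg R6_20_3_0) (Ls.cons (Ent.neg R6_19_3_0) (Ls.cons (Ent.neg R6_18_3_0) (Ls.cons (Ent.neg R6_17_3_0) (Ls.cons (Ent.neg R6_16_3_0) (Ls.cons (Ent.neg R6_15_3_0) (Ls.cons (Ent.neg R6_14_3_0) (Ls.cons (Ent.neg R6_13_3_0) (Ls.cons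 (Ent.neg R6_12_3_0) (Ls.cons (Ent.neg R6_11_3_0) (Ls.cons (Ent.neg R6_10_3_0) (Ls.cons (Ent.neg R6_9_3_0) (Ls.cons (Ent.pos R6_8_3_0) (Ls.cons (Ent.neg R6_7_3_0) (Ls.cons (Ent.neg R6_6_3_0) (Ls.cons (Ent.neg R6_5_3_0) (Ls.cons (Ent.neg R6_4_3_0) Ls.nil))))))))))))))))))))))))))
 (Ls.cons (Ls.cons Ent.zero (Ls.cons Ent.zero (Ls.cons Ent.zero (Ls.cons Ent.zero (Ls.cons (Ent.pos R6_25_4_0) (Ls.cons (Ent.pos R6_24_4_0) (Ls.cons (Ent.pos R6_23_4_0) (Ls.cons (Ent.pos R6_22_4_0) (Ls.cons (Ent.neg R6_21_4_0) (Ls.cons (Ent.neg R6_20_4_0) (Ls.cons (Ent.neg R6_19_4_0) (Ls.cons (Ent.neg R6_18_4_0) (Ls.cons (Ent.neg R6_17_4_0) (Ls.cons (Ent.neg R6_16_4_0) (Ls.cons (Ent.neg R6_15_4_0) (Ls.cons (Ent.neg R6_14_4_0) (Ls.cons (Ent.neg R6_13_4_0) (Ls.cons (Ent.neg R6_12_4_0) (Ls.cons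 (Ent.neg R6_11_4_0) (Ls.cons (Ent.neg R6_10_4_0) (Ls.cons (Ent.neg R6_9_4_0) (Ls.cons (Ent.neg R6_8_4_0) (Ls.cons (Ent.pos R6_7_4_0) (Ls.cons (Ent.pos R6_6_4_0) (Ls.cons (Ent.neg R6_5_4_0) Ls.nil)))))))))))))))))))))))))
 (Ls.cons (Ls.cons Ent.zero (Ls.cons Ent.zero (Ls.cons Ent.zero (Ls.cons Ent.zero (Ls.cons (Ent.pos R6_25_5_0) (Ls.cons (Ent.pos R6_24_5_0) (Ls.cons (Ent.pos R6_23_5_0) (Ls.cons (Ent.pos R6_22_5_0) (Ls.cons (Ent.neg R6_21_5_0) (Ls.cons (Ent.neg R6_20_5_0) (Ls.cons (Ent.neg R6_19_5_0) (Ls.cons (Ent.neg R6_18_5_0) (Ls.cons (Ent.neg R6_17_5_0) (Ls.cons (Ent.neg R6_16_5_0) (Ls.cons (Ent.neg R6_15_5_0) (Ls.cons (Ent.neg R6_14_5_0) (Ls.cons (Ent.neg R6_13_5_0) (Ls.cons (Ent.neg R6_12_5_0) (Ls.cons (Ent.neg R6_11_5_0) (Ls.cons (Ent.neg R6_10_5_0) (Ls.cons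 (Ent.neg R6_9_5_0) (Ls.cons (Ent.neg R6_8_5_0) (Ls.cons (Ent.neg R6_7_5_0) (Ls.cons (Ent.neg R6_6_5_0) Ls.nil))))))))))))))))))))))))
 Ls.nil))))))

noncomputable def tbR6 : L3 := (Ls.cons cR6_0_0 Ls.nil)

noncomputable def bxR6_0 : L2 :=
 (Ls.cons (Ls.cons Ent.zero (Ls.cons Ent.zero (Ls.cons Ent.zero (Ls.cons Ent.zero (Ls.cons (Ent.pos R6_25_5_0) (Ls.cons (Ent.pos R6_24_5_0) (Ls.cons (Ent.pos R6_23_5_0) (Ls.cons (Ent.pos R6_22_5_0) (Ls.cons (Ent.neg R6_21_5_0) (Ls.cons (Ent.neg R6_20_5_0) (Ls.cons (Ent.neg R6_19_5_0) (Ls.cons (Ent.neg R6_18_5_0) (Ls.cons (Ent.neg R6_17_5_0) (Ls.cons (Ent.neg R6_16_5_0) (Ls.cons (Ent.neg R6_15_5_0) (Ls.cons (Ent.neg R6_14_5_0) (Ls.cons (Ent.neg R6_13_5_0) (Ls.cons (Ent.neg R6_12_5_0) (Ls.cons (Ent.neg R6_11_5_0) (Ls.cons (Ent.neg R6_10_5_0)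 (Ls.cons (Ent.neg R6_9_5_0) (Ls.cons (Ent.neg R6_8_5_0) (Ls.cons (Ent.neg R6_7_5_0) (Ls.cons (Ent.neg R6_6_5_0) (Ls.cons Ent.zero (Ls.cons (Ent.pos R6_5_4_0) (Ls.cons (Ent.pos R6_5_3_0) (Ls.cons (Ent.pos R6_5_2_0) (Ls.cons (Ent.neg R6_5_1_0) (Ls.cons Ent.zero Ls.nil))))))))))))))))))))))))))))))
 (Ls.cons (Ls.cons Ent.zero (Ls.cons Ent.zero (Ls.cons Ent.zero (Ls.cons Ent.zero (Ls.cons (Ent.pos R6_25_4_0) (Ls.cons (Ent.pos R6_24_4_0) (Ls.cons (Ent.pos R6_23_4_0) (Ls.cons (Ent.pos R6_22_4_0) (Ls.cons (Ent.neg R6_21_4_0) (Ls.cons (Ent.neg R6_20_4_0) (Ls.cons (Ent.neg R6_19_4_0) (Ls.cons (Ent.neg R6_18_4_0) (Ls.cons (Ent.neg R6_17_4_0) (Ls.cons (Ent.neg R6_16_4_0) (Ls.cons (Ent.neg R6_15_4_0) (Ls.cons (Ent.neg R6_14_4_0) (Ls.cons (Ent.neg R6_13_4_0) (Ls.cons (Ent.neg R6_12_4_0)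 (Ls.cons (Ent.neg R6_11_4_0) (Ls.cons (Ent.neg R6_10_4_0) (Ls.cons (Ent.neg R6_9_4_0) (Ls.cons (Ent.neg R6_8_4_0) (Ls.cons (Ent.pos R6_7_4_0) (Ls.cons (Ent.pos R6_6_4_0) (Ls.cons (Ent.neg R6_5_4_0) (Ls.cons Ent.zero (Ls.cons (Ent.pos R6_4_3_0) (Ls.cons (Ent.pos R6_4_2_0) (Ls.cons (Ent.neg R6_4_1_0) (Ls.cons Ent.zero Ls.nil))))))))))))))))))))))))))))))
 (Ls.cons (Ls.cons Ent.zero (Ls.cons Ent.zero (Ls.cons (Ent.pos R6_27_3_0) (Ls.cons (Ent.pos R6_26_3_0) (Ls.cons (Ent.pos R6_25_3_0) (Ls.cons (Ent.neg R6_24_3_0) (Ls.cons (Ent.pos R6_23_3_0) (Ls.cons (Ent.neg R6_22_3_0) (Ls.cons (Ent.pos R6_21_3_0) (Ls.cons (Ent.neg R6_20_3_0) (Ls.cons (Ent.neg R6_19_3_0) (Ls.cons (Ent.neg R6_18_3_0) (Ls.cons (Ent.neg R6_17_3_0) (Ls.cons (Ent.neg R6_16_3_0) (Ls.cons (Ent.neg R6_15_3_0)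 (Ls.cons (Ent.neg R6_14_3_0) (Ls.cons (Ent.neg R6_13_3_0) (Ls.cons (Ent.neg R6_12_3_0) (Ls.cons (Ent.neg R6_11_3_0) (Ls.cons (Ent.neg R6_10_3_0) (Ls.cons (Ent.neg R6_9_3_0) (Ls.cons (Ent.pos R6_8_3_0) (Ls.cons (Ent.neg R6_7_3_0) (Ls.cons (Ent.neg R6_6_3_0) (Ls.cons (Ent.neg R6_5_3_0) (Ls.cons (Ent.neg R6_4_3_0) (Ls.cons Ent.zero (Ls.cons (Ent.pos R6_3_2_0) (Ls.cons (Ent.neg R6_3_1_0) (Ls.cons Ent.zero Ls.nil))))))))))))))))))))))))))))))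
 (Ls.cons (Ls.cons Ent.zero (Ls.cons Ent.zero (Ls.cons (Ent.neg R6_27_2_0) (Ls.cons (Ent.neg R6_26_2_0) (Ls.cons (Ent.neg R6_25_2_0) (Ls.cons (Ent.neg R6_24_2_0) (Ls.cons (Ent.neg R6_23_2_0) (Ls.cons (Ent.pos R6_22_2_0) (Ls.cons (Ent.pos R6_21_2_0) (Ls.cons (Ent.pos R6_20_2_0) (Ls.cons (Ent.pos R6_19_2_0) (Ls.cons (Ent.pos R6_18_2_0) (Ls.cons (Ent.pos R6_17_2_0) (Ls.cons (Ent.pos R6_16_2_0) (Ls.cons (Ent.pos R6_15_2_0) (Ls.cons (Ent.pos R6_14_2_0) (Ls.cons (Ent.pos R6_13_2_0) (Ls.cons (Ent.pos R6_12_2_0) (Ls.cons (Ent.pos R6_11_2_0) (Ls.cons (Ent.pos R6_10_2_0) (Ls.cons (Ent.pos R6_9_2_0) (Ls.cons (Ent.pos R6_8_2_0) (Ls.cons (Ent.pos R6_7_2_0) (Ls.cons (Ent.pos R6_6_2_0) (Ls.cons (Ent.neg R6_5_2_0) (Ls.cons (Ent.neg R6_4_2_0) (Ls.cons (Ent.neg R6_3_2_0) (Ls.cons Ent.zero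 (Ls.cons (Ent.pos R6_2_1_0) (Ls.cons Ent.zero Ls.nil))))))))))))))))))))))))))))))
 (Ls.cons (Ls.cons (Ent.pos R6_29_1_0) (Ls.cons (Ent.pos R6_28_1_0) (Ls.cons (Ent.pos R6_27_1_0) (Ls.cons (Ent.pos R6_26_1_0) (Ls.cons (Ent.pos R6_25_1_0) (Ls.cons (Ent.pos R6_24_1_0) (Ls.cons (Ent.pos R6_23_1_0) (Ls.cons (Ent.neg R6_22_1_0) (Ls.cons (Ent.neg R6_21_1_0) (Ls.cons (Ent.neg R6_20_1_0) (Ls.cons (Ent.neg R6_19_1_0) (Ls.cons (Ent.neg R6_18_1_0) (Ls.cons (Ent.neg R6_17_1_0) (Ls.cons (Ent.neg R6_16_1_0) (Ls.cons (Ent.neg R6_15_1_0) (Ls.cons (Ent.neg R6_14_1_0) (Ls.cons (Ent.neg R6_13_1_0) (Ls.cons (Ent.neg R6_12_1_0) (Ls.cons (Ent.neg R6_11_1_0) (Ls.cons (Ent.neg R6_10_1_0) (Ls.cons (Ent.neg R6_9_1_0) (Ls.cons (Ent.neg R6_8_1_0) (Ls.cons (Ent.neg R6_7_1_0) (Ls.cons (Ent.neg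 R6_6_1_0) (Ls.cons (Ent.pos R6_5_1_0) (Ls.cons (Ent.pos R6_4_1_0) (Ls.cons (Ent.pos R6_3_1_0) (Ls.cons (Ent.neg R6_2_1_0) (Ls.cons Ent.zero (Ls.cons Ent.zero Ls.nil))))))))))))))))))))))))))))))
 (Ls.cons (Ls.cons Ent.zero (Ls.cons Ent.zero (Ls.cons Ent.zero (Ls.cons Ent.zero (Ls.cons Ent.zero (Ls.cons Ent.zero (Ls.cons Ent.zero (Ls.cons Ent.zero (Ls.cons Ent.zero (Ls.cons Ent.zero (Ls.cons Ent.zero (Ls.cons Ent.zero (Ls.cons Ent.zero (Ls.cons Ent.zero (Ls.cons Ent.zero (Ls.cons Ent.zero (Ls.cons Ent.zero (Ls.cons Ent.zero (Ls.cons Ent.zero (Ls.cons Ent.zero (Ls.cons Ent.zero (Ls.cons Ent.zero (Ls.cons Ent.zero (Ls.cons Ent.zero (Ls.cons Ent.zero (Ls.cons Ent.zero (Ls.cons Ent.zero (Ls.cons Ent.zero (Ls.cons Ent.zero (Ls.cons Ent.zero Ls.nil))))))))))))))))))))))))))))))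
 Ls.nil))))))

noncomputable def boxR6 : L3 := (Ls.cons bxR6_0 Ls.nil)

noncomputable def bsR7 : Ls L3 := Ls.cons boxR6 bsR6

end Vale.Agent.P181.K
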