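import Vale.Agent.P181.Six.R.D7_0
import Vale.Agent.P181.Six.R.B6

set_option maxRecDepth 100000
set_option maxHeartbeats 0

namespace Vale.Agent.P181.K

noncomputable def cR7_0_0 : L2 :=
 (Ls.cons Ls.nil
 (Ls.cons (Ls.cons (Ent.pos R7_29_1_0) (Ls.cons (Ent.pos R7_28_1_0) (Ls.cons (Ent.pos R7_27_1_0) (Ls.cons (Ent.pos R7_26_1_0) (Ls.cons (Ent.pos R7_25_1_0) (Ls.cons (Ent.neg R7_24_1_0) (Ls.cons (Ent.neg R7_23_1_0) (Ls.cons (Ent.neg R7_22_1_0) (Ls.cons (Ent.neg R7_21_1_0) (Ls.cons (Ent.neg R7_20_1_0) (Ls.cons (Ent.neg R7_19_1_0) (Ls.cons (Ent.neg R7_18_1_0) (Ls.cons (Ent.neg R7_17_1_0) (Ls.cons (Ent.neg R7_16_1_0) (Ls.cons (Ent.neg R7_15_1_0) (Ls.cons (Ent.neg R7_14_1_0) (Ls.cons (Ent.neg R7_13_1_0) (Ls.cons (Ent.neg R7_12_1_0) (Ls.cons (Ent.neg R7_11_1_0) (Ls.cons (Ent.neg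 R7_10_1_0) (Ls.cons (Ent.neg R7_9_1_0) (Ls.cons (Ent.pos R7_8_1_0) (Ls.cons (Ent.pos R7_7_1_0) (Ls.cons (Ent.pos R7_6_1_0) (Ls.cons (Ent.pos R7_5_1_0) (Ls.cons (Ent.pos R7_4_1_0) (Ls.cons (Ent.pos R7_3_1_0) (Ls.cons (Ent.neg R7_2_1_0) Ls.nil))))))))))))))))))))))))))))
 (Ls.cons (Ls.cons Ent.zero (Ls.cons Ent.zero (Ls.cons (Ent.neg R7_27_2_0) (Ls.cons (Ent.neg R7_26_2_0) (Ls.cons (Ent.neg R7_25_2_0) (Ls.cons (Ent.pos R7_24_2_0) (Ls.cons (Ent.pos R7_23_2_0) (Ls.cons (Ent.pos R7_22_2_0) (Ls.cons (Ent.pos R7_21_2_0) (Ls.cons (Ent.pos R7_20_2_0) (Ls.cons (Ent.pos R7_19_2_0) (Ls.cons (Ent.pos R7_18_2_0) (Ls.cons (Ent.pos R7_17_2_0) (Ls.cons (Ent.pos R7_16_2_0) (Ls.cons (Ent.pos R7_15_2_0) (Ls.cons (Ent.pos R7_14_2_0) (Ls.cons (Ent.pos R7_13_2_0) (Ls.cons (Ent.pos R7_12_2_0)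 (Ls.cons (Ent.pos R7_11_2_0) (Ls.cons (Ent.pos R7_10_2_0) (Ls.cons (Ent.neg R7_9_2_0) (Ls.cons (Ent.neg R7_8_2_0) (Ls.cons (Ent.neg R7_7_2_0) (Ls.cons (Ent.neg R7_6_2_0) (Ls.cons (Ent.neg R7_5_2_0) (Ls.cons (Ent.neg R7_4_2_0) (Ls.cons (Ent.neg R7_3_2_0) Ls.nil)))))))))))))))))))))))))))
 (Ls.cons (Ls.cons Ent.zero (Ls.cons Ent.zero (Ls.cons (Ent.pos R7_27_3_0) (Ls.cons (Ent.neg R7_26_3_0) (Ls.cons (Ent.neg R7_25_3_0) (Ls.cons (Ent.neg R7_24_3_0) (Ls.cons (Ent.neg R7_23_3_0) (Ls.cons (Ent.neg R7_22_3_0) (Ls.cons (Ent.neg R7_21_3_0) (Ls.cons (Ent.neg R7_20_3_0) (Ls.cons (Ent.neg R7_19_3_0) (Ls.cons (Ent.neg R7_18_3_0) (Ls.cons (Ent.pos R7_17_3_0) (Ls.cons (Ent.pos R7_16_3_0) (Ls.cons (Ent.pos R7_15_3_0) (Ls.cons (Ent.pos R7_14_3_0) (Ls.cons (Ent.pos R7_13_3_0) (Ls.cons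 (Ent.pos R7_12_3_0) (Ls.cons (Ent.pos R7_11_3_0) (Ls.cons (Ent.pos R7_10_3_0) (Ls.cons (Ent.pos R7_9_3_0) (Ls.cons (Ent.neg R7_8_3_0) (Ls.cons (Ent.neg R7_7_3_0) (Ls.cons (Ent.neg R7_6_3_0) (Ls.cons (Ent.neg R7_5_3_0) (Ls.cons (Ent.neg R7_4_3_0) Ls.nil))))))))))))))))))))))))))
 (Ls.cons (Ls.cons Ent.zero (Ls.cons Ent.zero (Ls.cons Ent.zero (Ls.cons Ent.zero (Ls.cons (Ent.pos R7_25_4_0) (Ls.cons (Ent.neg R7_24_4_0) (Ls.cons (Ent.neg R7_23_4_0) (Ls.cons (Ent.neg R7_22_4_0) (Ls.cons (Ent.neg R7_21_4_0) (Ls.cons (Ent.neg R7_20_4_0) (Ls.cons (Ent.neg R7_19_4_0) (Ls.cons (Ent.neg R7_18_4_0) (Ls.cons (Ent.neg R7_17_4_0) (Ls.cons (Ent.neg R7_16_4_0) (Ls.cons (Ent.neg R7_15_4_0) (Ls.cons (Ent.pos R7_14_4_0) (Ls.cons (Ent.pos R7_13_4_0) (Ls.cons (Ent.pos R7_12_4_0) (Ls.cons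 (Ent.pos R7_11_4_0) (Ls.cons (Ent.pos R7_10_4_0) (Ls.cons (Ent.pos R7_9_4_0) (Ls.cons (Ent.pos R7_8_4_0) (Ls.cons (Ent.neg R7_7_4_0) (Ls.cons (Ent.neg R7_6_4_0) (Ls.cons (Ent.neg R7_5_4_0) Ls.nil)))))))))))))))))))))))))
 (Ls.cons (Ls.cons Ent.zero (Ls.cons Ent.zero (Ls.cons Ent.zero (Ls.cons Ent.zero (Ls.cons (Ent.pos R7_25_5_0) (Ls.cons (Ent.neg R7_24_5_0) (Ls.cons (Ent.neg R7_23_5_0) (Ls.cons (Ent.neg R7_22_5_0) (Ls.cons (Ent.neg R7_21_5_0) (Ls.cons (Ent.neg R7_20_5_0) (Ls.cons (Ent.neg R7_19_5_0) (Ls.cons (Ent.neg R7_18_5_0) (Ls.cons (Ent.neg R7_17_5_0) (Ls.cons (Ent.neg R7_16_5_0) (Ls.cons (Ent.neg R7_15_5_0) (Ls.cons (Ent.neg R7_14_5_0) (Ls.cons (Ent.neg R7_13_5_0) (Ls.cons (Ent.neg R7_12_5_0) (Ls.cons (Ent.pos R7_11_5_0) (Ls.cons (Ent.pos R7_10_5_0) (Ls.cons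 (Ent.pos R7_9_5_0) (Ls.cons (Ent.pos R7_8_5_0) (Ls.cons (Ent.neg R7_7_5_0) (Ls.cons (Ent.neg R7_6_5_0) Ls.nil))))))))))))))))))))))))
 Ls.nil))))))

noncomputable def tbR7 : L3 := (Ls.cons cR7_0_0 Ls.nil)

noncomputable def bxR7_0 : L2 :=
 (Ls.cons (Ls.cons Ent.zero (Ls.cons Ent.zero (Ls.cons Ent.zero (Ls.cons Ent.zero (Ls.cons (Ent.pos R7_25_5_0) (Ls.cons (Ent.neg R7_24_5_0) (Ls.cons (Ent.neg R7_23_5_0) (Ls.cons (Ent.neg R7_22_5_0) (Ls.cons (Ent.neg R7_21_5_0) (Ls.cons (Ent.neg R7_20_5_0) (Ls.cons (Ent.neg R7_19_5_0) (Ls.cons (Ent.neg R7_18_5_0) (Ls.cons (Ent.neg R7_17_5_0) (Ls.cons (Ent.neg R7_16_5_0) (Ls.cons (Ent.neg R7_15_5_0) (Ls.cons (Ent.neg R7_14_5_0) (Ls.cons (Ent.neg R7_13_5_0) (Ls.cons (Ent.neg R7_12_5_0) (Ls.cons (Ent.pos R7_11_5_0) (Ls.cons (Ent.pos R7_10_5_0)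 (Ls.cons (Ent.pos R7_9_5_0) (Ls.cons (Ent.pos R7_8_5_0) (Ls.cons (Ent.neg R7_7_5_0) (Ls.cons (Ent.neg R7_6_5_0) (Ls.cons Ent.zero (Ls.cons (Ent.pos R7_5_4_0) (Ls.cons (Ent.pos R7_5_3_0) (Ls.cons (Ent.pos R7_5_2_0) (Ls.cons (Ent.neg R7_5_1_0) (Ls.cons Ent.zero Ls.nil))))))))))))))))))))))))))))))
 (Ls.cons (Ls.cons Ent.zero (Ls.cons Ent.zero (Ls.cons Ent.zero (Ls.cons Ent.zero (Ls.cons (Ent.pos R7_25_4_0) (Ls.cons (Ent.neg R7_24_4_0) (Ls.cons (Ent.neg R7_23_4_0) (Ls.cons (Ent.neg R7_22_4_0) (Ls.cons (Ent.neg R7_21_4_0) (Ls.cons (Ent.neg R7_20_4_0) (Ls.cons (Ent.neg R7_19_4_0) (Ls.cons (Ent.neg R7_18_4_0) (Ls.cons (Ent.neg R7_17_4_0) (Ls.cons (Ent.neg R7_16_4_0) (Ls.cons (Ent.neg R7_15_4_0) (Ls.cons (Ent.pos R7_14_4_0) (Ls.cons (Ent.pos R7_13_4_0) (Ls.cons (Ent.pos R7_12_4_0)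 (Ls.cons (Ent.pos R7_11_4_0) (Ls.cons (Ent.pos R7_10_4_0) (Ls.cons (Ent.pos R7_9_4_0) (Ls.cons (Ent.pos R7_8_4_0) (Ls.cons (Ent.neg R7_7_4_0) (Ls.cons (Ent.neg R7_6_4_0) (Ls.cons (Ent.neg R7_5_4_0) (Ls.cons Ent.zero (Ls.cons (Ent.pos R7_4_3_0) (Ls.cons (Ent.pos R7_4_2_0) (Ls.cons (Ent.neg R7_4_1_0) (Ls.cons Ent.zero Ls.nil))))))))))))))))))))))))))))))
 (Ls.cons (Ls.cons Ent.zero (Ls.cons Ent.zero (Ls.cons (Ent.pos R7_27_3_0) (Ls.cons (Ent.neg R7_26_3_0) (Ls.cons (Ent.neg R7_25_3_0) (Ls.cons (Ent.neg R7_24_3_0) (Ls.cons (Ent.neg R7_23_3_0) (Ls.cons (Ent.neg R7_22_3_0) (Ls.cons (Ent.neg R7_21_3_0) (Ls.cons (Ent.neg R7_20_3_0) (Ls.cons (Ent.neg R7_19_3_0) (Ls.cons (Ent.neg R7_18_3_0) (Ls.cons (Ent.pos R7_17_3_0) (Ls.cons (Ent.pos R7_16_3_0) (Ls.cons (Ent.pos R7_15_3_0)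 (Ls.cons (Ent.pos R7_14_3_0) (Ls.cons (Ent.pos R7_13_3_0) (Ls.cons (Ent.pos R7_12_3_0) (Ls.cons (Ent.pos R7_11_3_0) (Ls.cons (Ent.pos R7_10_3_0) (Ls.cons (Ent.pos R7_9_3_0) (Ls.cons (Ent.neg R7_8_3_0) (Ls.cons (Ent.neg R7_7_3_0) (Ls.cons (Ent.neg R7_6_3_0) (Ls.cons (Ent.neg R7_5_3_0) (Ls.cons (Ent.neg R7_4_3_0) (Ls.cons Ent.zero (Ls.cons (Ent.pos R7_3_2_0) (Ls.cons (Ent.neg R7_3_1_0) (Ls.cons Ent.zero Ls.nil))))))))))))))))))))))))))))))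
 (Ls.cons (Ls.cons Ent.zero (Ls.cons Ent.zero (Ls.cons (Ent.neg R7_27_2_0) (Ls.cons (Ent.neg R7_26_2_0) (Ls.cons (Ent.neg R7_25_2_0) (Ls.cons (Ent.pos R7_24_2_0) (Ls.cons (Ent.pos R7_23_2_0) (Ls.cons (Ent.pos R7_22_2_0) (Ls.cons (Ent.pos R7_21_2_0) (Ls.cons (Ent.pos R7_20_2_0) (Ls.cons (Ent.pos R7_19_2_0) (Ls.cons (Ent.pos R7_18_2_0) (Ls.cons (Ent.pos R7_17_2_0) (Ls.cons (Ent.pos R7_16_2_0) (Ls.cons (Ent.pos R7_15_2_0) (Ls.cons (Ent.pos R7_14_2_0) (Ls.cons (Ent.pos R7_13_2_0) (Ls.cons (Ent.pos R7_12_2_0) (Ls.cons (Ent.pos R7_11_2_0) (Ls.cons (Ent.pos R7_10_2_0) (Ls.cons (Ent.neg R7_9_2_0) (Ls.cons (Ent.neg R7_8_2_0) (Ls.cons (Ent.neg R7_7_2_0) (Ls.cons (Ent.neg R7_6_2_0) (Ls.cons (Ent.neg R7_5_2_0) (Ls.cons (Ent.neg R7_4_2_0) (Ls.cons (Ent.neg R7_3_2_0) (Ls.cons Ent.zero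 (Ls.cons (Ent.pos R7_2_1_0) (Ls.cons Ent.zero Ls.nil))))))))))))))))))))))))))))))
 (Ls.cons (Ls.cons (Ent.pos R7_29_1_0) (Ls.cons (Ent.pos R7_28_1_0) (Ls.cons (Ent.pos R7_27_1_0) (Ls.cons (Ent.pos R7_26_1_0) (Ls.cons (Ent.pos R7_25_1_0) (Ls.cons (Ent.neg R7_24_1_0) (Ls.cons (Ent.neg R7_23_1_0) (Ls.cons (Ent.neg R7_22_1_0) (Ls.cons (Ent.neg R7_21_1_0) (Ls.cons (Ent.neg R7_20_1_0) (Ls.cons (Ent.neg R7_19_1_0) (Ls.cons (Ent.neg R7_18_1_0) (Ls.cons (Ent.neg R7_17_1_0) (Ls.cons (Ent.neg R7_16_1_0) (Ls.cons (Ent.neg R7_15_1_0) (Ls.cons (Ent.neg R7_14_1_0) (Ls.cons (Ent.neg R7_13_1_0) (Ls.cons (Ent.neg R7_12_1_0) (Ls.cons (Ent.neg R7_11_1_0) (Ls.cons (Ent.neg R7_10_1_0) (Ls.cons (Ent.neg R7_9_1_0) (Ls.cons (Ent.pos R7_8_1_0) (Ls.cons (Ent.pos R7_7_1_0) (Ls.cons (Ent.pos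 R7_6_1_0) (Ls.cons (Ent.pos R7_5_1_0) (Ls.cons (Ent.pos R7_4_1_0) (Ls.cons (Ent.pos R7_3_1_0) (Ls.cons (Ent.neg R7_2_1_0) (Ls.cons Ent.zero (Ls.cons Ent.zero Ls.nil))))))))))))))))))))))))))))))
 (Ls.cons (Ls.cons Ent.zero (Ls.cons Ent.zero (Ls.cons Ent.zero (Ls.cons Ent.zero (Ls.cons Ent.zero (Ls.cons Ent.zero (Ls.cons Ent.zero (Ls.cons Ent.zero (Ls.cons Ent.zero (Ls.cons Ent.zero (Ls.cons Ent.zero (Ls.cons Ent.zero (Ls.cons Ent.zero (Ls.cons Ent.zero (Ls.cons Ent.zero (Ls.cons Ent.zero (Ls.cons Ent.zero (Ls.cons Ent.zero (Ls.cons Ent.zero (Ls.cons Ent.zero (Ls.cons Ent.zero (Ls.cons Ent.zero (Ls.cons Ent.zero (Ls.cons Ent.zero (Ls.cons Ent.zero (Ls.cons Ent.zero (Ls.cons Ent.zero (Ls.cons Ent.zero (Ls.cons Ent.zero (Ls.cons Ent.zero Ls.nil))))))))))))))))))))))))))))))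
 Ls.nil))))))

noncomputable def boxR7 : L3 := (Ls.cons bxR7_0 Ls.nil)

noncomputable def bsR8 : Ls L3 := Ls.cons boxR7 bsR7

end Vale.Agent.P181.K
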