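import Vale.Agent.P181.Six.R.D8_0
import Vale.Agent.P181.Six.R.B7

set_option maxRecDepth 100000
set_option maxHeartbeats 0

namespace Vale.Agent.P181.K

noncomputable def cR8_0_0 : L2 :=
 (Ls.cons Ls.nil
 (Ls.cons (Ls.cons (Ent.pos R8_29_1_0) (Ls.cons (Ent.neg R8_28_1_0) (Ls.cons (Ent.neg R8_27_1_0) (Ls.cons (Ent.neg R8_26_1_0) (Ls.cons (Ent.neg R8_25_1_0) (Ls.cons (Ent.neg R8_24_1_0) (Ls.cons (Ent.neg R8_23_1_0) (Ls.cons (Ent.neg R8_22_1_0) (Ls.cons (Ent.neg R8_21_1_0) (Ls.cons (Ent.neg R8_20_1_0) (Ls.cons (Ent.neg R8_19_1_0) (Ls.cons (Ent.neg R8_18_1_0) (Ls.cons (Ent.neg R8_17_1_0) (Ls.cons (Ent.neg R8_16_1_0) (Ls.cons (Ent.neg R8_15_1_0) (Ls.cons (Ent.neg R8_14_1_0) (Ls.cons (Ent.neg R8_13_1_0) (Ls.cons (Ent.pos R8_12_1_0) (Ls.cons (Ent.pos R8_11_1_0) (Ls.cons (Ent.pos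 R8_10_1_0) (Ls.cons (Ent.pos R8_9_1_0) (Ls.cons (Ent.pos R8_8_1_0) (Ls.cons (Ent.pos R8_7_1_0) (Ls.cons (Ent.pos R8_6_1_0) (Ls.cons (Ent.pos R8_5_1_0) (Ls.cons (Ent.pos R8_4_1_0) (Ls.cons (Ent.pos R8_3_1_0) (Ls.cons (Ent.neg R8_2_1_0) Ls.nil))))))))))))))))))))))))))))
 (Ls.cons (Ls.cons Ent.zero (Ls.cons Ent.zero (Ls.cons (Ent.pos R8_27_2_0) (Ls.cons (Ent.pos R8_26_2_0) (Ls.cons (Ent.pos R8_25_2_0) (Ls.cons (Ent.pos R8_24_2_0) (Ls.cons (Ent.pos R8_23_2_0) (Ls.cons (Ent.pos R8_22_2_0) (Ls.cons (Ent.pos R8_21_2_0) (Ls.cons (Ent.pos R8_20_2_0) (Ls.cons (Ent.pos R8_19_2_0) (Ls.cons (Ent.pos R8_18_2_0) (Ls.cons (Ent.pos R8_17_2_0) (Ls.cons (Ent.pos R8_16_2_0) (Ls.cons (Ent.pos R8_15_2_0) (Ls.cons (Ent.pos R8_14_2_0) (Ls.cons (Ent.pos R8_13_2_0) (Ls.cons (Ent.neg R8_12_2_0)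 (Ls.cons (Ent.neg R8_11_2_0) (Ls.cons (Ent.neg R8_10_2_0) (Ls.cons (Ent.neg R8_9_2_0) (Ls.cons (Ent.neg R8_8_2_0) (Ls.cons (Ent.neg R8_7_2_0) (Ls.cons (Ent.neg R8_6_2_0) (Ls.cons (Ent.neg R8_5_2_0) (Ls.cons (Ent.neg R8_4_2_0) (Ls.cons (Ent.neg R8_3_2_0) Ls.nil)))))))))))))))))))))))))))
 (Ls.cons (Ls.cons Ent.zero (Ls.cons Ent.zero (Ls.cons (Ent.neg R8_27_3_0) (Ls.cons (Ent.pos R8_26_3_0) (Ls.cons (Ent.pos R8_25_3_0) (Ls.cons (Ent.pos R8_24_3_0) (Ls.cons (Ent.pos R8_23_3_0) (Ls.cons (Ent.pos R8_22_3_0) (Ls.cons (Ent.pos R8_21_3_0) (Ls.cons (Ent.pos R8_20_3_0) (Ls.cons (Ent.pos R8_19_3_0) (Ls.cons (Ent.pos R8_18_3_0) (Ls.cons (Ent.pos R8_17_3_0) (Ls.cons (Ent.pos R8_16_3_0) (Ls.cons (Ent.pos R8_15_3_0) (Ls.cons (Ent.pos R8_14_3_0) (Ls.cons (Ent.pos R8_13_3_0) (Ls.cons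 (Ent.pos R8_12_3_0) (Ls.cons (Ent.neg R8_11_3_0) (Ls.cons (Ent.neg R8_10_3_0) (Ls.cons (Ent.neg R8_9_3_0) (Ls.cons (Ent.neg R8_8_3_0) (Ls.cons (Ent.neg R8_7_3_0) (Ls.cons (Ent.neg R8_6_3_0) (Ls.cons (Ent.neg R8_5_3_0) (Ls.cons (Ent.neg R8_4_3_0) Ls.nil))))))))))))))))))))))))))
 (Ls.cons (Ls.cons Ent.zero (Ls.cons Ent.zero (Ls.cons Ent.zero (Ls.cons Ent.zero (Ls.cons (Ent.neg R8_25_4_0) (Ls.cons (Ent.neg R8_24_4_0) (Ls.cons (Ent.neg R8_23_4_0) (Ls.cons (Ent.pos R8_22_4_0) (Ls.cons (Ent.pos R8_21_4_0) (Ls.cons (Ent.pos R8_20_4_0) (Ls.cons (Ent.pos R8_19_4_0) (Ls.cons (Ent.pos R8_18_4_0) (Ls.cons (Ent.pos R8_17_4_0) (Ls.cons (Ent.pos R8_16_4_0) (Ls.cons (Ent.pos R8_15_4_0) (Ls.cons (Ent.pos R8_14_4_0) (Ls.cons (Ent.pos R8_13_4_0) (Ls.cons (Ent.pos R8_12_4_0) (Ls.cons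 (Ent.neg R8_11_4_0) (Ls.cons (Ent.neg R8_10_4_0) (Ls.cons (Ent.neg R8_9_4_0) (Ls.cons (Ent.neg R8_8_4_0) (Ls.cons (Ent.neg R8_7_4_0) (Ls.cons (Ent.neg R8_6_4_0) (Ls.cons (Ent.neg R8_5_4_0) Ls.nil)))))))))))))))))))))))))
 (Ls.cons (Ls.cons Ent.zero (Ls.cons Ent.zero (Ls.cons Ent.zero (Ls.cons Ent.zero (Ls.cons (Ent.neg R8_25_5_0) (Ls.cons (Ent.neg R8_24_5_0) (Ls.cons (Ent.neg R8_23_5_0) (Ls.cons (Ent.neg R8_22_5_0) (Ls.cons (Ent.neg R8_21_5_0) (Ls.cons (Ent.pos R8_20_5_0) (Ls.cons (Ent.pos R8_19_5_0) (Ls.cons (Ent.pos R8_18_5_0) (Ls.cons (Ent.pos R8_17_5_0) (Ls.cons (Ent.pos R8_16_5_0) (Ls.cons (Ent.pos R8_15_5_0) (Ls.cons (Ent.pos R8_14_5_0) (Ls.cons (Ent.pos R8_13_5_0) (Ls.cons (Ent.pos R8_12_5_0) (Ls.cons (Ent.neg R8_11_5_0) (Ls.cons (Ent.neg R8_10_5_0) (Ls.cons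 (Ent.neg R8_9_5_0) (Ls.cons (Ent.neg R8_8_5_0) (Ls.cons (Ent.neg R8_7_5_0) (Ls.cons (Ent.neg R8_6_5_0) Ls.nil))))))))))))))))))))))))
 Ls.nil))))))

noncomputable def tbR8 : L3 := (Ls.cons cR8_0_0 Ls.nil)

noncomputable def bxR8_0 : L2 :=
 (Ls.cons (Ls.cons Ent.zero (Ls.cons Ent.zero (Ls.cons Ent.zero (Ls.cons Ent.zero (Ls.cons (Ent.neg R8_25_5_0) (Ls.cons (Ent.neg R8_24_5_0) (Ls.cons (Ent.neg R8_23_5_0) (Ls.cons (Ent.neg R8_22_5_0) (Ls.cons (Ent.neg R8_21_5_0) (Ls.cons (Ent.pos R8_20_5_0) (Ls.cons (Ent.pos R8_19_5_0) (Ls.cons (Ent.pos R8_18_5_0) (Ls.cons (Ent.pos R8_17_5_0) (Ls.cons (Ent.pos R8_16_5_0) (Ls.cons (Ent.pos R8_15_5_0) (Ls.cons (Ent.pos R8_14_5_0) (Ls.cons (Ent.pos R8_13_5_0) (Ls.cons (Ent.pos R8_12_5_0) (Ls.cons (Ent.neg R8_11_5_0) (Ls.cons (Ent.neg R8_10_5_0)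 (Ls.cons (Ent.neg R8_9_5_0) (Ls.cons (Ent.neg R8_8_5_0) (Ls.cons (Ent.neg R8_7_5_0) (Ls.cons (Ent.neg R8_6_5_0) (Ls.cons Ent.zero (Ls.cons (Ent.pos R8_5_4_0) (Ls.cons (Ent.pos R8_5_3_0) (Ls.cons (Ent.pos R8_5_2_0) (Ls.cons (Ent.neg R8_5_1_0) (Ls.cons Ent.zero Ls.nil))))))))))))))))))))))))))))))
 (Ls.cons (Ls.cons Ent.zero (Ls.cons Ent.zero (Ls.cons Ent.zero (Ls.cons Ent.zero (Ls.cons (Ent.neg R8_25_4_0) (Ls.cons (Ent.neg R8_24_4_0) (Ls.cons (Ent.neg R8_23_4_0) (Ls.cons (Ent.pos R8_22_4_0) (Ls.cons (Ent.pos R8_21_4_0) (Ls.cons (Ent.pos R8_20_4_0) (Ls.cons (Ent.pos R8_19_4_0) (Ls.cons (Ent.pos R8_18_4_0) (Ls.cons (Ent.pos R8_17_4_0) (Ls.cons (Ent.pos R8_16_4_0) (Ls.cons (Ent.pos R8_15_4_0) (Ls.cons (Ent.pos R8_14_4_0) (Ls.cons (Ent.pos R8_13_4_0) (Ls.cons (Ent.pos R8_12_4_0)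 (Ls.cons (Ent.neg R8_11_4_0) (Ls.cons (Ent.neg R8_10_4_0) (Ls.cons (Ent.neg R8_9_4_0) (Ls.cons (Ent.neg R8_8_4_0) (Ls.cons (Ent.neg R8_7_4_0) (Ls.cons (Ent.neg R8_6_4_0) (Ls.cons (Ent.neg R8_5_4_0) (Ls.cons Ent.zero (Ls.cons (Ent.pos R8_4_3_0) (Ls.cons (Ent.pos R8_4_2_0) (Ls.cons (Ent.neg R8_4_1_0) (Ls.cons Ent.zero Ls.nil))))))))))))))))))))))))))))))
 (Ls.cons (Ls.cons Ent.zero (Ls.cons Ent.zero (Ls.cons (Ent.neg R8_27_3_0) (Ls.cons (Ent.pos R8_26_3_0) (Ls.cons (Ent.pos R8_25_3_0) (Ls.cons (Ent.pos R8_24_3_0) (Ls.cons (Ent.pos R8_23_3_0) (Ls.cons (Ent.pos R8_22_3_0) (Ls.cons (Ent.pos R8_21_3_0) (Ls.cons (Ent.pos R8_20_3_0) (Ls.cons (Ent.pos R8_19_3_0) (Ls.cons (Ent.pos R8_18_3_0) (Ls.cons (Ent.pos R8_17_3_0) (Ls.cons (Ent.pos R8_16_3_0) (Ls.cons (Ent.pos R8_15_3_0)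 (Ls.cons (Ent.pos R8_14_3_0) (Ls.cons (Ent.pos R8_13_3_0) (Ls.cons (Ent.pos R8_12_3_0) (Ls.cons (Ent.neg R8_11_3_0) (Ls.cons (Ent.neg R8_10_3_0) (Ls.cons (Ent.neg R8_9_3_0) (Ls.cons (Ent.neg R8_8_3_0) (Ls.cons (Ent.neg R8_7_3_0) (Ls.cons (Ent.neg R8_6_3_0) (Ls.cons (Ent.neg R8_5_3_0) (Ls.cons (Ent.neg R8_4_3_0) (Ls.cons Ent.zero (Ls.cons (Ent.pos R8_3_2_0) (Ls.cons (Ent.neg R8_3_1_0) (Ls.cons Ent.zero Ls.nil))))))))))))))))))))))))))))))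
 (Ls.cons (Ls.cons Ent.zero (Ls.cons Ent.zero (Ls.cons (Ent.pos R8_27_2_0) (Ls.cons (Ent.pos R8_26_2_0) (Ls.cons (Ent.pos R8_25_2_0) (Ls.cons (Ent.pos R8_24_2_0) (Ls.cons (Ent.pos R8_23_2_0) (Ls.cons (Ent.pos R8_22_2_0) (Ls.cons (Ent.pos R8_21_2_0) (Ls.cons (Ent.pos R8_20_2_0) (Ls.cons (Ent.pos R8_19_2_0) (Ls.cons (Ent.pos R8_18_2_0) (Ls.cons (Ent.pos R8_17_2_0) (Ls.cons (Ent.pos R8_16_2_0) (Ls.cons (Ent.pos R8_15_2_0) (Ls.cons (Ent.pos R8_14_2_0) (Ls.cons (Ent.pos R8_13_2_0) (Ls.cons (Ent.neg R8_12_2_0) (Ls.cons (Ent.neg R8_11_2_0) (Ls.cons (Ent.neg R8_10_2_0) (Ls.cons (Ent.neg R8_9_2_0) (Ls.cons (Ent.neg R8_8_2_0) (Ls.cons (Ent.neg R8_7_2_0) (Ls.cons (Ent.neg R8_6_2_0) (Ls.cons (Ent.neg R8_5_2_0) (Ls.cons (Ent.neg R8_4_2_0) (Ls.cons (Ent.neg R8_3_2_0) (Ls.cons Ent.zero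 (Ls.cons (Ent.pos R8_2_1_0) (Ls.cons Ent.zero Ls.nil))))))))))))))))))))))))))))))
 (Ls.cons (Ls.cons (Ent.pos R8_29_1_0) (Ls.cons (Ent.neg R8_28_1_0) (Ls.cons (Ent.neg R8_27_1_0) (Ls.cons (Ent.neg R8_26_1_0) (Ls.cons (Ent.neg R8_25_1_0) (Ls.cons (Ent.neg R8_24_1_0) (Ls.cons (Ent.neg R8_23_1_0) (Ls.cons (Ent.neg R8_22_1_0) (Ls.cons (Ent.neg R8_21_1_0) (Ls.cons (Ent.neg R8_20_1_0) (Ls.cons (Ent.neg R8_19_1_0) (Ls.cons (Ent.neg R8_18_1_0) (Ls.cons (Ent.neg R8_17_1_0) (Ls.cons (Ent.neg R8_16_1_0) (Ls.cons (Ent.neg R8_15_1_0) (Ls.cons (Ent.neg R8_14_1_0) (Ls.cons (Ent.neg R8_13_1_0) (Ls.cons (Ent.pos R8_12_1_0) (Ls.cons (Ent.pos R8_11_1_0) (Ls.cons (Ent.pos R8_10_1_0) (Ls.cons (Ent.pos R8_9_1_0) (Ls.cons (Ent.pos R8_8_1_0) (Ls.cons (Ent.pos R8_7_1_0) (Ls.cons (Ent.pos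 R8_6_1_0) (Ls.cons (Ent.pos R8_5_1_0) (Ls.cons (Ent.pos R8_4_1_0) (Ls.cons (Ent.pos R8_3_1_0) (Ls.cons (Ent.neg R8_2_1_0) (Ls.cons Ent.zero (Ls.cons Ent.zero Ls.nil))))))))))))))))))))))))))))))
 (Ls.cons (Ls.cons Ent.zero (Ls.cons Ent.zero (Ls.cons Ent.zero (Ls.cons Ent.zero (Ls.cons Ent.zero (Ls.cons Ent.zero (Ls.cons Ent.zero (Ls.cons Ent.zero (Ls.cons Ent.zero (Ls.cons Ent.zero (Ls.cons Ent.zero (Ls.cons Ent.zero (Ls.cons Ent.zero (Ls.cons Ent.zero (Ls.cons Ent.zero (Ls.cons Ent.zero (Ls.cons Ent.zero (Ls.cons Ent.zero (Ls.cons Ent.zero (Ls.cons Ent.zero (Ls.cons Ent.zero (Ls.cons Ent.zero (Ls.cons Ent.zero (Ls.cons Ent.zero (Ls.cons Ent.zero (Ls.cons Ent.zero (Ls.cons Ent.zero (Ls.cons Ent.zero (Ls.cons Ent.zero (Ls.cons Ent.zero Ls.nil))))))))))))))))))))))))))))))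
 Ls.nil))))))

noncomputable def boxR8 : L3 := (Ls.cons bxR8_0 Ls.nil)

noncomputable def bsR9 : Ls L3 := Ls.cons boxR8 bsR8

end Vale.Agent.P181.K
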