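import Vale.Agent.P181.Six.R.D9_0
import Vale.Agent.P181.Six.R.B8

set_option maxRecDepth 100000
set_option maxHeartbeats 0

namespace Vale.Agent.P181.K

noncomputable def cR9_0_0 : L2 :=
 (Ls.cons Ls.nil
 (Ls.cons (Ls.cons (Ent.neg R9_29_1_0) (Ls.cons (Ent.neg R9_28_1_0) (Ls.cons (Ent.neg R9_27_1_0) (Ls.cons (Ent.neg R9_26_1_0) (Ls.cons (Ent.neg R9_25_1_0) (Ls.cons (Ent.neg R9_24_1_0) (Ls.cons (Ent.neg R9_23_1_0) (Ls.cons (Ent.neg R9_22_1_0) (Ls.cons (Ent.neg R9_21_1_0) (Ls.cons (Ent.neg R9_20_1_0) (Ls.cons (Ent.neg R9_19_1_0) (Ls.cons (Ent.neg R9_18_1_0) (Ls.cons (Ent.neg R9_17_1_0) (Ls.cons (Ent.neg R9_16_1_0) (Ls.cons (Ent.pos R9_15_1_0) (Ls.cons (Ent.pos R9_14_1_0) (Ls.cons (Ent.pos R9_13_1_0) (Ls.cons (Ent.pos R9_12_1_0) (Ls.cons (Ent.pos R9_11_1_0) (Ls.cons (Ent.pos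 R9_10_1_0) (Ls.cons (Ent.pos R9_9_1_0) (Ls.cons (Ent.pos R9_8_1_0) (Ls.cons (Ent.pos R9_7_1_0) (Ls.cons (Ent.pos R9_6_1_0) (Ls.cons (Ent.pos R9_5_1_0) (Ls.cons (Ent.pos R9_4_1_0) (Ls.cons (Ent.pos R9_3_1_0) (Ls.cons (Ent.neg R9_2_1_0) Ls.nil))))))))))))))))))))))))))))
 (Ls.cons (Ls.cons Ent.zero (Ls.cons Ent.zero (Ls.cons (Ent.pos R9_27_2_0) (Ls.cons (Ent.pos R9_26_2_0) (Ls.cons (Ent.pos R9_25_2_0) (Ls.cons (Ent.pos R9_24_2_0) (Ls.cons (Ent.pos R9_23_2_0) (Ls.cons (Ent.pos R9_22_2_0) (Ls.cons (Ent.pos R9_21_2_0) (Ls.cons (Ent.pos R9_20_2_0) (Ls.cons (Ent.pos R9_19_2_0) (Ls.cons (Ent.pos R9_18_2_0) (Ls.cons (Ent.pos R9_17_2_0) (Ls.cons (Ent.neg R9_16_2_0) (Ls.cons (Ent.neg R9_15_2_0) (Ls.cons (Ent.neg R9_14_2_0) (Ls.cons (Ent.neg R9_13_2_0) (Ls.cons (Ent.neg R9_12_2_0)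 (Ls.cons (Ent.neg R9_11_2_0) (Ls.cons (Ent.neg R9_10_2_0) (Ls.cons (Ent.neg R9_9_2_0) (Ls.cons (Ent.neg R9_8_2_0) (Ls.cons (Ent.neg R9_7_2_0) (Ls.cons (Ent.neg R9_6_2_0) (Ls.cons (Ent.neg R9_5_2_0) (Ls.cons (Ent.neg R9_4_2_0) (Ls.cons (Ent.neg R9_3_2_0) Ls.nil)))))))))))))))))))))))))))
 (Ls.cons (Ls.cons Ent.zero (Ls.cons Ent.zero (Ls.cons (Ent.pos R9_27_3_0) (Ls.cons (Ent.pos R9_26_3_0) (Ls.cons (Ent.pos R9_25_3_0) (Ls.cons (Ent.pos R9_24_3_0) (Ls.cons (Ent.pos R9_23_3_0) (Ls.cons (Ent.pos R9_22_3_0) (Ls.cons (Ent.pos R9_21_3_0) (Ls.cons (Ent.pos R9_20_3_0) (Ls.cons (Ent.pos R9_19_3_0) (Ls.cons (Ent.pos R9_18_3_0) (Ls.cons (Ent.pos R9_17_3_0) (Ls.cons (Ent.pos R9_16_3_0) (Ls.cons (Ent.neg R9_15_3_0) (Ls.cons (Ent.neg R9_14_3_0) (Ls.cons (Ent.neg R9_13_3_0) (Ls.cons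 (Ent.neg R9_12_3_0) (Ls.cons (Ent.neg R9_11_3_0) (Ls.cons (Ent.neg R9_10_3_0) (Ls.cons (Ent.neg R9_9_3_0) (Ls.cons (Ent.neg R9_8_3_0) (Ls.cons (Ent.neg R9_7_3_0) (Ls.cons (Ent.neg R9_6_3_0) (Ls.cons (Ent.neg R9_5_3_0) (Ls.cons (Ent.neg R9_4_3_0) Ls.nil))))))))))))))))))))))))))
 (Ls.cons (Ls.cons Ent.zero (Ls.cons Ent.zero (Ls.cons Ent.zero (Ls.cons Ent.zero (Ls.cons (Ent.pos R9_25_4_0) (Ls.cons (Ent.pos R9_24_4_0) (Ls.cons (Ent.pos R9_23_4_0) (Ls.cons (Ent.pos R9_22_4_0) (Ls.cons (Ent.pos R9_21_4_0) (Ls.cons (Ent.pos R9_20_4_0) (Ls.cons (Ent.pos R9_19_4_0) (Ls.cons (Ent.pos R9_18_4_0) (Ls.cons (Ent.pos R9_17_4_0) (Ls.cons (Ent.pos R9_16_4_0) (Ls.cons (Ent.neg R9_15_4_0) (Ls.cons (Ent.neg R9_14_4_0) (Ls.cons (Ent.neg R9_13_4_0) (Ls.cons (Ent.neg R9_12_4_0) (Ls.cons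 (Ent.neg R9_11_4_0) (Ls.cons (Ent.neg R9_10_4_0) (Ls.cons (Ent.neg R9_9_4_0) (Ls.cons (Ent.neg R9_8_4_0) (Ls.cons (Ent.neg R9_7_4_0) (Ls.cons (Ent.neg R9_6_4_0) (Ls.cons (Ent.neg R9_5_4_0) Ls.nil)))))))))))))))))))))))))
 (Ls.cons (Ls.cons Ent.zero (Ls.cons Ent.zero (Ls.cons Ent.zero (Ls.cons Ent.zero (Ls.cons (Ent.pos R9_25_5_0) (Ls.cons (Ent.pos R9_24_5_0) (Ls.cons (Ent.pos R9_23_5_0) (Ls.cons (Ent.pos R9_22_5_0) (Ls.cons (Ent.pos R9_21_5_0) (Ls.cons (Ent.pos R9_20_5_0) (Ls.cons (Ent.pos R9_19_5_0) (Ls.cons (Ent.pos R9_18_5_0) (Ls.cons (Ent.pos R9_17_5_0) (Ls.cons (Ent.pos R9_16_5_0) (Ls.cons (Ent.pos R9_15_5_0) (Ls.cons (Ent.neg R9_14_5_0) (Ls.cons (Ent.neg R9_13_5_0) (Ls.cons (Ent.neg R9_12_5_0) (Ls.cons (Ent.neg R9_11_5_0) (Ls.cons (Ent.neg R9_10_5_0) (Ls.cons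 (Ent.neg R9_9_5_0) (Ls.cons (Ent.neg R9_8_5_0) (Ls.cons (Ent.neg R9_7_5_0) (Ls.cons (Ent.neg R9_6_5_0) Ls.nil))))))))))))))))))))))))
 Ls.nil))))))

noncomputable def tbR9 : L3 := (Ls.cons cR9_0_0 Ls.nil)

noncomputable def bxR9_0 : L2 :=
 (Ls.cons (Ls.cons Ent.zero (Ls.cons Ent.zero (Ls.cons Ent.zero (Ls.cons Ent.zero (Ls.cons (Ent.pos R9_25_5_0) (Ls.cons (Ent.pos R9_24_5_0) (Ls.cons (Ent.pos R9_23_5_0) (Ls.cons (Ent.pos R9_22_5_0) (Ls.cons (Ent.pos R9_21_5_0) (Ls.cons (Ent.pos R9_20_5_0) (Ls.cons (Ent.pos R9_19_5_0) (Ls.cons (Ent.pos R9_18_5_0) (Ls.cons (Ent.pos R9_17_5_0) (Ls.cons (Ent.pos R9_16_5_0) (Ls.cons (Ent.pos R9_15_5_0) (Ls.cons (Ent.neg R9_14_5_0) (Ls.cons (Ent.neg R9_13_5_0) (Ls.cons (Ent.neg R9_12_5_0) (Ls.cons (Ent.neg R9_11_5_0) (Ls.cons (Ent.neg R9_10_5_0)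 (Ls.cons (Ent.neg R9_9_5_0) (Ls.cons (Ent.neg R9_8_5_0) (Ls.cons (Ent.neg R9_7_5_0) (Ls.cons (Ent.neg R9_6_5_0) (Ls.cons Ent.zero (Ls.cons (Ent.pos R9_5_4_0) (Ls.cons (Ent.pos R9_5_3_0) (Ls.cons (Ent.pos R9_5_2_0) (Ls.cons (Ent.neg R9_5_1_0) (Ls.cons Ent.zero Ls.nil))))))))))))))))))))))))))))))
 (Ls.cons (Ls.cons Ent.zero (Ls.cons Ent.zero (Ls.cons Ent.zero (Ls.cons Ent.zero (Ls.cons (Ent.pos R9_25_4_0) (Ls.cons (Ent.pos R9_24_4_0) (Ls.cons (Ent.pos R9_23_4_0) (Ls.cons (Ent.pos R9_22_4_0) (Ls.cons (Ent.pos R9_21_4_0) (Ls.cons (Ent.pos R9_20_4_0) (Ls.cons (Ent.pos R9_19_4_0) (Ls.cons (Ent.pos R9_18_4_0) (Ls.cons (Ent.pos R9_17_4_0) (Ls.cons (Ent.pos R9_16_4_0) (Ls.cons (Ent.neg R9_15_4_0) (Ls.cons (Ent.neg R9_14_4_0) (Ls.cons (Ent.neg R9_13_4_0) (Ls.cons (Ent.neg R9_12_4_0)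 (Ls.cons (Ent.neg R9_11_4_0) (Ls.cons (Ent.neg R9_10_4_0) (Ls.cons (Ent.neg R9_9_4_0) (Ls.cons (Ent.neg R9_8_4_0) (Ls.cons (Ent.neg R9_7_4_0) (Ls.cons (Ent.neg R9_6_4_0) (Ls.cons (Ent.neg R9_5_4_0) (Ls.cons Ent.zero (Ls.cons (Ent.pos R9_4_3_0) (Ls.cons (Ent.pos R9_4_2_0) (Ls.cons (Ent.neg R9_4_1_0) (Ls.cons Ent.zero Ls.nil))))))))))))))))))))))))))))))
 (Ls.cons (Ls.cons Ent.zero (Ls.cons Ent.zero (Ls.cons (Ent.pos R9_27_3_0) (Ls.cons (Ent.pos R9_26_3_0) (Ls.cons (Ent.pos R9_25_3_0) (Ls.cons (Ent.pos R9_24_3_0) (Ls.cons (Ent.pos R9_23_3_0) (Ls.cons (Ent.pos R9_22_3_0) (Ls.cons (Ent.pos R9_21_3_0) (Ls.cons (Ent.pos R9_20_3_0) (Ls.cons (Ent.pos R9_19_3_0) (Ls.cons (Ent.pos R9_18_3_0) (Ls.cons (Ent.pos R9_17_3_0) (Ls.cons (Ent.pos R9_16_3_0) (Ls.cons (Ent.neg R9_15_3_0)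 (Ls.cons (Ent.neg R9_14_3_0) (Ls.cons (Ent.neg R9_13_3_0) (Ls.cons (Ent.neg R9_12_3_0) (Ls.cons (Ent.neg R9_11_3_0) (Ls.cons (Ent.neg R9_10_3_0) (Ls.cons (Ent.neg R9_9_3_0) (Ls.cons (Ent.neg R9_8_3_0) (Ls.cons (Ent.neg R9_7_3_0) (Ls.cons (Ent.neg R9_6_3_0) (Ls.cons (Ent.neg R9_5_3_0) (Ls.cons (Ent.neg R9_4_3_0) (Ls.cons Ent.zero (Ls.cons (Ent.pos R9_3_2_0) (Ls.cons (Ent.neg R9_3_1_0) (Ls.cons Ent.zero Ls.nil))))))))))))))))))))))))))))))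
 (Ls.cons (Ls.cons Ent.zero (Ls.cons Ent.zero (Ls.cons (Ent.pos R9_27_2_0) (Ls.cons (Ent.pos R9_26_2_0) (Ls.cons (Ent.pos R9_25_2_0) (Ls.cons (Ent.pos R9_24_2_0) (Ls.cons (Ent.pos R9_23_2_0) (Ls.cons (Ent.pos R9_22_2_0) (Ls.cons (Ent.pos R9_21_2_0) (Ls.cons (Ent.pos R9_20_2_0) (Ls.cons (Ent.pos R9_19_2_0) (Ls.cons (Ent.pos R9_18_2_0) (Ls.cons (Ent.pos R9_17_2_0) (Ls.cons (Ent.neg R9_16_2_0) (Ls.cons (Ent.neg R9_15_2_0) (Ls.cons (Ent.neg R9_14_2_0) (Ls.cons (Ent.neg R9_13_2_0) (Ls.cons (Ent.neg R9_12_2_0) (Ls.cons (Ent.neg R9_11_2_0) (Ls.cons (Ent.neg R9_10_2_0) (Ls.cons (Ent.neg R9_9_2_0) (Ls.cons (Ent.neg R9_8_2_0) (Ls.cons (Ent.neg R9_7_2_0) (Ls.cons (Ent.neg R9_6_2_0) (Ls.cons (Ent.neg R9_5_2_0) (Ls.cons (Ent.neg R9_4_2_0) (Ls.cons (Ent.neg R9_3_2_0) (Ls.cons Ent.zero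 (Ls.cons (Ent.pos R9_2_1_0) (Ls.cons Ent.zero Ls.nil))))))))))))))))))))))))))))))
 (Ls.cons (Ls.cons (Ent.neg R9_29_1_0) (Ls.cons (Ent.neg R9_28_1_0) (Ls.cons (Ent.neg R9_27_1_0) (Ls.cons (Ent.neg R9_26_1_0) (Ls.cons (Ent.neg R9_25_1_0) (Ls.cons (Ent.neg R9_24_1_0) (Ls.cons (Ent.neg R9_23_1_0) (Ls.cons (Ent.neg R9_22_1_0) (Ls.cons (Ent.neg R9_21_1_0) (Ls.cons (Ent.neg R9_20_1_0) (Ls.cons (Ent.neg R9_19_1_0) (Ls.cons (Ent.neg R9_18_1_0) (Ls.cons (Ent.neg R9_17_1_0) (Ls.cons (Ent.neg R9_16_1_0) (Ls.cons (Ent.pos R9_15_1_0) (Ls.cons (Ent.pos R9_14_1_0) (Ls.cons (Ent.pos R9_13_1_0) (Ls.cons (Ent.pos R9_12_1_0) (Ls.cons (Ent.pos R9_11_1_0) (Ls.cons (Ent.pos R9_10_1_0) (Ls.cons (Ent.pos R9_9_1_0) (Ls.cons (Ent.pos R9_8_1_0) (Ls.cons (Ent.pos R9_7_1_0) (Ls.cons (Ent.pos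 R9_6_1_0) (Ls.cons (Ent.pos R9_5_1_0) (Ls.cons (Ent.pos R9_4_1_0) (Ls.cons (Ent.pos R9_3_1_0) (Ls.cons (Ent.neg R9_2_1_0) (Ls.cons Ent.zero (Ls.cons Ent.zero Ls.nil))))))))))))))))))))))))))))))
 (Ls.cons (Ls.cons Ent.zero (Ls.cons Ent.zero (Ls.cons Ent.zero (Ls.cons Ent.zero (Ls.cons Ent.zero (Ls.cons Ent.zero (Ls.cons Ent.zero (Ls.cons Ent.zero (Ls.cons Ent.zero (Ls.cons Ent.zero (Ls.cons Ent.zero (Ls.cons Ent.zero (Ls.cons Ent.zero (Ls.cons Ent.zero (Ls.cons Ent.zero (Ls.cons Ent.zero (Ls.cons Ent.zero (Ls.cons Ent.zero (Ls.cons Ent.zero (Ls.cons Ent.zero (Ls.cons Ent.zero (Ls.cons Ent.zero (Ls.cons Ent.zero (Ls.cons Ent.zero (Ls.cons Ent.zero (Ls.cons Ent.zero (Ls.cons Ent.zero (Ls.cons Ent.zero (Ls.cons Ent.zero (Ls.cons Ent.zero Ls.nil))))))))))))))))))))))))))))))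
 Ls.nil))))))

noncomputable def boxR9 : L3 := (Ls.cons bxR9_0 Ls.nil)

noncomputable def bsR10 : Ls L3 := Ls.cons boxR9 bsR9

end Vale.Agent.P181.K
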