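import Vale.Agent.P181.Six.R.D10_0
import Vale.Agent.P181.Six.R.B9

set_option maxRecDepth 100000
set_option maxHeartbeats 0

namespace Vale.Agent.P181.K

noncomputable def cR10_0_0 : L2 :=
 (Ls.cons Ls.nil
 (Ls.cons (Ls.cons (Ent.neg R10_29_1_0) (Ls.cons (Ent.neg R10_28_1_0) (Ls.cons (Ent.neg R10_27_1_0) (Ls.cons (Ent.neg R10_26_1_0) (Ls.cons (Ent.neg R10_25_1_0) (Ls.cons (Ent.neg R10_24_1_0) (Ls.cons (Ent.neg R10_23_1_0) (Ls.cons (Ent.neg R10_22_1_0) (Ls.cons (Ent.neg R10_21_1_0) (Ls.cons (Ent.neg R10_20_1_0) (Ls.cons (Ent.pos R10_19_1_0) (Ls.cons (Ent.pos R10_18_1_0) (Ls.cons (Ent.pos R10_17_1_0) (Ls.cons (Ent.pos R10_16_1_0) (Ls.cons (Ent.pos R10_15_1_0) (Ls.cons (Ent.pos R10_14_1_0) (Ls.cons (Ent.pos R10_13_1_0) (Ls.cons (Ent.pos R10_12_1_0) (Ls.cons (Ent.pos R10_11_1_0) (Ls.cons (Ent.pos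 R10_10_1_0) (Ls.cons (Ent.pos R10_9_1_0) (Ls.cons (Ent.pos R10_8_1_0) (Ls.cons (Ent.pos R10_7_1_0) (Ls.cons (Ent.pos R10_6_1_0) (Ls.cons (Ent.pos R10_5_1_0) (Ls.cons (Ent.pos R10_4_1_0) (Ls.cons (Ent.pos R10_3_1_0) (Ls.cons (Ent.neg R10_2_1_0) Ls.nil))))))))))))))))))))))))))))
 (Ls.cons (Ls.cons Ent.zero (Ls.cons Ent.zero (Ls.cons (Ent.pos R10_27_2_0) (Ls.cons (Ent.pos R10_26_2_0) (Ls.cons (Ent.pos R10_25_2_0) (Ls.cons (Ent.pos R10_24_2_0) (Ls.cons (Ent.pos R10_23_2_0) (Ls.cons (Ent.pos R10_22_2_0) (Ls.cons (Ent.pos R10_21_2_0) (Ls.cons (Ent.neg R10_20_2_0) (Ls.cons (Ent.neg R10_19_2_0) (Ls.cons (Ent.neg R10_18_2_0) (Ls.cons (Ent.neg R10_17_2_0) (Ls.cons (Ent.neg R10_16_2_0) (Ls.cons (Ent.neg R10_15_2_0) (Ls.cons (Ent.neg R10_14_2_0) (Ls.cons (Ent.neg R10_13_2_0) (Ls.cons (Ent.neg R10_12_2_0)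 (Ls.cons (Ent.neg R10_11_2_0) (Ls.cons (Ent.neg R10_10_2_0) (Ls.cons (Ent.neg R10_9_2_0) (Ls.cons (Ent.neg R10_8_2_0) (Ls.cons (Ent.neg R10_7_2_0) (Ls.cons (Ent.neg R10_6_2_0) (Ls.cons (Ent.neg R10_5_2_0) (Ls.cons (Ent.neg R10_4_2_0) (Ls.cons (Ent.neg R10_3_2_0) Ls.nil)))))))))))))))))))))))))))
 (Ls.cons (Ls.cons Ent.zero (Ls.cons Ent.zero (Ls.cons (Ent.pos R10_27_3_0) (Ls.cons (Ent.pos R10_26_3_0) (Ls.cons (Ent.pos R10_25_3_0) (Ls.cons (Ent.pos R10_24_3_0) (Ls.cons (Ent.pos R10_23_3_0) (Ls.cons (Ent.pos R10_22_3_0) (Ls.cons (Ent.pos R10_21_3_0) (Ls.cons (Ent.pos R10_20_3_0) (Ls.cons (Ent.neg R10_19_3_0) (Ls.cons (Ent.neg R10_18_3_0) (Ls.cons (Ent.neg R10_17_3_0) (Ls.cons (Ent.neg R10_16_3_0) (Ls.cons (Ent.neg R10_15_3_0) (Ls.cons (Ent.neg R10_14_3_0) (Ls.cons (Ent.neg R10_13_3_0) (Ls.cons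 (Ent.neg R10_12_3_0) (Ls.cons (Ent.neg R10_11_3_0) (Ls.cons (Ent.neg R10_10_3_0) (Ls.cons (Ent.neg R10_9_3_0) (Ls.cons (Ent.neg R10_8_3_0) (Ls.cons (Ent.neg R10_7_3_0) (Ls.cons (Ent.neg R10_6_3_0) (Ls.cons (Ent.neg R10_5_3_0) (Ls.cons (Ent.neg R10_4_3_0) Ls.nil))))))))))))))))))))))))))
 (Ls.cons (Ls.cons Ent.zero (Ls.cons Ent.zero (Ls.cons Ent.zero (Ls.cons Ent.zero (Ls.cons (Ent.pos R10_25_4_0) (Ls.cons (Ent.pos R10_24_4_0) (Ls.cons (Ent.pos R10_23_4_0) (Ls.cons (Ent.pos R10_22_4_0) (Ls.cons (Ent.pos R10_21_4_0) (Ls.cons (Ent.pos R10_20_4_0) (Ls.cons (Ent.pos R10_19_4_0) (Ls.cons (Ent.neg R10_18_4_0) (Ls.cons (Ent.neg R10_17_4_0) (Ls.cons (Ent.neg R10_16_4_0) (Ls.cons (Ent.neg R10_15_4_0) (Ls.cons (Ent.neg R10_14_4_0) (Ls.cons (Ent.neg R10_13_4_0) (Ls.cons (Ent.neg R10_12_4_0) (Ls.cons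 (Ent.neg R10_11_4_0) (Ls.cons (Ent.neg R10_10_4_0) (Ls.cons (Ent.neg R10_9_4_0) (Ls.cons (Ent.neg R10_8_4_0) (Ls.cons (Ent.neg R10_7_4_0) (Ls.cons (Ent.neg R10_6_4_0) (Ls.cons (Ent.neg R10_5_4_0) Ls.nil)))))))))))))))))))))))))
 (Ls.cons (Ls.cons Ent.zero (Ls.cons Ent.zero (Ls.cons Ent.zero (Ls.cons Ent.zero (Ls.cons (Ent.pos R10_25_5_0) (Ls.cons (Ent.pos R10_24_5_0) (Ls.cons (Ent.pos R10_23_5_0) (Ls.cons (Ent.pos R10_22_5_0) (Ls.cons (Ent.pos R10_21_5_0) (Ls.cons (Ent.pos R10_20_5_0) (Ls.cons (Ent.pos R10_19_5_0) (Ls.cons (Ent.neg R10_18_5_0) (Ls.cons (Ent.neg R10_17_5_0) (Ls.cons (Ent.neg R10_16_5_0) (Ls.cons (Ent.neg R10_15_5_0) (Ls.cons (Ent.neg R10_14_5_0) (Ls.cons (Ent.neg R10_13_5_0) (Ls.cons (Ent.neg R10_12_5_0) (Ls.cons (Ent.neg R10_11_5_0) (Ls.cons (Ent.neg R10_10_5_0) (Ls.cons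 (Ent.neg R10_9_5_0) (Ls.cons (Ent.neg R10_8_5_0) (Ls.cons (Ent.neg R10_7_5_0) (Ls.cons (Ent.neg R10_6_5_0) Ls.nil))))))))))))))))))))))))
 Ls.nil))))))

noncomputable def tbR10 : L3 := (Ls.cons cR10_0_0 Ls.nil)

noncomputable def bxR10_0 : L2 :=
 (Ls.cons (Ls.cons Ent.zero (Ls.cons Ent.zero (Ls.cons Ent.zero (Ls.cons Ent.zero (Ls.cons (Ent.pos R10_25_5_0) (Ls.cons (Ent.pos R10_24_5_0) (Ls.cons (Ent.pos R10_23_5_0) (Ls.cons (Ent.pos R10_22_5_0) (Ls.cons (Ent.pos R10_21_5_0) (Ls.cons (Ent.pos R10_20_5_0) (Ls.cons (Ent.pos R10_19_5_0) (Ls.cons (Ent.neg R10_18_5_0) (Ls.cons (Ent.neg R10_17_5_0) (Ls.cons (Ent.neg R10_16_5_0) (Ls.cons (Ent.neg R10_15_5_0) (Ls.cons (Ent.neg R10_14_5_0) (Ls.cons (Ent.neg R10_13_5_0) (Ls.cons (Ent.neg R10_12_5_0) (Ls.cons (Ent.neg R10_11_5_0) (Ls.cons (Ent.neg R10_10_5_0)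 (Ls.cons (Ent.neg R10_9_5_0) (Ls.cons (Ent.neg R10_8_5_0) (Ls.cons (Ent.neg R10_7_5_0) (Ls.cons (Ent.neg R10_6_5_0) (Ls.cons Ent.zero (Ls.cons (Ent.pos R10_5_4_0) (Ls.cons (Ent.pos R10_5_3_0) (Ls.cons (Ent.pos R10_5_2_0) (Ls.cons (Ent.neg R10_5_1_0) (Ls.cons Ent.zero Ls.nil))))))))))))))))))))))))))))))
 (Ls.cons (Ls.cons Ent.zero (Ls.cons Ent.zero (Ls.cons Ent.zero (Ls.cons Ent.zero (Ls.cons (Ent.pos R10_25_4_0) (Ls.cons (Ent.pos R10_24_4_0) (Ls.cons (Ent.pos R10_23_4_0) (Ls.cons (Ent.pos R10_22_4_0) (Ls.cons (Ent.pos R10_21_4_0) (Ls.cons (Ent.pos R10_20_4_0) (Ls.cons (Ent.pos R10_19_4_0) (Ls.cons (Ent.neg R10_18_4_0) (Ls.cons (Ent.neg R10_17_4_0) (Ls.cons (Ent.neg R10_16_4_0) (Ls.cons (Ent.neg R10_15_4_0) (Ls.cons (Ent.neg R10_14_4_0) (Ls.cons (Ent.neg R10_13_4_0) (Ls.cons (Ent.neg R10_12_4_0)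 (Ls.cons (Ent.neg R10_11_4_0) (Ls.cons (Ent.neg R10_10_4_0) (Ls.cons (Ent.neg R10_9_4_0) (Ls.cons (Ent.neg R10_8_4_0) (Ls.cons (Ent.neg R10_7_4_0) (Ls.cons (Ent.neg R10_6_4_0) (Ls.cons (Ent.neg R10_5_4_0) (Ls.cons Ent.zero (Ls.cons (Ent.pos R10_4_3_0) (Ls.cons (Ent.pos R10_4_2_0) (Ls.cons (Ent.neg R10_4_1_0) (Ls.cons Ent.zero Ls.nil))))))))))))))))))))))))))))))
 (Ls.cons (Ls.cons Ent.zero (Ls.cons Ent.zero (Ls.cons (Ent.pos R10_27_3_0) (Ls.cons (Ent.pos R10_26_3_0) (Ls.cons (Ent.pos R10_25_3_0) (Ls.cons (Ent.pos R10_24_3_0) (Ls.cons (Ent.pos R10_23_3_0) (Ls.cons (Ent.pos R10_22_3_0) (Ls.cons (Ent.pos R10_21_3_0) (Ls.cons (Ent.pos R10_20_3_0) (Ls.cons (Ent.neg R10_19_3_0) (Ls.cons (Ent.neg R10_18_3_0) (Ls.cons (Ent.neg R10_17_3_0) (Ls.cons (Ent.neg R10_16_3_0) (Ls.cons (Ent.neg R10_15_3_0)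 (Ls.cons (Ent.neg R10_14_3_0) (Ls.cons (Ent.neg R10_13_3_0) (Ls.cons (Ent.neg R10_12_3_0) (Ls.cons (Ent.neg R10_11_3_0) (Ls.cons (Ent.neg R10_10_3_0) (Ls.cons (Ent.neg R10_9_3_0) (Ls.cons (Ent.neg R10_8_3_0) (Ls.cons (Ent.neg R10_7_3_0) (Ls.cons (Ent.neg R10_6_3_0) (Ls.cons (Ent.neg R10_5_3_0) (Ls.cons (Ent.neg R10_4_3_0) (Ls.cons Ent.zero (Ls.cons (Ent.pos R10_3_2_0) (Ls.cons (Ent.neg R10_3_1_0) (Ls.cons Ent.zero Ls.nil))))))))))))))))))))))))))))))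
 (Ls.cons (Ls.cons Ent.zero (Ls.cons Ent.zero (Ls.cons (Ent.pos R10_27_2_0) (Ls.cons (Ent.pos R10_26_2_0) (Ls.cons (Ent.pos R10_25_2_0) (Ls.cons (Ent.pos R10_24_2_0) (Ls.cons (Ent.pos R10_23_2_0) (Ls.cons (Ent.pos R10_22_2_0) (Ls.cons (Ent.pos R10_21_2_0) (Ls.cons (Ent.neg R10_20_2_0) (Ls.cons (Ent.neg R10_19_2_0) (Ls.cons (Ent.neg R10_18_2_0) (Ls.cons (Ent.neg R10_17_2_0) (Ls.cons (Ent.neg R10_16_2_0) (Ls.cons (Ent.neg R10_15_2_0) (Ls.cons (Ent.neg R10_14_2_0) (Ls.cons (Ent.neg R10_13_2_0) (Ls.cons (Ent.neg R10_12_2_0) (Ls.cons (Ent.neg R10_11_2_0) (Ls.cons (Ent.neg R10_10_2_0) (Ls.cons (Ent.neg R10_9_2_0) (Ls.cons (Ent.neg R10_8_2_0) (Ls.cons (Ent.neg R10_7_2_0) (Ls.cons (Ent.neg R10_6_2_0) (Ls.cons (Ent.neg R10_5_2_0) (Ls.cons (Ent.neg R10_4_2_0) (Ls.cons (Ent.neg R10_3_2_0) (Ls.cons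 Ent.zero (Ls.cons (Ent.pos R10_2_1_0) (Ls.cons Ent.zero Ls.nil))))))))))))))))))))))))))))))
 (Ls.cons (Ls.cons (Ent.neg R10_29_1_0) (Ls.cons (Ent.neg R10_28_1_0) (Ls.cons (Ent.neg R10_27_1_0) (Ls.cons (Ent.neg R10_26_1_0) (Ls.cons (Ent.neg R10_25_1_0) (Ls.cons (Ent.neg R10_24_1_0) (Ls.cons (Ent.neg R10_23_1_0) (Ls.cons (Ent.neg R10_22_1_0) (Ls.cons (Ent.neg R10_21_1_0) (Ls.cons (Ent.neg R10_20_1_0) (Ls.cons (Ent.pos R10_19_1_0) (Ls.cons (Ent.pos R10_18_1_0) (Ls.cons (Ent.pos R10_17_1_0) (Ls.cons (Ent.pos R10_16_1_0) (Ls.cons (Ent.pos R10_15_1_0) (Ls.cons (Ent.pos R10_14_1_0) (Ls.cons (Ent.pos R10_13_1_0) (Ls.cons (Ent.pos R10_12_1_0) (Ls.cons (Ent.pos R10_11_1_0) (Ls.cons (Ent.pos R10_10_1_0) (Ls.cons (Ent.pos R10_9_1_0) (Ls.cons (Ent.pos R10_8_1_0) (Ls.cons (Ent.pos R10_7_1_0) (Ls.cons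 (Ent.pos R10_6_1_0) (Ls.cons (Ent.pos R10_5_1_0) (Ls.cons (Ent.pos R10_4_1_0) (Ls.cons (Ent.pos R10_3_1_0) (Ls.cons (Ent.neg R10_2_1_0) (Ls.cons Ent.zero (Ls.cons Ent.zero Ls.nil))))))))))))))))))))))))))))))
 (Ls.cons (Ls.cons Ent.zero (Ls.cons Ent.zero (Ls.cons Ent.zero (Ls.cons Ent.zero (Ls.cons Ent.zero (Ls.cons Ent.zero (Ls.cons Ent.zero (Ls.cons Ent.zero (Ls.cons Ent.zero (Ls.cons Ent.zero (Ls.cons Ent.zero (Ls.cons Ent.zero (Ls.cons Ent.zero (Ls.cons Ent.zero (Ls.cons Ent.zero (Ls.cons Ent.zero (Ls.cons Ent.zero (Ls.cons Ent.zero (Ls.cons Ent.zero (Ls.cons Ent.zero (Ls.cons Ent.zero (Ls.cons Ent.zero (Ls.cons Ent.zero (Ls.cons Ent.zero (Ls.cons Ent.zero (Ls.cons Ent.zero (Ls.cons Ent.zero (Ls.cons Ent.zero (Ls.cons Ent.zero (Ls.cons Ent.zero Ls.nil))))))))))))))))))))))))))))))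
 Ls.nil))))))

noncomputable def boxR10 : L3 := (Ls.cons bxR10_0 Ls.nil)

noncomputable def bsR11 : Ls L3 := Ls.cons boxR10 bsR10

end Vale.Agent.P181.K
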