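import Vale.Agent.P181.Six.R.D11_0
import Vale.Agent.P181.Six.R.B10

set_option maxRecDepth 100000
set_option maxHeartbeats 0

namespace Vale.Agent.P181.K

noncomputable def cR11_0_0 : L2 :=
 (Ls.cons Ls.nil
 (Ls.cons (Ls.cons (Ent.neg R11_29_1_0) (Ls.cons (Ent.neg R11_28_1_0) (Ls.cons (Ent.neg R11_27_1_0) (Ls.cons (Ent.neg R11_26_1_0) (Ls.cons (Ent.neg R11_25_1_0) (Ls.cons (Ent.neg R11_24_1_0) (Ls.cons (Ent.neg R11_23_1_0) (Ls.cons (Ent.pos R11_22_1_0) (Ls.cons (Ent.pos R11_21_1_0) (Ls.cons (Ent.pos R11_20_1_0) (Ls.cons (Ent.pos R11_19_1_0) (Ls.cons (Ent.pos R11_18_1_0) (Ls.cons (Ent.pos R11_17_1_0) (Ls.cons (Ent.pos R11_16_1_0) (Ls.cons (Ent.pos R11_15_1_0) (Ls.cons (Ent.pos R11_14_1_0) (Ls.cons (Ent.pos R11_13_1_0) (Ls.cons (Ent.pos R11_12_1_0) (Ls.cons (Ent.pos R11_11_1_0) (Ls.cons (Ent.pos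 R11_10_1_0) (Ls.cons (Ent.pos R11_9_1_0) (Ls.cons (Ent.pos R11_8_1_0) (Ls.cons (Ent.pos R11_7_1_0) (Ls.cons (Ent.pos R11_6_1_0) (Ls.cons (Ent.pos R11_5_1_0) (Ls.cons (Ent.pos R11_4_1_0) (Ls.cons (Ent.neg R11_3_1_0) (Ls.cons (Ent.neg R11_2_1_0) Ls.nil))))))))))))))))))))))))))))
 (Ls.cons (Ls.cons Ent.zero (Ls.cons Ent.zero (Ls.cons (Ent.pos R11_27_2_0) (Ls.cons (Ent.pos R11_26_2_0) (Ls.cons (Ent.pos R11_25_2_0) (Ls.cons (Ent.pos R11_24_2_0) (Ls.cons (Ent.neg R11_23_2_0) (Ls.cons (Ent.neg R11_22_2_0) (Ls.cons (Ent.neg R11_21_2_0) (Ls.cons (Ent.neg R11_20_2_0) (Ls.cons (Ent.neg R11_19_2_0) (Ls.cons (Ent.neg R11_18_2_0) (Ls.cons (Ent.neg R11_17_2_0) (Ls.cons (Ent.neg R11_16_2_0) (Ls.cons (Ent.neg R11_15_2_0) (Ls.cons (Ent.neg R11_14_2_0) (Ls.cons (Ent.neg R11_13_2_0) (Ls.cons (Ent.neg R11_12_2_0)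 (Ls.cons (Ent.neg R11_11_2_0) (Ls.cons (Ent.neg R11_10_2_0) (Ls.cons (Ent.neg R11_9_2_0) (Ls.cons (Ent.neg R11_8_2_0) (Ls.cons (Ent.neg R11_7_2_0) (Ls.cons (Ent.neg R11_6_2_0) (Ls.cons (Ent.neg R11_5_2_0) (Ls.cons (Ent.neg R11_4_2_0) (Ls.cons (Ent.neg R11_3_2_0) Ls.nil)))))))))))))))))))))))))))
 (Ls.cons (Ls.cons Ent.zero (Ls.cons Ent.zero (Ls.cons (Ent.pos R11_27_3_0) (Ls.cons (Ent.pos R11_26_3_0) (Ls.cons (Ent.pos R11_25_3_0) (Ls.cons (Ent.pos R11_24_3_0) (Ls.cons (Ent.pos R11_23_3_0) (Ls.cons (Ent.neg R11_22_3_0) (Ls.cons (Ent.neg R11_21_3_0) (Ls.cons (Ent.neg R11_20_3_0) (Ls.cons (Ent.neg R11_19_3_0) (Ls.cons (Ent.neg R11_18_3_0) (Ls.cons (Ent.neg R11_17_3_0) (Ls.cons (Ent.neg R11_16_3_0) (Ls.cons (Ent.neg R11_15_3_0) (Ls.cons (Ent.neg R11_14_3_0) (Ls.cons (Ent.neg R11_13_3_0) (Ls.cons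 (Ent.neg R11_12_3_0) (Ls.cons (Ent.neg R11_11_3_0) (Ls.cons (Ent.neg R11_10_3_0) (Ls.cons (Ent.neg R11_9_3_0) (Ls.cons (Ent.neg R11_8_3_0) (Ls.cons (Ent.neg R11_7_3_0) (Ls.cons (Ent.neg R11_6_3_0) (Ls.cons (Ent.neg R11_5_3_0) (Ls.cons (Ent.neg R11_4_3_0) Ls.nil))))))))))))))))))))))))))
 (Ls.cons (Ls.cons Ent.zero (Ls.cons Ent.zero (Ls.cons Ent.zero (Ls.cons Ent.zero (Ls.cons (Ent.pos R11_25_4_0) (Ls.cons (Ent.pos R11_24_4_0) (Ls.cons (Ent.pos R11_23_4_0) (Ls.cons (Ent.neg R11_22_4_0) (Ls.cons (Ent.neg R11_21_4_0) (Ls.cons (Ent.neg R11_20_4_0) (Ls.cons (Ent.neg R11_19_4_0) (Ls.cons (Ent.neg R11_18_4_0) (Ls.cons (Ent.neg R11_17_4_0) (Ls.cons (Ent.neg R11_16_4_0) (Ls.cons (Ent.neg R11_15_4_0) (Ls.cons (Ent.neg R11_14_4_0) (Ls.cons (Ent.neg R11_13_4_0) (Ls.cons (Ent.neg R11_12_4_0) (Ls.cons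 (Ent.neg R11_11_4_0) (Ls.cons (Ent.neg R11_10_4_0) (Ls.cons (Ent.neg R11_9_4_0) (Ls.cons (Ent.neg R11_8_4_0) (Ls.cons (Ent.neg R11_7_4_0) (Ls.cons (Ent.neg R11_6_4_0) (Ls.cons (Ent.neg R11_5_4_0) Ls.nil)))))))))))))))))))))))))
 (Ls.cons (Ls.cons Ent.zero (Ls.cons Ent.zero (Ls.cons Ent.zero (Ls.cons Ent.zero (Ls.cons (Ent.pos R11_25_5_0) (Ls.cons (Ent.pos R11_24_5_0) (Ls.cons (Ent.pos R11_23_5_0) (Ls.cons (Ent.pos R11_22_5_0) (Ls.cons (Ent.neg R11_21_5_0) (Ls.cons (Ent.neg R11_20_5_0) (Ls.cons (Ent.neg R11_19_5_0) (Ls.cons (Ent.neg R11_18_5_0) (Ls.cons (Ent.neg R11_17_5_0) (Ls.cons (Ent.neg R11_16_5_0) (Ls.cons (Ent.neg R11_15_5_0) (Ls.cons (Ent.neg R11_14_5_0) (Ls.cons (Ent.neg R11_13_5_0) (Ls.cons (Ent.neg R11_12_5_0) (Ls.cons (Ent.neg R11_11_5_0) (Ls.cons (Ent.neg R11_10_5_0) (Ls.cons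 (Ent.neg R11_9_5_0) (Ls.cons (Ent.neg R11_8_5_0) (Ls.cons (Ent.neg R11_7_5_0) (Ls.cons (Ent.neg R11_6_5_0) Ls.nil))))))))))))))))))))))))
 Ls.nil))))))

noncomputable def tbR11 : L3 := (Ls.cons cR11_0_0 Ls.nil)

noncomputable def bxR11_0 : L2 :=
 (Ls.cons (Ls.cons Ent.zero (Ls.cons Ent.zero (Ls.cons Ent.zero (Ls.cons Ent.zero (Ls.cons (Ent.pos R11_25_5_0) (Ls.cons (Ent.pos R11_24_5_0) (Ls.cons (Ent.pos R11_23_5_0) (Ls.cons (Ent.pos R11_22_5_0) (Ls.cons (Ent.neg R11_21_5_0) (Ls.cons (Ent.neg R11_20_5_0) (Ls.cons (Ent.neg R11_19_5_0) (Ls.cons (Ent.neg R11_18_5_0) (Ls.cons (Ent.neg R11_17_5_0) (Ls.cons (Ent.neg R11_16_5_0) (Ls.cons (Ent.neg R11_15_5_0) (Ls.cons (Ent.neg R11_14_5_0) (Ls.cons (Ent.neg R11_13_5_0) (Ls.cons (Ent.neg R11_12_5_0) (Ls.cons (Ent.neg R11_11_5_0) (Ls.cons (Ent.neg R11_10_5_0)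 (Ls.cons (Ent.neg R11_9_5_0) (Ls.cons (Ent.neg R11_8_5_0) (Ls.cons (Ent.neg R11_7_5_0) (Ls.cons (Ent.neg R11_6_5_0) (Ls.cons Ent.zero (Ls.cons (Ent.pos R11_5_4_0) (Ls.cons (Ent.pos R11_5_3_0) (Ls.cons (Ent.pos R11_5_2_0) (Ls.cons (Ent.neg R11_5_1_0) (Ls.cons Ent.zero Ls.nil))))))))))))))))))))))))))))))
 (Ls.cons (Ls.cons Ent.zero (Ls.cons Ent.zero (Ls.cons Ent.zero (Ls.cons Ent.zero (Ls.cons (Ent.pos R11_25_4_0) (Ls.cons (Ent.pos R11_24_4_0) (Ls.cons (Ent.pos R11_23_4_0) (Ls.cons (Ent.neg R11_22_4_0) (Ls.cons (Ent.neg R11_21_4_0) (Ls.cons (Ent.neg R11_20_4_0) (Ls.cons (Ent.neg R11_19_4_0) (Ls.cons (Ent.neg R11_18_4_0) (Ls.cons (Ent.neg R11_17_4_0) (Ls.cons (Ent.neg R11_16_4_0) (Ls.cons (Ent.neg R11_15_4_0) (Ls.cons (Ent.neg R11_14_4_0) (Ls.cons (Ent.neg R11_13_4_0) (Ls.cons (Ent.neg R11_12_4_0)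 (Ls.cons (Ent.neg R11_11_4_0) (Ls.cons (Ent.neg R11_10_4_0) (Ls.cons (Ent.neg R11_9_4_0) (Ls.cons (Ent.neg R11_8_4_0) (Ls.cons (Ent.neg R11_7_4_0) (Ls.cons (Ent.neg R11_6_4_0) (Ls.cons (Ent.neg R11_5_4_0) (Ls.cons Ent.zero (Ls.cons (Ent.pos R11_4_3_0) (Ls.cons (Ent.pos R11_4_2_0) (Ls.cons (Ent.neg R11_4_1_0) (Ls.cons Ent.zero Ls.nil))))))))))))))))))))))))))))))
 (Ls.cons (Ls.cons Ent.zero (Ls.cons Ent.zero (Ls.cons (Ent.pos R11_27_3_0) (Ls.cons (Ent.pos R11_26_3_0) (Ls.cons (Ent.pos R11_25_3_0) (Ls.cons (Ent.pos R11_24_3_0) (Ls.cons (Ent.pos R11_23_3_0) (Ls.cons (Ent.neg R11_22_3_0) (Ls.cons (Ent.neg R11_21_3_0) (Ls.cons (Ent.neg R11_20_3_0) (Ls.cons (Ent.neg R11_19_3_0) (Ls.cons (Ent.neg R11_18_3_0) (Ls.cons (Ent.neg R11_17_3_0) (Ls.cons (Ent.neg R11_16_3_0) (Ls.cons (Ent.neg R11_15_3_0)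 (Ls.cons (Ent.neg R11_14_3_0) (Ls.cons (Ent.neg R11_13_3_0) (Ls.cons (Ent.neg R11_12_3_0) (Ls.cons (Ent.neg R11_11_3_0) (Ls.cons (Ent.neg R11_10_3_0) (Ls.cons (Ent.neg R11_9_3_0) (Ls.cons (Ent.neg R11_8_3_0) (Ls.cons (Ent.neg R11_7_3_0) (Ls.cons (Ent.neg R11_6_3_0) (Ls.cons (Ent.neg R11_5_3_0) (Ls.cons (Ent.neg R11_4_3_0) (Ls.cons Ent.zero (Ls.cons (Ent.pos R11_3_2_0) (Ls.cons (Ent.pos R11_3_1_0) (Ls.cons Ent.zero Ls.nil))))))))))))))))))))))))))))))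
 (Ls.cons (Ls.cons Ent.zero (Ls.cons Ent.zero (Ls.cons (Ent.pos R11_27_2_0) (Ls.cons (Ent.pos R11_26_2_0) (Ls.cons (Ent.pos R11_25_2_0) (Ls.cons (Ent.pos R11_24_2_0) (Ls.cons (Ent.neg R11_23_2_0) (Ls.cons (Ent.neg R11_22_2_0) (Ls.cons (Ent.neg R11_21_2_0) (Ls.cons (Ent.neg R11_20_2_0) (Ls.cons (Ent.neg R11_19_2_0) (Ls.cons (Ent.neg R11_18_2_0) (Ls.cons (Ent.neg R11_17_2_0) (Ls.cons (Ent.neg R11_16_2_0) (Ls.cons (Ent.neg R11_15_2_0) (Ls.cons (Ent.neg R11_14_2_0) (Ls.cons (Ent.neg R11_13_2_0) (Ls.cons (Ent.neg R11_12_2_0) (Ls.cons (Ent.neg R11_11_2_0) (Ls.cons (Ent.neg R11_10_2_0) (Ls.cons (Ent.neg R11_9_2_0) (Ls.cons (Ent.neg R11_8_2_0) (Ls.cons (Ent.neg R11_7_2_0) (Ls.cons (Ent.neg R11_6_2_0) (Ls.cons (Ent.neg R11_5_2_0) (Ls.cons (Ent.neg R11_4_2_0) (Ls.cons (Ent.neg R11_3_2_0) (Ls.cons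 Ent.zero (Ls.cons (Ent.pos R11_2_1_0) (Ls.cons Ent.zero Ls.nil))))))))))))))))))))))))))))))
 (Ls.cons (Ls.cons (Ent.neg R11_29_1_0) (Ls.cons (Ent.neg R11_28_1_0) (Ls.cons (Ent.neg R11_27_1_0) (Ls.cons (Ent.neg R11_26_1_0) (Ls.cons (Ent.neg R11_25_1_0) (Ls.cons (Ent.neg R11_24_1_0) (Ls.cons (Ent.neg R11_23_1_0) (Ls.cons (Ent.pos R11_22_1_0) (Ls.cons (Ent.pos R11_21_1_0) (Ls.cons (Ent.pos R11_20_1_0) (Ls.cons (Ent.pos R11_19_1_0) (Ls.cons (Ent.pos R11_18_1_0) (Ls.cons (Ent.pos R11_17_1_0) (Ls.cons (Ent.pos R11_16_1_0) (Ls.cons (Ent.pos R11_15_1_0) (Ls.cons (Ent.pos R11_14_1_0) (Ls.cons (Ent.pos R11_13_1_0) (Ls.cons (Ent.pos R11_12_1_0) (Ls.cons (Ent.pos R11_11_1_0) (Ls.cons (Ent.pos R11_10_1_0) (Ls.cons (Ent.pos R11_9_1_0) (Ls.cons (Ent.pos R11_8_1_0) (Ls.cons (Ent.pos R11_7_1_0) (Ls.cons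 (Ent.pos R11_6_1_0) (Ls.cons (Ent.pos R11_5_1_0) (Ls.cons (Ent.pos R11_4_1_0) (Ls.cons (Ent.neg R11_3_1_0) (Ls.cons (Ent.neg R11_2_1_0) (Ls.cons Ent.zero (Ls.cons Ent.zero Ls.nil))))))))))))))))))))))))))))))
 (Ls.cons (Ls.cons Ent.zero (Ls.cons Ent.zero (Ls.cons Ent.zero (Ls.cons Ent.zero (Ls.cons Ent.zero (Ls.cons Ent.zero (Ls.cons Ent.zero (Ls.cons Ent.zero (Ls.cons Ent.zero (Ls.cons Ent.zero (Ls.cons Ent.zero (Ls.cons Ent.zero (Ls.cons Ent.zero (Ls.cons Ent.zero (Ls.cons Ent.zero (Ls.cons Ent.zero (Ls.cons Ent.zero (Ls.cons Ent.zero (Ls.cons Ent.zero (Ls.cons Ent.zero (Ls.cons Ent.zero (Ls.cons Ent.zero (Ls.cons Ent.zero (Ls.cons Ent.zero (Ls.cons Ent.zero (Ls.cons Ent.zero (Ls.cons Ent.zero (Ls.cons Ent.zero (Ls.cons Ent.zero (Ls.cons Ent.zero Ls.nil))))))))))))))))))))))))))))))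
 Ls.nil))))))

noncomputable def boxR11 : L3 := (Ls.cons bxR11_0 Ls.nil)

noncomputable def bsR12 : Ls L3 := Ls.cons boxR11 bsR11

end Vale.Agent.P181.K
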