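import Vale.Agent.P181.Six.R.D12_0
import Vale.Agent.P181.Six.R.B11

set_option maxRecDepth 100000
set_option maxHeartbeats 0

namespace Vale.Agent.P181.K

noncomputable def cR12_0_0 : L2 :=
 (Ls.cons Ls.nil
 (Ls.cons (Ls.cons (Ent.neg R12_29_1_0) (Ls.cons (Ent.neg R12_28_1_0) (Ls.cons (Ent.neg R12_27_1_0) (Ls.cons (Ent.pos R12_26_1_0) (Ls.cons (Ent.pos R12_25_1_0) (Ls.cons (Ent.pos R12_24_1_0) (Ls.cons (Ent.pos R12_23_1_0) (Ls.cons (Ent.pos R12_22_1_0) (Ls.cons (Ent.pos R12_21_1_0) (Ls.cons (Ent.pos R12_20_1_0) (Ls.cons (Ent.pos R12_19_1_0) (Ls.cons (Ent.pos R12_18_1_0) (Ls.cons (Ent.pos R12_17_1_0) (Ls.cons (Ent.pos R12_16_1_0) (Ls.cons (Ent.neg R12_15_1_0) (Ls.cons (Ent.pos R12_14_1_0) (Ls.cons (Ent.neg R12_13_1_0) (Ls.cons (Ent.neg R12_12_1_0) (Ls.cons (Ent.neg R12_11_1_0) (Ls.cons (Ent.neg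 R12_10_1_0) (Ls.cons (Ent.neg R12_9_1_0) (Ls.cons (Ent.neg R12_8_1_0) (Ls.cons (Ent.neg R12_7_1_0) (Ls.cons (Ent.neg R12_6_1_0) (Ls.cons (Ent.neg R12_5_1_0) (Ls.cons (Ent.neg R12_4_1_0) (Ls.cons (Ent.neg R12_3_1_0) (Ls.cons (Ent.pos R12_2_1_0) Ls.nil))))))))))))))))))))))))))))
 (Ls.cons (Ls.cons Ent.zero (Ls.cons Ent.zero (Ls.cons (Ent.neg R12_27_2_0) (Ls.cons (Ent.neg R12_26_2_0) (Ls.cons (Ent.neg R12_25_2_0) (Ls.cons (Ent.neg R12_24_2_0) (Ls.cons (Ent.neg R12_23_2_0) (Ls.cons (Ent.neg R12_22_2_0) (Ls.cons (Ent.neg R12_21_2_0) (Ls.cons (Ent.pos R12_20_2_0) (Ls.cons (Ent.neg R12_19_2_0) (Ls.cons (Ent.pos R12_18_2_0) (Ls.cons (Ent.pos R12_17_2_0) (Ls.cons (Ent.pos R12_16_2_0) (Ls.cons (Ent.pos R12_15_2_0) (Ls.cons (Ent.pos R12_14_2_0) (Ls.cons (Ent.pos R12_13_2_0) (Ls.cons (Ent.pos R12_12_2_0)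 (Ls.cons (Ent.pos R12_11_2_0) (Ls.cons (Ent.pos R12_10_2_0) (Ls.cons (Ent.pos R12_9_2_0) (Ls.cons (Ent.pos R12_8_2_0) (Ls.cons (Ent.pos R12_7_2_0) (Ls.cons (Ent.pos R12_6_2_0) (Ls.cons (Ent.pos R12_5_2_0) (Ls.cons (Ent.pos R12_4_2_0) (Ls.cons (Ent.pos R12_3_2_0) Ls.nil)))))))))))))))))))))))))))
 (Ls.cons (Ls.cons Ent.zero (Ls.cons Ent.zero (Ls.cons (Ent.pos R12_27_3_0) (Ls.cons (Ent.neg R12_26_3_0) (Ls.cons (Ent.neg R12_25_3_0) (Ls.cons (Ent.neg R12_24_3_0) (Ls.cons (Ent.neg R12_23_3_0) (Ls.cons (Ent.neg R12_22_3_0) (Ls.cons (Ent.neg R12_21_3_0) (Ls.cons (Ent.neg R12_20_3_0) (Ls.cons (Ent.neg R12_19_3_0) (Ls.cons (Ent.neg R12_18_3_0) (Ls.cons (Ent.neg R12_17_3_0) (Ls.cons (Ent.pos R12_16_3_0) (Ls.cons (Ent.neg R12_15_3_0) (Ls.cons (Ent.pos R12_14_3_0) (Ls.cons (Ent.pos R12_13_3_0) (Ls.cons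 (Ent.pos R12_12_3_0) (Ls.cons (Ent.pos R12_11_3_0) (Ls.cons (Ent.pos R12_10_3_0) (Ls.cons (Ent.pos R12_9_3_0) (Ls.cons (Ent.pos R12_8_3_0) (Ls.cons (Ent.pos R12_7_3_0) (Ls.cons (Ent.pos R12_6_3_0) (Ls.cons (Ent.pos R12_5_3_0) (Ls.cons (Ent.pos R12_4_3_0) Ls.nil))))))))))))))))))))))))))
 (Ls.cons (Ls.cons Ent.zero (Ls.cons Ent.zero (Ls.cons Ent.zero (Ls.cons Ent.zero (Ls.cons (Ent.neg R12_25_4_0) (Ls.cons (Ent.neg R12_24_4_0) (Ls.cons (Ent.neg R12_23_4_0) (Ls.cons (Ent.neg R12_22_4_0) (Ls.cons (Ent.neg R12_21_4_0) (Ls.cons (Ent.neg R12_20_4_0) (Ls.cons (Ent.neg R12_19_4_0) (Ls.cons (Ent.neg R12_18_4_0) (Ls.cons (Ent.neg R12_17_4_0) (Ls.cons (Ent.neg R12_16_4_0) (Ls.cons (Ent.pos R12_15_4_0) (Ls.cons (Ent.neg R12_14_4_0) (Ls.cons (Ent.pos R12_13_4_0) (Ls.cons (Ent.pos R12_12_4_0) (Ls.cons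 (Ent.pos R12_11_4_0) (Ls.cons (Ent.pos R12_10_4_0) (Ls.cons (Ent.pos R12_9_4_0) (Ls.cons (Ent.pos R12_8_4_0) (Ls.cons (Ent.pos R12_7_4_0) (Ls.cons (Ent.pos R12_6_4_0) (Ls.cons (Ent.pos R12_5_4_0) Ls.nil)))))))))))))))))))))))))
 (Ls.cons (Ls.cons Ent.zero (Ls.cons Ent.zero (Ls.cons Ent.zero (Ls.cons Ent.zero (Ls.cons (Ent.neg R12_25_5_0) (Ls.cons (Ent.neg R12_24_5_0) (Ls.cons (Ent.neg R12_23_5_0) (Ls.cons (Ent.neg R12_22_5_0) (Ls.cons (Ent.neg R12_21_5_0) (Ls.cons (Ent.neg R12_20_5_0) (Ls.cons (Ent.neg R12_19_5_0) (Ls.cons (Ent.neg R12_18_5_0) (Ls.cons (Ent.neg R12_17_5_0) (Ls.cons (Ent.neg R12_16_5_0) (Ls.cons (Ent.neg R12_15_5_0) (Ls.cons (Ent.pos R12_14_5_0) (Ls.cons (Ent.neg R12_13_5_0) (Ls.cons (Ent.pos R12_12_5_0) (Ls.cons (Ent.pos R12_11_5_0) (Ls.cons (Ent.pos R12_10_5_0) (Ls.cons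 (Ent.pos R12_9_5_0) (Ls.cons (Ent.pos R12_8_5_0) (Ls.cons (Ent.pos R12_7_5_0) (Ls.cons (Ent.pos R12_6_5_0) Ls.nil))))))))))))))))))))))))
 Ls.nil))))))

noncomputable def tbR12 : L3 := (Ls.cons cR12_0_0 Ls.nil)

noncomputable def bxR12_0 : L2 :=
 (Ls.cons (Ls.cons Ent.zero (Ls.cons Ent.zero (Ls.cons Ent.zero (Ls.cons Ent.zero (Ls.cons (Ent.neg R12_25_5_0) (Ls.cons (Ent.neg R12_24_5_0) (Ls.cons (Ent.neg R12_23_5_0) (Ls.cons (Ent.neg R12_22_5_0) (Ls.cons (Ent.neg R12_21_5_0) (Ls.cons (Ent.neg R12_20_5_0) (Ls.cons (Ent.neg R12_19_5_0) (Ls.cons (Ent.neg R12_18_5_0) (Ls.cons (Ent.neg R12_17_5_0) (Ls.cons (Ent.neg R12_16_5_0) (Ls.cons (Ent.neg R12_15_5_0) (Ls.cons (Ent.pos R12_14_5_0) (Ls.cons (Ent.neg R12_13_5_0) (Ls.cons (Ent.pos R12_12_5_0) (Ls.cons (Ent.pos R12_11_5_0) (Ls.cons (Ent.pos R12_10_5_0)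 (Ls.cons (Ent.pos R12_9_5_0) (Ls.cons (Ent.pos R12_8_5_0) (Ls.cons (Ent.pos R12_7_5_0) (Ls.cons (Ent.pos R12_6_5_0) (Ls.cons Ent.zero (Ls.cons (Ent.neg R12_5_4_0) (Ls.cons (Ent.neg R12_5_3_0) (Ls.cons (Ent.neg R12_5_2_0) (Ls.cons (Ent.pos R12_5_1_0) (Ls.cons Ent.zero Ls.nil))))))))))))))))))))))))))))))
 (Ls.cons (Ls.cons Ent.zero (Ls.cons Ent.zero (Ls.cons Ent.zero (Ls.cons Ent.zero (Ls.cons (Ent.neg R12_25_4_0) (Ls.cons (Ent.neg R12_24_4_0) (Ls.cons (Ent.neg R12_23_4_0) (Ls.cons (Ent.neg R12_22_4_0) (Ls.cons (Ent.neg R12_21_4_0) (Ls.cons (Ent.neg R12_20_4_0) (Ls.cons (Ent.neg R12_19_4_0) (Ls.cons (Ent.neg R12_18_4_0) (Ls.cons (Ent.neg R12_17_4_0) (Ls.cons (Ent.neg R12_16_4_0) (Ls.cons (Ent.pos R12_15_4_0) (Ls.cons (Ent.neg R12_14_4_0) (Ls.cons (Ent.pos R12_13_4_0) (Ls.cons (Ent.pos R12_12_4_0)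 (Ls.cons (Ent.pos R12_11_4_0) (Ls.cons (Ent.pos R12_10_4_0) (Ls.cons (Ent.pos R12_9_4_0) (Ls.cons (Ent.pos R12_8_4_0) (Ls.cons (Ent.pos R12_7_4_0) (Ls.cons (Ent.pos R12_6_4_0) (Ls.cons (Ent.pos R12_5_4_0) (Ls.cons Ent.zero (Ls.cons (Ent.neg R12_4_3_0) (Ls.cons (Ent.neg R12_4_2_0) (Ls.cons (Ent.pos R12_4_1_0) (Ls.cons Ent.zero Ls.nil))))))))))))))))))))))))))))))
 (Ls.cons (Ls.cons Ent.zero (Ls.cons Ent.zero (Ls.cons (Ent.pos R12_27_3_0) (Ls.cons (Ent.neg R12_26_3_0) (Ls.cons (Ent.neg R12_25_3_0) (Ls.cons (Ent.neg R12_24_3_0) (Ls.cons (Ent.neg R12_23_3_0) (Ls.cons (Ent.neg R12_22_3_0) (Ls.cons (Ent.neg R12_21_3_0) (Ls.cons (Ent.neg R12_20_3_0) (Ls.cons (Ent.neg R12_19_3_0) (Ls.cons (Ent.neg R12_18_3_0) (Ls.cons (Ent.neg R12_17_3_0) (Ls.cons (Ent.pos R12_16_3_0) (Ls.cons (Ent.neg R12_15_3_0)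 (Ls.cons (Ent.pos R12_14_3_0) (Ls.cons (Ent.pos R12_13_3_0) (Ls.cons (Ent.pos R12_12_3_0) (Ls.cons (Ent.pos R12_11_3_0) (Ls.cons (Ent.pos R12_10_3_0) (Ls.cons (Ent.pos R12_9_3_0) (Ls.cons (Ent.pos R12_8_3_0) (Ls.cons (Ent.pos R12_7_3_0) (Ls.cons (Ent.pos R12_6_3_0) (Ls.cons (Ent.pos R12_5_3_0) (Ls.cons (Ent.pos R12_4_3_0) (Ls.cons Ent.zero (Ls.cons (Ent.neg R12_3_2_0) (Ls.cons (Ent.pos R12_3_1_0) (Ls.cons Ent.zero Ls.nil))))))))))))))))))))))))))))))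
 (Ls.cons (Ls.cons Ent.zero (Ls.cons Ent.zero (Ls.cons (Ent.neg R12_27_2_0) (Ls.cons (Ent.neg R12_26_2_0) (Ls.cons (Ent.neg R12_25_2_0) (Ls.cons (Ent.neg R12_24_2_0) (Ls.cons (Ent.neg R12_23_2_0) (Ls.cons (Ent.neg R12_22_2_0) (Ls.cons (Ent.neg R12_21_2_0) (Ls.cons (Ent.pos R12_20_2_0) (Ls.cons (Ent.neg R12_19_2_0) (Ls.cons (Ent.pos R12_18_2_0) (Ls.cons (Ent.pos R12_17_2_0) (Ls.cons (Ent.pos R12_16_2_0) (Ls.cons (Ent.pos R12_15_2_0) (Ls.cons (Ent.pos R12_14_2_0) (Ls.cons (Ent.pos R12_13_2_0) (Ls.cons (Ent.pos R12_12_2_0) (Ls.cons (Ent.pos R12_11_2_0) (Ls.cons (Ent.pos R12_10_2_0) (Ls.cons (Ent.pos R12_9_2_0) (Ls.cons (Ent.pos R12_8_2_0) (Ls.cons (Ent.pos R12_7_2_0) (Ls.cons (Ent.pos R12_6_2_0) (Ls.cons (Ent.pos R12_5_2_0) (Ls.cons (Ent.pos R12_4_2_0) (Ls.cons (Ent.pos R12_3_2_0) (Ls.cons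 Ent.zero (Ls.cons (Ent.neg R12_2_1_0) (Ls.cons Ent.zero Ls.nil))))))))))))))))))))))))))))))
 (Ls.cons (Ls.cons (Ent.neg R12_29_1_0) (Ls.cons (Ent.neg R12_28_1_0) (Ls.cons (Ent.neg R12_27_1_0) (Ls.cons (Ent.pos R12_26_1_0) (Ls.cons (Ent.pos R12_25_1_0) (Ls.cons (Ent.pos R12_24_1_0) (Ls.cons (Ent.pos R12_23_1_0) (Ls.cons (Ent.pos R12_22_1_0) (Ls.cons (Ent.pos R12_21_1_0) (Ls.cons (Ent.pos R12_20_1_0) (Ls.cons (Ent.pos R12_19_1_0) (Ls.cons (Ent.pos R12_18_1_0) (Ls.cons (Ent.pos R12_17_1_0) (Ls.cons (Ent.pos R12_16_1_0) (Ls.cons (Ent.neg R12_15_1_0) (Ls.cons (Ent.pos R12_14_1_0) (Ls.cons (Ent.neg R12_13_1_0) (Ls.cons (Ent.neg R12_12_1_0) (Ls.cons (Ent.neg R12_11_1_0) (Ls.cons (Ent.neg R12_10_1_0) (Ls.cons (Ent.neg R12_9_1_0) (Ls.cons (Ent.neg R12_8_1_0) (Ls.cons (Ent.neg R12_7_1_0) (Ls.cons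 (Ent.neg R12_6_1_0) (Ls.cons (Ent.neg R12_5_1_0) (Ls.cons (Ent.neg R12_4_1_0) (Ls.cons (Ent.neg R12_3_1_0) (Ls.cons (Ent.pos R12_2_1_0) (Ls.cons Ent.zero (Ls.cons Ent.zero Ls.nil))))))))))))))))))))))))))))))
 (Ls.cons (Ls.cons Ent.zero (Ls.cons Ent.zero (Ls.cons Ent.zero (Ls.cons Ent.zero (Ls.cons Ent.zero (Ls.cons Ent.zero (Ls.cons Ent.zero (Ls.cons Ent.zero (Ls.cons Ent.zero (Ls.cons Ent.zero (Ls.cons Ent.zero (Ls.cons Ent.zero (Ls.cons Ent.zero (Ls.cons Ent.zero (Ls.cons Ent.zero (Ls.cons Ent.zero (Ls.cons Ent.zero (Ls.cons Ent.zero (Ls.cons Ent.zero (Ls.cons Ent.zero (Ls.cons Ent.zero (Ls.cons Ent.zero (Ls.cons Ent.zero (Ls.cons Ent.zero (Ls.cons Ent.zero (Ls.cons Ent.zero (Ls.cons Ent.zero (Ls.cons Ent.zero (Ls.cons Ent.zero (Ls.cons Ent.zero Ls.nil))))))))))))))))))))))))))))))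
 Ls.nil))))))

noncomputable def boxR12 : L3 := (Ls.cons bxR12_0 Ls.nil)

noncomputable def bsR13 : Ls L3 := Ls.cons boxR12 bsR12

end Vale.Agent.P181.K
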