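import Vale.Agent.P181.Six.R.D13_0
import Vale.Agent.P181.Six.R.B12

set_option maxRecDepth 100000
set_option maxHeartbeats 0

namespace Vale.Agent.P181.K

noncomputable def cR13_0_0 : L2 :=
 (Ls.cons Ls.nil
 (Ls.cons (Ls.cons (Ent.neg R13_29_1_0) (Ls.cons (Ent.neg R13_28_1_0) (Ls.cons (Ent.neg R13_27_1_0) (Ls.cons (Ent.neg R13_26_1_0) (Ls.cons (Ent.neg R13_25_1_0) (Ls.cons (Ent.neg R13_24_1_0) (Ls.cons (Ent.neg R13_23_1_0) (Ls.cons (Ent.neg R13_22_1_0) (Ls.cons (Ent.neg R13_21_1_0) (Ls.cons (Ent.neg R13_20_1_0) (Ls.cons (Ent.neg R13_19_1_0) (Ls.cons (Ent.neg R13_18_1_0) (Ls.cons (Ent.neg R13_17_1_0) (Ls.cons (Ent.neg R13_16_1_0) (Ls.cons (Ent.neg R13_15_1_0) (Ls.cons (Ent.neg R13_14_1_0) (Ls.cons (Ent.neg R13_13_1_0) (Ls.cons (Ent.neg R13_12_1_0) (Ls.cons (Ent.neg R13_11_1_0) (Ls.cons (Ent.neg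 R13_10_1_0) (Ls.cons (Ent.neg R13_9_1_0) (Ls.cons (Ent.neg R13_8_1_0) (Ls.cons (Ent.neg R13_7_1_0) (Ls.cons (Ent.neg R13_6_1_0) (Ls.cons (Ent.neg R13_5_1_0) (Ls.cons (Ent.neg R13_4_1_0) (Ls.cons (Ent.neg R13_3_1_0) (Ls.cons (Ent.pos R13_2_1_0) Ls.nil))))))))))))))))))))))))))))
 (Ls.cons (Ls.cons Ent.zero (Ls.cons Ent.zero (Ls.cons (Ent.pos R13_27_2_0) (Ls.cons (Ent.pos R13_26_2_0) (Ls.cons (Ent.pos R13_25_2_0) (Ls.cons (Ent.pos R13_24_2_0) (Ls.cons (Ent.pos R13_23_2_0) (Ls.cons (Ent.pos R13_22_2_0) (Ls.cons (Ent.pos R13_21_2_0) (Ls.cons (Ent.pos R13_20_2_0) (Ls.cons (Ent.pos R13_19_2_0) (Ls.cons (Ent.pos R13_18_2_0) (Ls.cons (Ent.pos R13_17_2_0) (Ls.cons (Ent.pos R13_16_2_0) (Ls.cons (Ent.pos R13_15_2_0) (Ls.cons (Ent.pos R13_14_2_0) (Ls.cons (Ent.pos R13_13_2_0) (Ls.cons (Ent.pos R13_12_2_0)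 (Ls.cons (Ent.pos R13_11_2_0) (Ls.cons (Ent.pos R13_10_2_0) (Ls.cons (Ent.pos R13_9_2_0) (Ls.cons (Ent.pos R13_8_2_0) (Ls.cons (Ent.pos R13_7_2_0) (Ls.cons (Ent.pos R13_6_2_0) (Ls.cons (Ent.pos R13_5_2_0) (Ls.cons (Ent.pos R13_4_2_0) (Ls.cons (Ent.pos R13_3_2_0) Ls.nil)))))))))))))))))))))))))))
 (Ls.cons (Ls.cons Ent.zero (Ls.cons Ent.zero (Ls.cons (Ent.pos R13_27_3_0) (Ls.cons (Ent.pos R13_26_3_0) (Ls.cons (Ent.pos R13_25_3_0) (Ls.cons (Ent.pos R13_24_3_0) (Ls.cons (Ent.pos R13_23_3_0) (Ls.cons (Ent.pos R13_22_3_0) (Ls.cons (Ent.pos R13_21_3_0) (Ls.cons (Ent.pos R13_20_3_0) (Ls.cons (Ent.pos R13_19_3_0) (Ls.cons (Ent.pos R13_18_3_0) (Ls.cons (Ent.pos R13_17_3_0) (Ls.cons (Ent.pos R13_16_3_0) (Ls.cons (Ent.pos R13_15_3_0) (Ls.cons (Ent.pos R13_14_3_0) (Ls.cons (Ent.pos R13_13_3_0) (Ls.cons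 (Ent.pos R13_12_3_0) (Ls.cons (Ent.pos R13_11_3_0) (Ls.cons (Ent.pos R13_10_3_0) (Ls.cons (Ent.pos R13_9_3_0) (Ls.cons (Ent.pos R13_8_3_0) (Ls.cons (Ent.pos R13_7_3_0) (Ls.cons (Ent.pos R13_6_3_0) (Ls.cons (Ent.pos R13_5_3_0) (Ls.cons (Ent.pos R13_4_3_0) Ls.nil))))))))))))))))))))))))))
 (Ls.cons (Ls.cons Ent.zero (Ls.cons Ent.zero (Ls.cons Ent.zero (Ls.cons Ent.zero (Ls.cons (Ent.pos R13_25_4_0) (Ls.cons (Ent.pos R13_24_4_0) (Ls.cons (Ent.pos R13_23_4_0) (Ls.cons (Ent.pos R13_22_4_0) (Ls.cons (Ent.pos R13_21_4_0) (Ls.cons (Ent.pos R13_20_4_0) (Ls.cons (Ent.pos R13_19_4_0) (Ls.cons (Ent.pos R13_18_4_0) (Ls.cons (Ent.pos R13_17_4_0) (Ls.cons (Ent.pos R13_16_4_0) (Ls.cons (Ent.pos R13_15_4_0) (Ls.cons (Ent.pos R13_14_4_0) (Ls.cons (Ent.pos R13_13_4_0) (Ls.cons (Ent.pos R13_12_4_0) (Ls.cons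 (Ent.pos R13_11_4_0) (Ls.cons (Ent.pos R13_10_4_0) (Ls.cons (Ent.pos R13_9_4_0) (Ls.cons (Ent.pos R13_8_4_0) (Ls.cons (Ent.pos R13_7_4_0) (Ls.cons (Ent.pos R13_6_4_0) (Ls.cons (Ent.pos R13_5_4_0) Ls.nil)))))))))))))))))))))))))
 (Ls.cons (Ls.cons Ent.zero (Ls.cons Ent.zero (Ls.cons Ent.zero (Ls.cons Ent.zero (Ls.cons (Ent.pos R13_25_5_0) (Ls.cons (Ent.pos R13_24_5_0) (Ls.cons (Ent.pos R13_23_5_0) (Ls.cons (Ent.pos R13_22_5_0) (Ls.cons (Ent.pos R13_21_5_0) (Ls.cons (Ent.pos R13_20_5_0) (Ls.cons (Ent.pos R13_19_5_0) (Ls.cons (Ent.pos R13_18_5_0) (Ls.cons (Ent.pos R13_17_5_0) (Ls.cons (Ent.pos R13_16_5_0) (Ls.cons (Ent.pos R13_15_5_0) (Ls.cons (Ent.pos R13_14_5_0) (Ls.cons (Ent.pos R13_13_5_0) (Ls.cons (Ent.pos R13_12_5_0) (Ls.cons (Ent.pos R13_11_5_0) (Ls.cons (Ent.pos R13_10_5_0) (Ls.cons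 (Ent.pos R13_9_5_0) (Ls.cons (Ent.pos R13_8_5_0) (Ls.cons (Ent.pos R13_7_5_0) (Ls.cons (Ent.pos R13_6_5_0) Ls.nil))))))))))))))))))))))))
 Ls.nil))))))

noncomputable def tbR13 : L3 := (Ls.cons cR13_0_0 Ls.nil)

noncomputable def bxR13_0 : L2 :=
 (Ls.cons (Ls.cons Ent.zero (Ls.cons Ent.zero (Ls.cons Ent.zero (Ls.cons Ent.zero (Ls.cons (Ent.pos R13_25_5_0) (Ls.cons (Ent.pos R13_24_5_0) (Ls.cons (Ent.pos R13_23_5_0) (Ls.cons (Ent.pos R13_22_5_0) (Ls.cons (Ent.pos R13_21_5_0) (Ls.cons (Ent.pos R13_20_5_0) (Ls.cons (Ent.pos R13_19_5_0) (Ls.cons (Ent.pos R13_18_5_0) (Ls.cons (Ent.pos R13_17_5_0) (Ls.cons (Ent.pos R13_16_5_0) (Ls.cons (Ent.pos R13_15_5_0) (Ls.cons (Ent.pos R13_14_5_0) (Ls.cons (Ent.pos R13_13_5_0) (Ls.cons (Ent.pos R13_12_5_0) (Ls.cons (Ent.pos R13_11_5_0) (Ls.cons (Ent.pos R13_10_5_0)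 (Ls.cons (Ent.pos R13_9_5_0) (Ls.cons (Ent.pos R13_8_5_0) (Ls.cons (Ent.pos R13_7_5_0) (Ls.cons (Ent.pos R13_6_5_0) (Ls.cons Ent.zero (Ls.cons (Ent.neg R13_5_4_0) (Ls.cons (Ent.neg R13_5_3_0) (Ls.cons (Ent.neg R13_5_2_0) (Ls.cons (Ent.pos R13_5_1_0) (Ls.cons Ent.zero Ls.nil))))))))))))))))))))))))))))))
 (Ls.cons (Ls.cons Ent.zero (Ls.cons Ent.zero (Ls.cons Ent.zero (Ls.cons Ent.zero (Ls.cons (Ent.pos R13_25_4_0) (Ls.cons (Ent.pos R13_24_4_0) (Ls.cons (Ent.pos R13_23_4_0) (Ls.cons (Ent.pos R13_22_4_0) (Ls.cons (Ent.pos R13_21_4_0) (Ls.cons (Ent.pos R13_20_4_0) (Ls.cons (Ent.pos R13_19_4_0) (Ls.cons (Ent.pos R13_18_4_0) (Ls.cons (Ent.pos R13_17_4_0) (Ls.cons (Ent.pos R13_16_4_0) (Ls.cons (Ent.pos R13_15_4_0) (Ls.cons (Ent.pos R13_14_4_0) (Ls.cons (Ent.pos R13_13_4_0) (Ls.cons (Ent.pos R13_12_4_0)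 (Ls.cons (Ent.pos R13_11_4_0) (Ls.cons (Ent.pos R13_10_4_0) (Ls.cons (Ent.pos R13_9_4_0) (Ls.cons (Ent.pos R13_8_4_0) (Ls.cons (Ent.pos R13_7_4_0) (Ls.cons (Ent.pos R13_6_4_0) (Ls.cons (Ent.pos R13_5_4_0) (Ls.cons Ent.zero (Ls.cons (Ent.neg R13_4_3_0) (Ls.cons (Ent.neg R13_4_2_0) (Ls.cons (Ent.pos R13_4_1_0) (Ls.cons Ent.zero Ls.nil))))))))))))))))))))))))))))))
 (Ls.cons (Ls.cons Ent.zero (Ls.cons Ent.zero (Ls.cons (Ent.pos R13_27_3_0) (Ls.cons (Ent.pos R13_26_3_0) (Ls.cons (Ent.pos R13_25_3_0) (Ls.cons (Ent.pos R13_24_3_0) (Ls.cons (Ent.pos R13_23_3_0) (Ls.cons (Ent.pos R13_22_3_0) (Ls.cons (Ent.pos R13_21_3_0) (Ls.cons (Ent.pos R13_20_3_0) (Ls.cons (Ent.pos R13_19_3_0) (Ls.cons (Ent.pos R13_18_3_0) (Ls.cons (Ent.pos R13_17_3_0) (Ls.cons (Ent.pos R13_16_3_0) (Ls.cons (Ent.pos R13_15_3_0)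 (Ls.cons (Ent.pos R13_14_3_0) (Ls.cons (Ent.pos R13_13_3_0) (Ls.cons (Ent.pos R13_12_3_0) (Ls.cons (Ent.pos R13_11_3_0) (Ls.cons (Ent.pos R13_10_3_0) (Ls.cons (Ent.pos R13_9_3_0) (Ls.cons (Ent.pos R13_8_3_0) (Ls.cons (Ent.pos R13_7_3_0) (Ls.cons (Ent.pos R13_6_3_0) (Ls.cons (Ent.pos R13_5_3_0) (Ls.cons (Ent.pos R13_4_3_0) (Ls.cons Ent.zero (Ls.cons (Ent.neg R13_3_2_0) (Ls.cons (Ent.pos R13_3_1_0) (Ls.cons Ent.zero Ls.nil))))))))))))))))))))))))))))))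
 (Ls.cons (Ls.cons Ent.zero (Ls.cons Ent.zero (Ls.cons (Ent.pos R13_27_2_0) (Ls.cons (Ent.pos R13_26_2_0) (Ls.cons (Ent.pos R13_25_2_0) (Ls.cons (Ent.pos R13_24_2_0) (Ls.cons (Ent.pos R13_23_2_0) (Ls.cons (Ent.pos R13_22_2_0) (Ls.cons (Ent.pos R13_21_2_0) (Ls.cons (Ent.pos R13_20_2_0) (Ls.cons (Ent.pos R13_19_2_0) (Ls.cons (Ent.pos R13_18_2_0) (Ls.cons (Ent.pos R13_17_2_0) (Ls.cons (Ent.pos R13_16_2_0) (Ls.cons (Ent.pos R13_15_2_0) (Ls.cons (Ent.pos R13_14_2_0) (Ls.cons (Ent.pos R13_13_2_0) (Ls.cons (Ent.pos R13_12_2_0) (Ls.cons (Ent.pos R13_11_2_0) (Ls.cons (Ent.pos R13_10_2_0) (Ls.cons (Ent.pos R13_9_2_0) (Ls.cons (Ent.pos R13_8_2_0) (Ls.cons (Ent.pos R13_7_2_0) (Ls.cons (Ent.pos R13_6_2_0) (Ls.cons (Ent.pos R13_5_2_0) (Ls.cons (Ent.pos R13_4_2_0) (Ls.cons (Ent.pos R13_3_2_0) (Ls.cons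 Ent.zero (Ls.cons (Ent.neg R13_2_1_0) (Ls.cons Ent.zero Ls.nil))))))))))))))))))))))))))))))
 (Ls.cons (Ls.cons (Ent.neg R13_29_1_0) (Ls.cons (Ent.neg R13_28_1_0) (Ls.cons (Ent.neg R13_27_1_0) (Ls.cons (Ent.neg R13_26_1_0) (Ls.cons (Ent.neg R13_25_1_0) (Ls.cons (Ent.neg R13_24_1_0) (Ls.cons (Ent.neg R13_23_1_0) (Ls.cons (Ent.neg R13_22_1_0) (Ls.cons (Ent.neg R13_21_1_0) (Ls.cons (Ent.neg R13_20_1_0) (Ls.cons (Ent.neg R13_19_1_0) (Ls.cons (Ent.neg R13_18_1_0) (Ls.cons (Ent.neg R13_17_1_0) (Ls.cons (Ent.neg R13_16_1_0) (Ls.cons (Ent.neg R13_15_1_0) (Ls.cons (Ent.neg R13_14_1_0) (Ls.cons (Ent.neg R13_13_1_0) (Ls.cons (Ent.neg R13_12_1_0) (Ls.cons (Ent.neg R13_11_1_0) (Ls.cons (Ent.neg R13_10_1_0) (Ls.cons (Ent.neg R13_9_1_0) (Ls.cons (Ent.neg R13_8_1_0) (Ls.cons (Ent.neg R13_7_1_0) (Ls.cons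 (Ent.neg R13_6_1_0) (Ls.cons (Ent.neg R13_5_1_0) (Ls.cons (Ent.neg R13_4_1_0) (Ls.cons (Ent.neg R13_3_1_0) (Ls.cons (Ent.pos R13_2_1_0) (Ls.cons Ent.zero (Ls.cons Ent.zero Ls.nil))))))))))))))))))))))))))))))
 (Ls.cons (Ls.cons Ent.zero (Ls.cons Ent.zero (Ls.cons Ent.zero (Ls.cons Ent.zero (Ls.cons Ent.zero (Ls.cons Ent.zero (Ls.cons Ent.zero (Ls.cons Ent.zero (Ls.cons Ent.zero (Ls.cons Ent.zero (Ls.cons Ent.zero (Ls.cons Ent.zero (Ls.cons Ent.zero (Ls.cons Ent.zero (Ls.cons Ent.zero (Ls.cons Ent.zero (Ls.cons Ent.zero (Ls.cons Ent.zero (Ls.cons Ent.zero (Ls.cons Ent.zero (Ls.cons Ent.zero (Ls.cons Ent.zero (Ls.cons Ent.zero (Ls.cons Ent.zero (Ls.cons Ent.zero (Ls.cons Ent.zero (Ls.cons Ent.zero (Ls.cons Ent.zero (Ls.cons Ent.zero (Ls.cons Ent.zero Ls.nil))))))))))))))))))))))))))))))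
 Ls.nil))))))

noncomputable def boxR13 : L3 := (Ls.cons bxR13_0 Ls.nil)

noncomputable def bsR14 : Ls L3 := Ls.cons boxR13 bsR13

end Vale.Agent.P181.K
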