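import Vale.Agent.P181.Six.R.D14_0
import Vale.Agent.P181.Six.R.B13

set_option maxRecDepth 100000
set_option maxHeartbeats 0

namespace Vale.Agent.P181.K

noncomputable def cR14_0_0 : L2 :=
 (Ls.cons Ls.nil
 (Ls.cons (Ls.cons (Ent.neg R14_29_1_0) (Ls.cons (Ent.neg R14_28_1_0) (Ls.cons (Ent.neg R14_27_1_0) (Ls.cons (Ent.neg R14_26_1_0) (Ls.cons (Ent.neg R14_25_1_0) (Ls.cons (Ent.neg R14_24_1_0) (Ls.cons (Ent.neg R14_23_1_0) (Ls.cons (Ent.neg R14_22_1_0) (Ls.cons (Ent.neg R14_21_1_0) (Ls.cons (Ent.neg R14_20_1_0) (Ls.cons (Ent.neg R14_19_1_0) (Ls.cons (Ent.neg R14_18_1_0) (Ls.cons (Ent.neg R14_17_1_0) (Ls.cons (Ent.neg R14_16_1_0) (Ls.cons (Ent.neg R14_15_1_0) (Ls.cons (Ent.neg R14_14_1_0) (Ls.cons (Ent.neg R14_13_1_0) (Ls.cons (Ent.neg R14_12_1_0) (Ls.cons (Ent.neg R14_11_1_0) (Ls.cons (Ent.neg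 R14_10_1_0) (Ls.cons (Ent.neg R14_9_1_0) (Ls.cons (Ent.neg R14_8_1_0) (Ls.cons (Ent.neg R14_7_1_0) (Ls.cons (Ent.neg R14_6_1_0) (Ls.cons (Ent.neg R14_5_1_0) (Ls.cons (Ent.neg R14_4_1_0) (Ls.cons (Ent.neg R14_3_1_0) (Ls.cons (Ent.pos R14_2_1_0) Ls.nil))))))))))))))))))))))))))))
 (Ls.cons (Ls.cons Ent.zero (Ls.cons Ent.zero (Ls.cons (Ent.pos R14_27_2_0) (Ls.cons (Ent.pos R14_26_2_0) (Ls.cons (Ent.pos R14_25_2_0) (Ls.cons (Ent.pos R14_24_2_0) (Ls.cons (Ent.pos R14_23_2_0) (Ls.cons (Ent.pos R14_22_2_0) (Ls.cons (Ent.pos R14_21_2_0) (Ls.cons (Ent.pos R14_20_2_0) (Ls.cons (Ent.pos R14_19_2_0) (Ls.cons (Ent.pos R14_18_2_0) (Ls.cons (Ent.pos R14_17_2_0) (Ls.cons (Ent.pos R14_16_2_0) (Ls.cons (Ent.pos R14_15_2_0) (Ls.cons (Ent.pos R14_14_2_0) (Ls.cons (Ent.pos R14_13_2_0) (Ls.cons (Ent.pos R14_12_2_0)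 (Ls.cons (Ent.pos R14_11_2_0) (Ls.cons (Ent.pos R14_10_2_0) (Ls.cons (Ent.pos R14_9_2_0) (Ls.cons (Ent.pos R14_8_2_0) (Ls.cons (Ent.pos R14_7_2_0) (Ls.cons (Ent.pos R14_6_2_0) (Ls.cons (Ent.pos R14_5_2_0) (Ls.cons (Ent.pos R14_4_2_0) (Ls.cons (Ent.pos R14_3_2_0) Ls.nil)))))))))))))))))))))))))))
 (Ls.cons (Ls.cons Ent.zero (Ls.cons Ent.zero (Ls.cons (Ent.pos R14_27_3_0) (Ls.cons (Ent.pos R14_26_3_0) (Ls.cons (Ent.pos R14_25_3_0) (Ls.cons (Ent.pos R14_24_3_0) (Ls.cons (Ent.pos R14_23_3_0) (Ls.cons (Ent.pos R14_22_3_0) (Ls.cons (Ent.pos R14_21_3_0) (Ls.cons (Ent.pos R14_20_3_0) (Ls.cons (Ent.pos R14_19_3_0) (Ls.cons (Ent.pos R14_18_3_0) (Ls.cons (Ent.pos R14_17_3_0) (Ls.cons (Ent.pos R14_16_3_0) (Ls.cons (Ent.pos R14_15_3_0) (Ls.cons (Ent.pos R14_14_3_0) (Ls.cons (Ent.pos R14_13_3_0) (Ls.cons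 (Ent.pos R14_12_3_0) (Ls.cons (Ent.pos R14_11_3_0) (Ls.cons (Ent.pos R14_10_3_0) (Ls.cons (Ent.pos R14_9_3_0) (Ls.cons (Ent.pos R14_8_3_0) (Ls.cons (Ent.pos R14_7_3_0) (Ls.cons (Ent.pos R14_6_3_0) (Ls.cons (Ent.pos R14_5_3_0) (Ls.cons (Ent.pos R14_4_3_0) Ls.nil))))))))))))))))))))))))))
 (Ls.cons (Ls.cons Ent.zero (Ls.cons Ent.zero (Ls.cons Ent.zero (Ls.cons Ent.zero (Ls.cons (Ent.pos R14_25_4_0) (Ls.cons (Ent.pos R14_24_4_0) (Ls.cons (Ent.pos R14_23_4_0) (Ls.cons (Ent.pos R14_22_4_0) (Ls.cons (Ent.pos R14_21_4_0) (Ls.cons (Ent.pos R14_20_4_0) (Ls.cons (Ent.pos R14_19_4_0) (Ls.cons (Ent.pos R14_18_4_0) (Ls.cons (Ent.pos R14_17_4_0) (Ls.cons (Ent.pos R14_16_4_0) (Ls.cons (Ent.pos R14_15_4_0) (Ls.cons (Ent.pos R14_14_4_0) (Ls.cons (Ent.pos R14_13_4_0) (Ls.cons (Ent.pos R14_12_4_0) (Ls.cons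 (Ent.pos R14_11_4_0) (Ls.cons (Ent.pos R14_10_4_0) (Ls.cons (Ent.pos R14_9_4_0) (Ls.cons (Ent.pos R14_8_4_0) (Ls.cons (Ent.pos R14_7_4_0) (Ls.cons (Ent.pos R14_6_4_0) (Ls.cons (Ent.pos R14_5_4_0) Ls.nil)))))))))))))))))))))))))
 (Ls.cons (Ls.cons Ent.zero (Ls.cons Ent.zero (Ls.cons Ent.zero (Ls.cons Ent.zero (Ls.cons (Ent.pos R14_25_5_0) (Ls.cons (Ent.pos R14_24_5_0) (Ls.cons (Ent.pos R14_23_5_0) (Ls.cons (Ent.pos R14_22_5_0) (Ls.cons (Ent.pos R14_21_5_0) (Ls.cons (Ent.pos R14_20_5_0) (Ls.cons (Ent.pos R14_19_5_0) (Ls.cons (Ent.pos R14_18_5_0) (Ls.cons (Ent.pos R14_17_5_0) (Ls.cons (Ent.pos R14_16_5_0) (Ls.cons (Ent.pos R14_15_5_0) (Ls.cons (Ent.pos R14_14_5_0) (Ls.cons (Ent.pos R14_13_5_0) (Ls.cons (Ent.pos R14_12_5_0) (Ls.cons (Ent.pos R14_11_5_0) (Ls.cons (Ent.pos R14_10_5_0) (Ls.cons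 (Ent.pos R14_9_5_0) (Ls.cons (Ent.pos R14_8_5_0) (Ls.cons (Ent.pos R14_7_5_0) (Ls.cons (Ent.pos R14_6_5_0) Ls.nil))))))))))))))))))))))))
 Ls.nil))))))

noncomputable def tbR14 : L3 := (Ls.cons cR14_0_0 Ls.nil)

noncomputable def bxR14_0 : L2 :=
 (Ls.cons (Ls.cons Ent.zero (Ls.cons Ent.zero (Ls.cons Ent.zero (Ls.cons Ent.zero (Ls.cons (Ent.pos R14_25_5_0) (Ls.cons (Ent.pos R14_24_5_0) (Ls.cons (Ent.pos R14_23_5_0) (Ls.cons (Ent.pos R14_22_5_0) (Ls.cons (Ent.pos R14_21_5_0) (Ls.cons (Ent.pos R14_20_5_0) (Ls.cons (Ent.pos R14_19_5_0) (Ls.cons (Ent.pos R14_18_5_0) (Ls.cons (Ent.pos R14_17_5_0) (Ls.cons (Ent.pos R14_16_5_0) (Ls.cons (Ent.pos R14_15_5_0) (Ls.cons (Ent.pos R14_14_5_0) (Ls.cons (Ent.pos R14_13_5_0) (Ls.cons (Ent.pos R14_12_5_0) (Ls.cons (Ent.pos R14_11_5_0) (Ls.cons (Ent.pos R14_10_5_0)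 (Ls.cons (Ent.pos R14_9_5_0) (Ls.cons (Ent.pos R14_8_5_0) (Ls.cons (Ent.pos R14_7_5_0) (Ls.cons (Ent.pos R14_6_5_0) (Ls.cons Ent.zero (Ls.cons (Ent.neg R14_5_4_0) (Ls.cons (Ent.neg R14_5_3_0) (Ls.cons (Ent.neg R14_5_2_0) (Ls.cons (Ent.pos R14_5_1_0) (Ls.cons Ent.zero Ls.nil))))))))))))))))))))))))))))))
 (Ls.cons (Ls.cons Ent.zero (Ls.cons Ent.zero (Ls.cons Ent.zero (Ls.cons Ent.zero (Ls.cons (Ent.pos R14_25_4_0) (Ls.cons (Ent.pos R14_24_4_0) (Ls.cons (Ent.pos R14_23_4_0) (Ls.cons (Ent.pos R14_22_4_0) (Ls.cons (Ent.pos R14_21_4_0) (Ls.cons (Ent.pos R14_20_4_0) (Ls.cons (Ent.pos R14_19_4_0) (Ls.cons (Ent.pos R14_18_4_0) (Ls.cons (Ent.pos R14_17_4_0) (Ls.cons (Ent.pos R14_16_4_0) (Ls.cons (Ent.pos R14_15_4_0) (Ls.cons (Ent.pos R14_14_4_0) (Ls.cons (Ent.pos R14_13_4_0) (Ls.cons (Ent.pos R14_12_4_0)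 (Ls.cons (Ent.pos R14_11_4_0) (Ls.cons (Ent.pos R14_10_4_0) (Ls.cons (Ent.pos R14_9_4_0) (Ls.cons (Ent.pos R14_8_4_0) (Ls.cons (Ent.pos R14_7_4_0) (Ls.cons (Ent.pos R14_6_4_0) (Ls.cons (Ent.pos R14_5_4_0) (Ls.cons Ent.zero (Ls.cons (Ent.neg R14_4_3_0) (Ls.cons (Ent.neg R14_4_2_0) (Ls.cons (Ent.pos R14_4_1_0) (Ls.cons Ent.zero Ls.nil))))))))))))))))))))))))))))))
 (Ls.cons (Ls.cons Ent.zero (Ls.cons Ent.zero (Ls.cons (Ent.pos R14_27_3_0) (Ls.cons (Ent.pos R14_26_3_0) (Ls.cons (Ent.pos R14_25_3_0) (Ls.cons (Ent.pos R14_24_3_0) (Ls.cons (Ent.pos R14_23_3_0) (Ls.cons (Ent.pos R14_22_3_0) (Ls.cons (Ent.pos R14_21_3_0) (Ls.cons (Ent.pos R14_20_3_0) (Ls.cons (Ent.pos R14_19_3_0) (Ls.cons (Ent.pos R14_18_3_0) (Ls.cons (Ent.pos R14_17_3_0) (Ls.cons (Ent.pos R14_16_3_0) (Ls.cons (Ent.pos R14_15_3_0)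 (Ls.cons (Ent.pos R14_14_3_0) (Ls.cons (Ent.pos R14_13_3_0) (Ls.cons (Ent.pos R14_12_3_0) (Ls.cons (Ent.pos R14_11_3_0) (Ls.cons (Ent.pos R14_10_3_0) (Ls.cons (Ent.pos R14_9_3_0) (Ls.cons (Ent.pos R14_8_3_0) (Ls.cons (Ent.pos R14_7_3_0) (Ls.cons (Ent.pos R14_6_3_0) (Ls.cons (Ent.pos R14_5_3_0) (Ls.cons (Ent.pos R14_4_3_0) (Ls.cons Ent.zero (Ls.cons (Ent.neg R14_3_2_0) (Ls.cons (Ent.pos R14_3_1_0) (Ls.cons Ent.zero Ls.nil))))))))))))))))))))))))))))))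
 (Ls.cons (Ls.cons Ent.zero (Ls.cons Ent.zero (Ls.cons (Ent.pos R14_27_2_0) (Ls.cons (Ent.pos R14_26_2_0) (Ls.cons (Ent.pos R14_25_2_0) (Ls.cons (Ent.pos R14_24_2_0) (Ls.cons (Ent.pos R14_23_2_0) (Ls.cons (Ent.pos R14_22_2_0) (Ls.cons (Ent.pos R14_21_2_0) (Ls.cons (Ent.pos R14_20_2_0) (Ls.cons (Ent.pos R14_19_2_0) (Ls.cons (Ent.pos R14_18_2_0) (Ls.cons (Ent.pos R14_17_2_0) (Ls.cons (Ent.pos R14_16_2_0) (Ls.cons (Ent.pos R14_15_2_0) (Ls.cons (Ent.pos R14_14_2_0) (Ls.cons (Ent.pos R14_13_2_0) (Ls.cons (Ent.pos R14_12_2_0) (Ls.cons (Ent.pos R14_11_2_0) (Ls.cons (Ent.pos R14_10_2_0) (Ls.cons (Ent.pos R14_9_2_0) (Ls.cons (Ent.pos R14_8_2_0) (Ls.cons (Ent.pos R14_7_2_0) (Ls.cons (Ent.pos R14_6_2_0) (Ls.cons (Ent.pos R14_5_2_0) (Ls.cons (Ent.pos R14_4_2_0) (Ls.cons (Ent.pos R14_3_2_0) (Ls.cons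 Ent.zero (Ls.cons (Ent.neg R14_2_1_0) (Ls.cons Ent.zero Ls.nil))))))))))))))))))))))))))))))
 (Ls.cons (Ls.cons (Ent.neg R14_29_1_0) (Ls.cons (Ent.neg R14_28_1_0) (Ls.cons (Ent.neg R14_27_1_0) (Ls.cons (Ent.neg R14_26_1_0) (Ls.cons (Ent.neg R14_25_1_0) (Ls.cons (Ent.neg R14_24_1_0) (Ls.cons (Ent.neg R14_23_1_0) (Ls.cons (Ent.neg R14_22_1_0) (Ls.cons (Ent.neg R14_21_1_0) (Ls.cons (Ent.neg R14_20_1_0) (Ls.cons (Ent.neg R14_19_1_0) (Ls.cons (Ent.neg R14_18_1_0) (Ls.cons (Ent.neg R14_17_1_0) (Ls.cons (Ent.neg R14_16_1_0) (Ls.cons (Ent.neg R14_15_1_0) (Ls.cons (Ent.neg R14_14_1_0) (Ls.cons (Ent.neg R14_13_1_0) (Ls.cons (Ent.neg R14_12_1_0) (Ls.cons (Ent.neg R14_11_1_0) (Ls.cons (Ent.neg R14_10_1_0) (Ls.cons (Ent.neg R14_9_1_0) (Ls.cons (Ent.neg R14_8_1_0) (Ls.cons (Ent.neg R14_7_1_0) (Ls.cons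 (Ent.neg R14_6_1_0) (Ls.cons (Ent.neg R14_5_1_0) (Ls.cons (Ent.neg R14_4_1_0) (Ls.cons (Ent.neg R14_3_1_0) (Ls.cons (Ent.pos R14_2_1_0) (Ls.cons Ent.zero (Ls.cons Ent.zero Ls.nil))))))))))))))))))))))))))))))
 (Ls.cons (Ls.cons Ent.zero (Ls.cons Ent.zero (Ls.cons Ent.zero (Ls.cons Ent.zero (Ls.cons Ent.zero (Ls.cons Ent.zero (Ls.cons Ent.zero (Ls.cons Ent.zero (Ls.cons Ent.zero (Ls.cons Ent.zero (Ls.cons Ent.zero (Ls.cons Ent.zero (Ls.cons Ent.zero (Ls.cons Ent.zero (Ls.cons Ent.zero (Ls.cons Ent.zero (Ls.cons Ent.zero (Ls.cons Ent.zero (Ls.cons Ent.zero (Ls.cons Ent.zero (Ls.cons Ent.zero (Ls.cons Ent.zero (Ls.cons Ent.zero (Ls.cons Ent.zero (Ls.cons Ent.zero (Ls.cons Ent.zero (Ls.cons Ent.zero (Ls.cons Ent.zero (Ls.cons Ent.zero (Ls.cons Ent.zero Ls.nil))))))))))))))))))))))))))))))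
 Ls.nil))))))

noncomputable def boxR14 : L3 := (Ls.cons bxR14_0 Ls.nil)

noncomputable def bsR15 : Ls L3 := Ls.cons boxR14 bsR14

end Vale.Agent.P181.K
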