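import Vale.Agent.P181.Six.R.D15_0
import Vale.Agent.P181.Six.R.B14

set_option maxRecDepth 100000
set_option maxHeartbeats 0

namespace Vale.Agent.P181.K

noncomputable def cR15_0_0 : L2 :=
 (Ls.cons Ls.nil
 (Ls.cons (Ls.cons (Ent.neg R15_29_1_0) (Ls.cons (Ent.neg R15_28_1_0) (Ls.cons (Ent.neg R15_27_1_0) (Ls.cons (Ent.neg R15_26_1_0) (Ls.cons (Ent.neg R15_25_1_0) (Ls.cons (Ent.neg R15_24_1_0) (Ls.cons (Ent.neg R15_23_1_0) (Ls.cons (Ent.neg R15_22_1_0) (Ls.cons (Ent.neg R15_21_1_0) (Ls.cons (Ent.neg R15_20_1_0) (Ls.cons (Ent.neg R15_19_1_0) (Ls.cons (Ent.neg R15_18_1_0) (Ls.cons (Ent.neg R15_17_1_0) (Ls.cons (Ent.neg R15_16_1_0) (Ls.cons (Ent.neg R15_15_1_0) (Ls.cons (Ent.neg R15_14_1_0) (Ls.cons (Ent.neg R15_13_1_0) (Ls.cons (Ent.neg R15_12_1_0) (Ls.cons (Ent.neg R15_11_1_0) (Ls.cons (Ent.neg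 R15_10_1_0) (Ls.cons (Ent.neg R15_9_1_0) (Ls.cons (Ent.neg R15_8_1_0) (Ls.cons (Ent.neg R15_7_1_0) (Ls.cons (Ent.neg R15_6_1_0) (Ls.cons (Ent.neg R15_5_1_0) (Ls.cons (Ent.neg R15_4_1_0) (Ls.cons (Ent.neg R15_3_1_0) (Ls.cons (Ent.pos R15_2_1_0) Ls.nil))))))))))))))))))))))))))))
 (Ls.cons (Ls.cons Ent.zero (Ls.cons Ent.zero (Ls.cons (Ent.pos R15_27_2_0) (Ls.cons (Ent.pos R15_26_2_0) (Ls.cons (Ent.pos R15_25_2_0) (Ls.cons (Ent.pos R15_24_2_0) (Ls.cons (Ent.pos R15_23_2_0) (Ls.cons (Ent.pos R15_22_2_0) (Ls.cons (Ent.pos R15_21_2_0) (Ls.cons (Ent.pos R15_20_2_0) (Ls.cons (Ent.pos R15_19_2_0) (Ls.cons (Ent.pos R15_18_2_0) (Ls.cons (Ent.pos R15_17_2_0) (Ls.cons (Ent.pos R15_16_2_0) (Ls.cons (Ent.pos R15_15_2_0) (Ls.cons (Ent.pos R15_14_2_0) (Ls.cons (Ent.pos R15_13_2_0) (Ls.cons (Ent.pos R15_12_2_0)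 (Ls.cons (Ent.pos R15_11_2_0) (Ls.cons (Ent.pos R15_10_2_0) (Ls.cons (Ent.pos R15_9_2_0) (Ls.cons (Ent.pos R15_8_2_0) (Ls.cons (Ent.pos R15_7_2_0) (Ls.cons (Ent.pos R15_6_2_0) (Ls.cons (Ent.pos R15_5_2_0) (Ls.cons (Ent.pos R15_4_2_0) (Ls.cons (Ent.pos R15_3_2_0) Ls.nil)))))))))))))))))))))))))))
 (Ls.cons (Ls.cons Ent.zero (Ls.cons Ent.zero (Ls.cons (Ent.pos R15_27_3_0) (Ls.cons (Ent.pos R15_26_3_0) (Ls.cons (Ent.pos R15_25_3_0) (Ls.cons (Ent.pos R15_24_3_0) (Ls.cons (Ent.pos R15_23_3_0) (Ls.cons (Ent.pos R15_22_3_0) (Ls.cons (Ent.pos R15_21_3_0) (Ls.cons (Ent.pos R15_20_3_0) (Ls.cons (Ent.pos R15_19_3_0) (Ls.cons (Ent.pos R15_18_3_0) (Ls.cons (Ent.pos R15_17_3_0) (Ls.cons (Ent.pos R15_16_3_0) (Ls.cons (Ent.pos R15_15_3_0) (Ls.cons (Ent.pos R15_14_3_0) (Ls.cons (Ent.pos R15_13_3_0) (Ls.cons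 (Ent.pos R15_12_3_0) (Ls.cons (Ent.pos R15_11_3_0) (Ls.cons (Ent.pos R15_10_3_0) (Ls.cons (Ent.pos R15_9_3_0) (Ls.cons (Ent.pos R15_8_3_0) (Ls.cons (Ent.pos R15_7_3_0) (Ls.cons (Ent.pos R15_6_3_0) (Ls.cons (Ent.pos R15_5_3_0) (Ls.cons (Ent.pos R15_4_3_0) Ls.nil))))))))))))))))))))))))))
 (Ls.cons (Ls.cons Ent.zero (Ls.cons Ent.zero (Ls.cons Ent.zero (Ls.cons Ent.zero (Ls.cons (Ent.pos R15_25_4_0) (Ls.cons (Ent.pos R15_24_4_0) (Ls.cons (Ent.pos R15_23_4_0) (Ls.cons (Ent.pos R15_22_4_0) (Ls.cons (Ent.pos R15_21_4_0) (Ls.cons (Ent.pos R15_20_4_0) (Ls.cons (Ent.pos R15_19_4_0) (Ls.cons (Ent.pos R15_18_4_0) (Ls.cons (Ent.pos R15_17_4_0) (Ls.cons (Ent.pos R15_16_4_0) (Ls.cons (Ent.pos R15_15_4_0) (Ls.cons (Ent.pos R15_14_4_0) (Ls.cons (Ent.pos R15_13_4_0) (Ls.cons (Ent.pos R15_12_4_0) (Ls.cons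 (Ent.pos R15_11_4_0) (Ls.cons (Ent.pos R15_10_4_0) (Ls.cons (Ent.pos R15_9_4_0) (Ls.cons (Ent.pos R15_8_4_0) (Ls.cons (Ent.pos R15_7_4_0) (Ls.cons (Ent.pos R15_6_4_0) (Ls.cons (Ent.pos R15_5_4_0) Ls.nil)))))))))))))))))))))))))
 (Ls.cons (Ls.cons Ent.zero (Ls.cons Ent.zero (Ls.cons Ent.zero (Ls.cons Ent.zero (Ls.cons (Ent.pos R15_25_5_0) (Ls.cons (Ent.pos R15_24_5_0) (Ls.cons (Ent.pos R15_23_5_0) (Ls.cons (Ent.pos R15_22_5_0) (Ls.cons (Ent.pos R15_21_5_0) (Ls.cons (Ent.pos R15_20_5_0) (Ls.cons (Ent.pos R15_19_5_0) (Ls.cons (Ent.pos R15_18_5_0) (Ls.cons (Ent.pos R15_17_5_0) (Ls.cons (Ent.pos R15_16_5_0) (Ls.cons (Ent.pos R15_15_5_0) (Ls.cons (Ent.pos R15_14_5_0) (Ls.cons (Ent.pos R15_13_5_0) (Ls.cons (Ent.pos R15_12_5_0) (Ls.cons (Ent.pos R15_11_5_0) (Ls.cons (Ent.pos R15_10_5_0) (Ls.cons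 (Ent.pos R15_9_5_0) (Ls.cons (Ent.pos R15_8_5_0) (Ls.cons (Ent.pos R15_7_5_0) (Ls.cons (Ent.pos R15_6_5_0) Ls.nil))))))))))))))))))))))))
 Ls.nil))))))

noncomputable def tbR15 : L3 := (Ls.cons cR15_0_0 Ls.nil)

noncomputable def bxR15_0 : L2 :=
 (Ls.cons (Ls.cons Ent.zero (Ls.cons Ent.zero (Ls.cons Ent.zero (Ls.cons Ent.zero (Ls.cons (Ent.pos R15_25_5_0) (Ls.cons (Ent.pos R15_24_5_0) (Ls.cons (Ent.pos R15_23_5_0) (Ls.cons (Ent.pos R15_22_5_0) (Ls.cons (Ent.pos R15_21_5_0) (Ls.cons (Ent.pos R15_20_5_0) (Ls.cons (Ent.pos R15_19_5_0) (Ls.cons (Ent.pos R15_18_5_0) (Ls.cons (Ent.pos R15_17_5_0) (Ls.cons (Ent.pos R15_16_5_0) (Ls.cons (Ent.pos R15_15_5_0) (Ls.cons (Ent.pos R15_14_5_0) (Ls.cons (Ent.pos R15_13_5_0) (Ls.cons (Ent.pos R15_12_5_0) (Ls.cons (Ent.pos R15_11_5_0) (Ls.cons (Ent.pos R15_10_5_0)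 (Ls.cons (Ent.pos R15_9_5_0) (Ls.cons (Ent.pos R15_8_5_0) (Ls.cons (Ent.pos R15_7_5_0) (Ls.cons (Ent.pos R15_6_5_0) (Ls.cons Ent.zero (Ls.cons (Ent.neg R15_5_4_0) (Ls.cons (Ent.neg R15_5_3_0) (Ls.cons (Ent.neg R15_5_2_0) (Ls.cons (Ent.pos R15_5_1_0) (Ls.cons Ent.zero Ls.nil))))))))))))))))))))))))))))))
 (Ls.cons (Ls.cons Ent.zero (Ls.cons Ent.zero (Ls.cons Ent.zero (Ls.cons Ent.zero (Ls.cons (Ent.pos R15_25_4_0) (Ls.cons (Ent.pos R15_24_4_0) (Ls.cons (Ent.pos R15_23_4_0) (Ls.cons (Ent.pos R15_22_4_0) (Ls.cons (Ent.pos R15_21_4_0) (Ls.cons (Ent.pos R15_20_4_0) (Ls.cons (Ent.pos R15_19_4_0) (Ls.cons (Ent.pos R15_18_4_0) (Ls.cons (Ent.pos R15_17_4_0) (Ls.cons (Ent.pos R15_16_4_0) (Ls.cons (Ent.pos R15_15_4_0) (Ls.cons (Ent.pos R15_14_4_0) (Ls.cons (Ent.pos R15_13_4_0) (Ls.cons (Ent.pos R15_12_4_0)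 (Ls.cons (Ent.pos R15_11_4_0) (Ls.cons (Ent.pos R15_10_4_0) (Ls.cons (Ent.pos R15_9_4_0) (Ls.cons (Ent.pos R15_8_4_0) (Ls.cons (Ent.pos R15_7_4_0) (Ls.cons (Ent.pos R15_6_4_0) (Ls.cons (Ent.pos R15_5_4_0) (Ls.cons Ent.zero (Ls.cons (Ent.neg R15_4_3_0) (Ls.cons (Ent.neg R15_4_2_0) (Ls.cons (Ent.pos R15_4_1_0) (Ls.cons Ent.zero Ls.nil))))))))))))))))))))))))))))))
 (Ls.cons (Ls.cons Ent.zero (Ls.cons Ent.zero (Ls.cons (Ent.pos R15_27_3_0) (Ls.cons (Ent.pos R15_26_3_0) (Ls.cons (Ent.pos R15_25_3_0) (Ls.cons (Ent.pos R15_24_3_0) (Ls.cons (Ent.pos R15_23_3_0) (Ls.cons (Ent.pos R15_22_3_0) (Ls.cons (Ent.pos R15_21_3_0) (Ls.cons (Ent.pos R15_20_3_0) (Ls.cons (Ent.pos R15_19_3_0) (Ls.cons (Ent.pos R15_18_3_0) (Ls.cons (Ent.pos R15_17_3_0) (Ls.cons (Ent.pos R15_16_3_0) (Ls.cons (Ent.pos R15_15_3_0)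 (Ls.cons (Ent.pos R15_14_3_0) (Ls.cons (Ent.pos R15_13_3_0) (Ls.cons (Ent.pos R15_12_3_0) (Ls.cons (Ent.pos R15_11_3_0) (Ls.cons (Ent.pos R15_10_3_0) (Ls.cons (Ent.pos R15_9_3_0) (Ls.cons (Ent.pos R15_8_3_0) (Ls.cons (Ent.pos R15_7_3_0) (Ls.cons (Ent.pos R15_6_3_0) (Ls.cons (Ent.pos R15_5_3_0) (Ls.cons (Ent.pos R15_4_3_0) (Ls.cons Ent.zero (Ls.cons (Ent.neg R15_3_2_0) (Ls.cons (Ent.pos R15_3_1_0) (Ls.cons Ent.zero Ls.nil))))))))))))))))))))))))))))))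
 (Ls.cons (Ls.cons Ent.zero (Ls.cons Ent.zero (Ls.cons (Ent.pos R15_27_2_0) (Ls.cons (Ent.pos R15_26_2_0) (Ls.cons (Ent.pos R15_25_2_0) (Ls.cons (Ent.pos R15_24_2_0) (Ls.cons (Ent.pos R15_23_2_0) (Ls.cons (Ent.pos R15_22_2_0) (Ls.cons (Ent.pos R15_21_2_0) (Ls.cons (Ent.pos R15_20_2_0) (Ls.cons (Ent.pos R15_19_2_0) (Ls.cons (Ent.pos R15_18_2_0) (Ls.cons (Ent.pos R15_17_2_0) (Ls.cons (Ent.pos R15_16_2_0) (Ls.cons (Ent.pos R15_15_2_0) (Ls.cons (Ent.pos R15_14_2_0) (Ls.cons (Ent.pos R15_13_2_0) (Ls.cons (Ent.pos R15_12_2_0) (Ls.cons (Ent.pos R15_11_2_0) (Ls.cons (Ent.pos R15_10_2_0) (Ls.cons (Ent.pos R15_9_2_0) (Ls.cons (Ent.pos R15_8_2_0) (Ls.cons (Ent.pos R15_7_2_0) (Ls.cons (Ent.pos R15_6_2_0) (Ls.cons (Ent.pos R15_5_2_0) (Ls.cons (Ent.pos R15_4_2_0) (Ls.cons (Ent.pos R15_3_2_0) (Ls.cons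 Ent.zero (Ls.cons (Ent.neg R15_2_1_0) (Ls.cons Ent.zero Ls.nil))))))))))))))))))))))))))))))
 (Ls.cons (Ls.cons (Ent.neg R15_29_1_0) (Ls.cons (Ent.neg R15_28_1_0) (Ls.cons (Ent.neg R15_27_1_0) (Ls.cons (Ent.neg R15_26_1_0) (Ls.cons (Ent.neg R15_25_1_0) (Ls.cons (Ent.neg R15_24_1_0) (Ls.cons (Ent.neg R15_23_1_0) (Ls.cons (Ent.neg R15_22_1_0) (Ls.cons (Ent.neg R15_21_1_0) (Ls.cons (Ent.neg R15_20_1_0) (Ls.cons (Ent.neg R15_19_1_0) (Ls.cons (Ent.neg R15_18_1_0) (Ls.cons (Ent.neg R15_17_1_0) (Ls.cons (Ent.neg R15_16_1_0) (Ls.cons (Ent.neg R15_15_1_0) (Ls.cons (Ent.neg R15_14_1_0) (Ls.cons (Ent.neg R15_13_1_0) (Ls.cons (Ent.neg R15_12_1_0) (Ls.cons (Ent.neg R15_11_1_0) (Ls.cons (Ent.neg R15_10_1_0) (Ls.cons (Ent.neg R15_9_1_0) (Ls.cons (Ent.neg R15_8_1_0) (Ls.cons (Ent.neg R15_7_1_0) (Ls.cons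 (Ent.neg R15_6_1_0) (Ls.cons (Ent.neg R15_5_1_0) (Ls.cons (Ent.neg R15_4_1_0) (Ls.cons (Ent.neg R15_3_1_0) (Ls.cons (Ent.pos R15_2_1_0) (Ls.cons Ent.zero (Ls.cons Ent.zero Ls.nil))))))))))))))))))))))))))))))
 (Ls.cons (Ls.cons Ent.zero (Ls.cons Ent.zero (Ls.cons Ent.zero (Ls.cons Ent.zero (Ls.cons Ent.zero (Ls.cons Ent.zero (Ls.cons Ent.zero (Ls.cons Ent.zero (Ls.cons Ent.zero (Ls.cons Ent.zero (Ls.cons Ent.zero (Ls.cons Ent.zero (Ls.cons Ent.zero (Ls.cons Ent.zero (Ls.cons Ent.zero (Ls.cons Ent.zero (Ls.cons Ent.zero (Ls.cons Ent.zero (Ls.cons Ent.zero (Ls.cons Ent.zero (Ls.cons Ent.zero (Ls.cons Ent.zero (Ls.cons Ent.zero (Ls.cons Ent.zero (Ls.cons Ent.zero (Ls.cons Ent.zero (Ls.cons Ent.zero (Ls.cons Ent.zero (Ls.cons Ent.zero (Ls.cons Ent.zero Ls.nil))))))))))))))))))))))))))))))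
 Ls.nil))))))

noncomputable def boxR15 : L3 := (Ls.cons bxR15_0 Ls.nil)

noncomputable def bsR16 : Ls L3 := Ls.cons boxR15 bsR15

end Vale.Agent.P181.K
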