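import Vale.Agent.P181.Six.R.D16_0
import Vale.Agent.P181.Six.R.B15

set_option maxRecDepth 100000
set_option maxHeartbeats 0

namespace Vale.Agent.P181.K

noncomputable def cR16_0_0 : L2 :=
 (Ls.cons Ls.nil
 (Ls.cons (Ls.cons (Ent.neg R16_29_1_0) (Ls.cons (Ent.neg R16_28_1_0) (Ls.cons (Ent.neg R16_27_1_0) (Ls.cons (Ent.neg R16_26_1_0) (Ls.cons (Ent.neg R16_25_1_0) (Ls.cons (Ent.neg R16_24_1_0) (Ls.cons (Ent.neg R16_23_1_0) (Ls.cons (Ent.neg R16_22_1_0) (Ls.cons (Ent.neg R16_21_1_0) (Ls.cons (Ent.neg R16_20_1_0) (Ls.cons (Ent.neg R16_19_1_0) (Ls.cons (Ent.neg R16_18_1_0) (Ls.cons (Ent.neg R16_17_1_0) (Ls.cons (Ent.neg R16_16_1_0) (Ls.cons (Ent.neg R16_15_1_0) (Ls.cons (Ent.neg R16_14_1_0) (Ls.cons (Ent.neg R16_13_1_0) (Ls.cons (Ent.neg R16_12_1_0) (Ls.cons (Ent.neg R16_11_1_0) (Ls.cons (Ent.neg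 R16_10_1_0) (Ls.cons (Ent.neg R16_9_1_0) (Ls.cons (Ent.neg R16_8_1_0) (Ls.cons (Ent.neg R16_7_1_0) (Ls.cons (Ent.neg R16_6_1_0) (Ls.cons (Ent.neg R16_5_1_0) (Ls.cons (Ent.neg R16_4_1_0) (Ls.cons (Ent.neg R16_3_1_0) (Ls.cons (Ent.pos R16_2_1_0) Ls.nil))))))))))))))))))))))))))))
 (Ls.cons (Ls.cons Ent.zero (Ls.cons Ent.zero (Ls.cons (Ent.pos R16_27_2_0) (Ls.cons (Ent.pos R16_26_2_0) (Ls.cons (Ent.pos R16_25_2_0) (Ls.cons (Ent.pos R16_24_2_0) (Ls.cons (Ent.pos R16_23_2_0) (Ls.cons (Ent.pos R16_22_2_0) (Ls.cons (Ent.pos R16_21_2_0) (Ls.cons (Ent.pos R16_20_2_0) (Ls.cons (Ent.pos R16_19_2_0) (Ls.cons (Ent.pos R16_18_2_0) (Ls.cons (Ent.pos R16_17_2_0) (Ls.cons (Ent.pos R16_16_2_0) (Ls.cons (Ent.pos R16_15_2_0) (Ls.cons (Ent.pos R16_14_2_0) (Ls.cons (Ent.pos R16_13_2_0) (Ls.cons (Ent.pos R16_12_2_0)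 (Ls.cons (Ent.pos R16_11_2_0) (Ls.cons (Ent.pos R16_10_2_0) (Ls.cons (Ent.pos R16_9_2_0) (Ls.cons (Ent.pos R16_8_2_0) (Ls.cons (Ent.pos R16_7_2_0) (Ls.cons (Ent.pos R16_6_2_0) (Ls.cons (Ent.pos R16_5_2_0) (Ls.cons (Ent.pos R16_4_2_0) (Ls.cons (Ent.pos R16_3_2_0) Ls.nil)))))))))))))))))))))))))))
 (Ls.cons (Ls.cons Ent.zero (Ls.cons Ent.zero (Ls.cons (Ent.pos R16_27_3_0) (Ls.cons (Ent.pos R16_26_3_0) (Ls.cons (Ent.pos R16_25_3_0) (Ls.cons (Ent.pos R16_24_3_0) (Ls.cons (Ent.pos R16_23_3_0) (Ls.cons (Ent.pos R16_22_3_0) (Ls.cons (Ent.pos R16_21_3_0) (Ls.cons (Ent.pos R16_20_3_0) (Ls.cons (Ent.pos R16_19_3_0) (Ls.cons (Ent.pos R16_18_3_0) (Ls.cons (Ent.pos R16_17_3_0) (Ls.cons (Ent.pos R16_16_3_0) (Ls.cons (Ent.pos R16_15_3_0) (Ls.cons (Ent.pos R16_14_3_0) (Ls.cons (Ent.pos R16_13_3_0) (Ls.cons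 (Ent.pos R16_12_3_0) (Ls.cons (Ent.pos R16_11_3_0) (Ls.cons (Ent.pos R16_10_3_0) (Ls.cons (Ent.pos R16_9_3_0) (Ls.cons (Ent.pos R16_8_3_0) (Ls.cons (Ent.pos R16_7_3_0) (Ls.cons (Ent.pos R16_6_3_0) (Ls.cons (Ent.pos R16_5_3_0) (Ls.cons (Ent.pos R16_4_3_0) Ls.nil))))))))))))))))))))))))))
 (Ls.cons (Ls.cons Ent.zero (Ls.cons Ent.zero (Ls.cons Ent.zero (Ls.cons Ent.zero (Ls.cons (Ent.pos R16_25_4_0) (Ls.cons (Ent.pos R16_24_4_0) (Ls.cons (Ent.pos R16_23_4_0) (Ls.cons (Ent.pos R16_22_4_0) (Ls.cons (Ent.pos R16_21_4_0) (Ls.cons (Ent.pos R16_20_4_0) (Ls.cons (Ent.pos R16_19_4_0) (Ls.cons (Ent.pos R16_18_4_0) (Ls.cons (Ent.pos R16_17_4_0) (Ls.cons (Ent.pos R16_16_4_0) (Ls.cons (Ent.pos R16_15_4_0) (Ls.cons (Ent.pos R16_14_4_0) (Ls.cons (Ent.pos R16_13_4_0) (Ls.cons (Ent.pos R16_12_4_0) (Ls.cons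 (Ent.pos R16_11_4_0) (Ls.cons (Ent.pos R16_10_4_0) (Ls.cons (Ent.pos R16_9_4_0) (Ls.cons (Ent.pos R16_8_4_0) (Ls.cons (Ent.pos R16_7_4_0) (Ls.cons (Ent.pos R16_6_4_0) (Ls.cons (Ent.pos R16_5_4_0) Ls.nil)))))))))))))))))))))))))
 (Ls.cons (Ls.cons Ent.zero (Ls.cons Ent.zero (Ls.cons Ent.zero (Ls.cons Ent.zero (Ls.cons (Ent.pos R16_25_5_0) (Ls.cons (Ent.pos R16_24_5_0) (Ls.cons (Ent.pos R16_23_5_0) (Ls.cons (Ent.pos R16_22_5_0) (Ls.cons (Ent.pos R16_21_5_0) (Ls.cons (Ent.pos R16_20_5_0) (Ls.cons (Ent.pos R16_19_5_0) (Ls.cons (Ent.pos R16_18_5_0) (Ls.cons (Ent.pos R16_17_5_0) (Ls.cons (Ent.pos R16_16_5_0) (Ls.cons (Ent.pos R16_15_5_0) (Ls.cons (Ent.pos R16_14_5_0) (Ls.cons (Ent.pos R16_13_5_0) (Ls.cons (Ent.pos R16_12_5_0) (Ls.cons (Ent.pos R16_11_5_0) (Ls.cons (Ent.pos R16_10_5_0) (Ls.cons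 (Ent.pos R16_9_5_0) (Ls.cons (Ent.pos R16_8_5_0) (Ls.cons (Ent.pos R16_7_5_0) (Ls.cons (Ent.pos R16_6_5_0) Ls.nil))))))))))))))))))))))))
 Ls.nil))))))

noncomputable def tbR16 : L3 := (Ls.cons cR16_0_0 Ls.nil)

noncomputable def bxR16_0 : L2 :=
 (Ls.cons (Ls.cons Ent.zero (Ls.cons Ent.zero (Ls.cons Ent.zero (Ls.cons Ent.zero (Ls.cons (Ent.pos R16_25_5_0) (Ls.cons (Ent.pos R16_24_5_0) (Ls.cons (Ent.pos R16_23_5_0) (Ls.cons (Ent.pos R16_22_5_0) (Ls.cons (Ent.pos R16_21_5_0) (Ls.cons (Ent.pos R16_20_5_0) (Ls.cons (Ent.pos R16_19_5_0) (Ls.cons (Ent.pos R16_18_5_0) (Ls.cons (Ent.pos R16_17_5_0) (Ls.cons (Ent.pos R16_16_5_0) (Ls.cons (Ent.pos R16_15_5_0) (Ls.cons (Ent.pos R16_14_5_0) (Ls.cons (Ent.pos R16_13_5_0) (Ls.cons (Ent.pos R16_12_5_0) (Ls.cons (Ent.pos R16_11_5_0) (Ls.cons (Ent.pos R16_10_5_0)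 (Ls.cons (Ent.pos R16_9_5_0) (Ls.cons (Ent.pos R16_8_5_0) (Ls.cons (Ent.pos R16_7_5_0) (Ls.cons (Ent.pos R16_6_5_0) (Ls.cons Ent.zero (Ls.cons (Ent.neg R16_5_4_0) (Ls.cons (Ent.neg R16_5_3_0) (Ls.cons (Ent.neg R16_5_2_0) (Ls.cons (Ent.pos R16_5_1_0) (Ls.cons Ent.zero Ls.nil))))))))))))))))))))))))))))))
 (Ls.cons (Ls.cons Ent.zero (Ls.cons Ent.zero (Ls.cons Ent.zero (Ls.cons Ent.zero (Ls.cons (Ent.pos R16_25_4_0) (Ls.cons (Ent.pos R16_24_4_0) (Ls.cons (Ent.pos R16_23_4_0) (Ls.cons (Ent.pos R16_22_4_0) (Ls.cons (Ent.pos R16_21_4_0) (Ls.cons (Ent.pos R16_20_4_0) (Ls.cons (Ent.pos R16_19_4_0) (Ls.cons (Ent.pos R16_18_4_0) (Ls.cons (Ent.pos R16_17_4_0) (Ls.cons (Ent.pos R16_16_4_0) (Ls.cons (Ent.pos R16_15_4_0) (Ls.cons (Ent.pos R16_14_4_0) (Ls.cons (Ent.pos R16_13_4_0) (Ls.cons (Ent.pos R16_12_4_0)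 (Ls.cons (Ent.pos R16_11_4_0) (Ls.cons (Ent.pos R16_10_4_0) (Ls.cons (Ent.pos R16_9_4_0) (Ls.cons (Ent.pos R16_8_4_0) (Ls.cons (Ent.pos R16_7_4_0) (Ls.cons (Ent.pos R16_6_4_0) (Ls.cons (Ent.pos R16_5_4_0) (Ls.cons Ent.zero (Ls.cons (Ent.neg R16_4_3_0) (Ls.cons (Ent.neg R16_4_2_0) (Ls.cons (Ent.pos R16_4_1_0) (Ls.cons Ent.zero Ls.nil))))))))))))))))))))))))))))))
 (Ls.cons (Ls.cons Ent.zero (Ls.cons Ent.zero (Ls.cons (Ent.pos R16_27_3_0) (Ls.cons (Ent.pos R16_26_3_0) (Ls.cons (Ent.pos R16_25_3_0) (Ls.cons (Ent.pos R16_24_3_0) (Ls.cons (Ent.pos R16_23_3_0) (Ls.cons (Ent.pos R16_22_3_0) (Ls.cons (Ent.pos R16_21_3_0) (Ls.cons (Ent.pos R16_20_3_0) (Ls.cons (Ent.pos R16_19_3_0) (Ls.cons (Ent.pos R16_18_3_0) (Ls.cons (Ent.pos R16_17_3_0) (Ls.cons (Ent.pos R16_16_3_0) (Ls.cons (Ent.pos R16_15_3_0)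 (Ls.cons (Ent.pos R16_14_3_0) (Ls.cons (Ent.pos R16_13_3_0) (Ls.cons (Ent.pos R16_12_3_0) (Ls.cons (Ent.pos R16_11_3_0) (Ls.cons (Ent.pos R16_10_3_0) (Ls.cons (Ent.pos R16_9_3_0) (Ls.cons (Ent.pos R16_8_3_0) (Ls.cons (Ent.pos R16_7_3_0) (Ls.cons (Ent.pos R16_6_3_0) (Ls.cons (Ent.pos R16_5_3_0) (Ls.cons (Ent.pos R16_4_3_0) (Ls.cons Ent.zero (Ls.cons (Ent.neg R16_3_2_0) (Ls.cons (Ent.pos R16_3_1_0) (Ls.cons Ent.zero Ls.nil))))))))))))))))))))))))))))))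
 (Ls.cons (Ls.cons Ent.zero (Ls.cons Ent.zero (Ls.cons (Ent.pos R16_27_2_0) (Ls.cons (Ent.pos R16_26_2_0) (Ls.cons (Ent.pos R16_25_2_0) (Ls.cons (Ent.pos R16_24_2_0) (Ls.cons (Ent.pos R16_23_2_0) (Ls.cons (Ent.pos R16_22_2_0) (Ls.cons (Ent.pos R16_21_2_0) (Ls.cons (Ent.pos R16_20_2_0) (Ls.cons (Ent.pos R16_19_2_0) (Ls.cons (Ent.pos R16_18_2_0) (Ls.cons (Ent.pos R16_17_2_0) (Ls.cons (Ent.pos R16_16_2_0) (Ls.cons (Ent.pos R16_15_2_0) (Ls.cons (Ent.pos R16_14_2_0) (Ls.cons (Ent.pos R16_13_2_0) (Ls.cons (Ent.pos R16_12_2_0) (Ls.cons (Ent.pos R16_11_2_0) (Ls.cons (Ent.pos R16_10_2_0) (Ls.cons (Ent.pos R16_9_2_0) (Ls.cons (Ent.pos R16_8_2_0) (Ls.cons (Ent.pos R16_7_2_0) (Ls.cons (Ent.pos R16_6_2_0) (Ls.cons (Ent.pos R16_5_2_0) (Ls.cons (Ent.pos R16_4_2_0) (Ls.cons (Ent.pos R16_3_2_0) (Ls.cons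 Ent.zero (Ls.cons (Ent.neg R16_2_1_0) (Ls.cons Ent.zero Ls.nil))))))))))))))))))))))))))))))
 (Ls.cons (Ls.cons (Ent.neg R16_29_1_0) (Ls.cons (Ent.neg R16_28_1_0) (Ls.cons (Ent.neg R16_27_1_0) (Ls.cons (Ent.neg R16_26_1_0) (Ls.cons (Ent.neg R16_25_1_0) (Ls.cons (Ent.neg R16_24_1_0) (Ls.cons (Ent.neg R16_23_1_0) (Ls.cons (Ent.neg R16_22_1_0) (Ls.cons (Ent.neg R16_21_1_0) (Ls.cons (Ent.neg R16_20_1_0) (Ls.cons (Ent.neg R16_19_1_0) (Ls.cons (Ent.neg R16_18_1_0) (Ls.cons (Ent.neg R16_17_1_0) (Ls.cons (Ent.neg R16_16_1_0) (Ls.cons (Ent.neg R16_15_1_0) (Ls.cons (Ent.neg R16_14_1_0) (Ls.cons (Ent.neg R16_13_1_0) (Ls.cons (Ent.neg R16_12_1_0) (Ls.cons (Ent.neg R16_11_1_0) (Ls.cons (Ent.neg R16_10_1_0) (Ls.cons (Ent.neg R16_9_1_0) (Ls.cons (Ent.neg R16_8_1_0) (Ls.cons (Ent.neg R16_7_1_0) (Ls.cons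 (Ent.neg R16_6_1_0) (Ls.cons (Ent.neg R16_5_1_0) (Ls.cons (Ent.neg R16_4_1_0) (Ls.cons (Ent.neg R16_3_1_0) (Ls.cons (Ent.pos R16_2_1_0) (Ls.cons Ent.zero (Ls.cons Ent.zero Ls.nil))))))))))))))))))))))))))))))
 (Ls.cons (Ls.cons Ent.zero (Ls.cons Ent.zero (Ls.cons Ent.zero (Ls.cons Ent.zero (Ls.cons Ent.zero (Ls.cons Ent.zero (Ls.cons Ent.zero (Ls.cons Ent.zero (Ls.cons Ent.zero (Ls.cons Ent.zero (Ls.cons Ent.zero (Ls.cons Ent.zero (Ls.cons Ent.zero (Ls.cons Ent.zero (Ls.cons Ent.zero (Ls.cons Ent.zero (Ls.cons Ent.zero (Ls.cons Ent.zero (Ls.cons Ent.zero (Ls.cons Ent.zero (Ls.cons Ent.zero (Ls.cons Ent.zero (Ls.cons Ent.zero (Ls.cons Ent.zero (Ls.cons Ent.zero (Ls.cons Ent.zero (Ls.cons Ent.zero (Ls.cons Ent.zero (Ls.cons Ent.zero (Ls.cons Ent.zero Ls.nil))))))))))))))))))))))))))))))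
 Ls.nil))))))

noncomputable def boxR16 : L3 := (Ls.cons bxR16_0 Ls.nil)

noncomputable def bsR17 : Ls L3 := Ls.cons boxR16 bsR16

end Vale.Agent.P181.K
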