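import Vale.Agent.P181.Six.R.D17_0
import Vale.Agent.P181.Six.R.B16

set_option maxRecDepth 100000
set_option maxHeartbeats 0

namespace Vale.Agent.P181.K

noncomputable def cR17_0_0 : L2 :=
 (Ls.cons Ls.nil
 (Ls.cons (Ls.cons (Ent.neg R17_29_1_0) (Ls.cons (Ent.neg R17_28_1_0) (Ls.cons (Ent.neg R17_27_1_0) (Ls.cons (Ent.neg R17_26_1_0) (Ls.cons (Ent.neg R17_25_1_0) (Ls.cons (Ent.neg R17_24_1_0) (Ls.cons (Ent.neg R17_23_1_0) (Ls.cons (Ent.neg R17_22_1_0) (Ls.cons (Ent.neg R17_21_1_0) (Ls.cons (Ent.neg R17_20_1_0) (Ls.cons (Ent.neg R17_19_1_0) (Ls.cons (Ent.neg R17_18_1_0) (Ls.cons (Ent.neg R17_17_1_0) (Ls.cons (Ent.neg R17_16_1_0) (Ls.cons (Ent.neg R17_15_1_0) (Ls.cons (Ent.neg R17_14_1_0) (Ls.cons (Ent.neg R17_13_1_0) (Ls.cons (Ent.neg R17_12_1_0) (Ls.cons (Ent.neg R17_11_1_0) (Ls.cons (Ent.neg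 R17_10_1_0) (Ls.cons (Ent.neg R17_9_1_0) (Ls.cons (Ent.neg R17_8_1_0) (Ls.cons (Ent.neg R17_7_1_0) (Ls.cons (Ent.neg R17_6_1_0) (Ls.cons (Ent.neg R17_5_1_0) (Ls.cons (Ent.neg R17_4_1_0) (Ls.cons (Ent.neg R17_3_1_0) (Ls.cons (Ent.pos R17_2_1_0) Ls.nil))))))))))))))))))))))))))))
 (Ls.cons (Ls.cons Ent.zero (Ls.cons Ent.zero (Ls.cons (Ent.pos R17_27_2_0) (Ls.cons (Ent.pos R17_26_2_0) (Ls.cons (Ent.pos R17_25_2_0) (Ls.cons (Ent.pos R17_24_2_0) (Ls.cons (Ent.pos R17_23_2_0) (Ls.cons (Ent.pos R17_22_2_0) (Ls.cons (Ent.pos R17_21_2_0) (Ls.cons (Ent.pos R17_20_2_0) (Ls.cons (Ent.pos R17_19_2_0) (Ls.cons (Ent.pos R17_18_2_0) (Ls.cons (Ent.pos R17_17_2_0) (Ls.cons (Ent.pos R17_16_2_0) (Ls.cons (Ent.pos R17_15_2_0) (Ls.cons (Ent.pos R17_14_2_0) (Ls.cons (Ent.pos R17_13_2_0) (Ls.cons (Ent.pos R17_12_2_0)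 (Ls.cons (Ent.pos R17_11_2_0) (Ls.cons (Ent.pos R17_10_2_0) (Ls.cons (Ent.pos R17_9_2_0) (Ls.cons (Ent.pos R17_8_2_0) (Ls.cons (Ent.pos R17_7_2_0) (Ls.cons (Ent.pos R17_6_2_0) (Ls.cons (Ent.pos R17_5_2_0) (Ls.cons (Ent.pos R17_4_2_0) (Ls.cons (Ent.pos R17_3_2_0) Ls.nil)))))))))))))))))))))))))))
 (Ls.cons (Ls.cons Ent.zero (Ls.cons Ent.zero (Ls.cons (Ent.pos R17_27_3_0) (Ls.cons (Ent.pos R17_26_3_0) (Ls.cons (Ent.pos R17_25_3_0) (Ls.cons (Ent.pos R17_24_3_0) (Ls.cons (Ent.pos R17_23_3_0) (Ls.cons (Ent.pos R17_22_3_0) (Ls.cons (Ent.pos R17_21_3_0) (Ls.cons (Ent.pos R17_20_3_0) (Ls.cons (Ent.pos R17_19_3_0) (Ls.cons (Ent.pos R17_18_3_0) (Ls.cons (Ent.pos R17_17_3_0) (Ls.cons (Ent.pos R17_16_3_0) (Ls.cons (Ent.pos R17_15_3_0) (Ls.cons (Ent.pos R17_14_3_0) (Ls.cons (Ent.pos R17_13_3_0) (Ls.cons (Ent.pos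 R17_12_3_0) (Ls.cons (Ent.pos R17_11_3_0) (Ls.cons (Ent.pos R17_10_3_0) (Ls.cons (Ent.pos R17_9_3_0) (Ls.cons (Ent.pos R17_8_3_0) (Ls.cons (Ent.pos R17_7_3_0) (Ls.cons (Ent.pos R17_6_3_0) (Ls.cons (Ent.pos R17_5_3_0) (Ls.cons (Ent.pos R17_4_3_0) Ls.nil))))))))))))))))))))))))))
 (Ls.cons Ls.nil
 (Ls.cons Ls.nil
 Ls.nil))))))

noncomputable def tbR17 : L3 := (Ls.cons cR17_0_0 Ls.nil)

noncomputable def bxR17_0 : L2 :=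
 (Ls.cons (Ls.cons Ent.zero (Ls.cons Ent.zero (Ls.cons Ent.zero (Ls.cons Ent.zero (Ls.cons Ent.zero (Ls.cons Ent.zero (Ls.cons Ent.zero (Ls.cons Ent.zero (Ls.cons Ent.zero (Ls.cons Ent.zero (Ls.cons Ent.zero (Ls.cons Ent.zero (Ls.cons Ent.zero (Ls.cons Ent.zero (Ls.cons Ent.zero (Ls.cons Ent.zero (Ls.cons Ent.zero (Ls.cons Ent.zero (Ls.cons Ent.zero (Ls.cons Ent.zero (Ls.cons Ent.zero (Ls.cons Ent.zero (Ls.cons Ent.zero (Ls.cons Ent.zero (Ls.cons Ent.zero (Ls.cons Ent.zero (Ls.cons (Ent.neg R17_5_3_0) (Ls.cons (Ent.neg R17_5_2_0) (Ls.cons (Ent.pos R17_5_1_0) (Ls.cons Ent.zero Ls.nil))))))))))))))))))))))))))))))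
 (Ls.cons (Ls.cons Ent.zero (Ls.cons Ent.zero (Ls.cons Ent.zero (Ls.cons Ent.zero (Ls.cons Ent.zero (Ls.cons Ent.zero (Ls.cons Ent.zero (Ls.cons Ent.zero (Ls.cons Ent.zero (Ls.cons Ent.zero (Ls.cons Ent.zero (Ls.cons Ent.zero (Ls.cons Ent.zero (Ls.cons Ent.zero (Ls.cons Ent.zero (Ls.cons Ent.zero (Ls.cons Ent.zero (Ls.cons Ent.zero (Ls.cons Ent.zero (Ls.cons Ent.zero (Ls.cons Ent.zero (Ls.cons Ent.zero (Ls.cons Ent.zero (Ls.cons Ent.zero (Ls.cons Ent.zero (Ls.cons Ent.zero (Ls.cons (Ent.neg R17_4_3_0) (Ls.cons (Ent.neg R17_4_2_0) (Ls.cons (Ent.pos R17_4_1_0) (Ls.cons Ent.zero Ls.nil))))))))))))))))))))))))))))))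
 (Ls.cons (Ls.cons Ent.zero (Ls.cons Ent.zero (Ls.cons (Ent.pos R17_27_3_0) (Ls.cons (Ent.pos R17_26_3_0) (Ls.cons (Ent.pos R17_25_3_0) (Ls.cons (Ent.pos R17_24_3_0) (Ls.cons (Ent.pos R17_23_3_0) (Ls.cons (Ent.pos R17_22_3_0) (Ls.cons (Ent.pos R17_21_3_0) (Ls.cons (Ent.pos R17_20_3_0) (Ls.cons (Ent.pos R17_19_3_0) (Ls.cons (Ent.pos R17_18_3_0) (Ls.cons (Ent.pos R17_17_3_0) (Ls.cons (Ent.pos R17_16_3_0) (Ls.cons (Ent.pos R17_15_3_0) (Ls.cons (Ent.pos R17_14_3_0) (Ls.cons (Ent.pos R17_13_3_0) (Ls.cons (Ent.pos R17_12_3_0) (Ls.cons (Ent.pos R17_11_3_0) (Ls.cons (Ent.pos R17_10_3_0) (Ls.cons (Ent.pos R17_9_3_0) (Ls.cons (Ent.pos R17_8_3_0) (Ls.cons (Ent.pos R17_7_3_0) (Ls.cons (Ent.pos R17_6_3_0) (Ls.cons (Ent.pos R17_5_3_0) (Ls.cons (Ent.pos R17_4_3_0) (Ls.cons Ent.zero (Ls.cons (Ent.neg R17_3_2_0)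 (Ls.cons (Ent.pos R17_3_1_0) (Ls.cons Ent.zero Ls.nil))))))))))))))))))))))))))))))
 (Ls.cons (Ls.cons Ent.zero (Ls.cons Ent.zero (Ls.cons (Ent.pos R17_27_2_0) (Ls.cons (Ent.pos R17_26_2_0) (Ls.cons (Ent.pos R17_25_2_0) (Ls.cons (Ent.pos R17_24_2_0) (Ls.cons (Ent.pos R17_23_2_0) (Ls.cons (Ent.pos R17_22_2_0) (Ls.cons (Ent.pos R17_21_2_0) (Ls.cons (Ent.pos R17_20_2_0) (Ls.cons (Ent.pos R17_19_2_0) (Ls.cons (Ent.pos R17_18_2_0) (Ls.cons (Ent.pos R17_17_2_0) (Ls.cons (Ent.pos R17_16_2_0) (Ls.cons (Ent.pos R17_15_2_0) (Ls.cons (Ent.pos R17_14_2_0) (Ls.cons (Ent.pos R17_13_2_0) (Ls.cons (Ent.pos R17_12_2_0) (Ls.cons (Ent.pos R17_11_2_0) (Ls.cons (Ent.pos R17_10_2_0) (Ls.cons (Ent.pos R17_9_2_0) (Ls.cons (Ent.pos R17_8_2_0) (Ls.cons (Ent.pos R17_7_2_0) (Ls.cons (Ent.pos R17_6_2_0) (Ls.cons (Ent.pos R17_5_2_0)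 (Ls.cons (Ent.pos R17_4_2_0) (Ls.cons (Ent.pos R17_3_2_0) (Ls.cons Ent.zero (Ls.cons (Ent.neg R17_2_1_0) (Ls.cons Ent.zero Ls.nil))))))))))))))))))))))))))))))
 (Ls.cons (Ls.cons (Ent.neg R17_29_1_0) (Ls.cons (Ent.neg R17_28_1_0) (Ls.cons (Ent.neg R17_27_1_0) (Ls.cons (Ent.neg R17_26_1_0) (Ls.cons (Ent.neg R17_25_1_0) (Ls.cons (Ent.neg R17_24_1_0) (Ls.cons (Ent.neg R17_23_1_0) (Ls.cons (Ent.neg R17_22_1_0) (Ls.cons (Ent.neg R17_21_1_0) (Ls.cons (Ent.neg R17_20_1_0) (Ls.cons (Ent.neg R17_19_1_0) (Ls.cons (Ent.neg R17_18_1_0) (Ls.cons (Ent.neg R17_17_1_0) (Ls.cons (Ent.neg R17_16_1_0) (Ls.cons (Ent.neg R17_15_1_0) (Ls.cons (Ent.neg R17_14_1_0) (Ls.cons (Ent.neg R17_13_1_0) (Ls.cons (Ent.neg R17_12_1_0) (Ls.cons (Ent.neg R17_11_1_0) (Ls.cons (Ent.neg R17_10_1_0) (Ls.cons (Ent.neg R17_9_1_0) (Ls.cons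 (Ent.neg R17_8_1_0) (Ls.cons (Ent.neg R17_7_1_0) (Ls.cons (Ent.neg R17_6_1_0) (Ls.cons (Ent.neg R17_5_1_0) (Ls.cons (Ent.neg R17_4_1_0) (Ls.cons (Ent.neg R17_3_1_0) (Ls.cons (Ent.pos R17_2_1_0) (Ls.cons Ent.zero (Ls.cons Ent.zero Ls.nil))))))))))))))))))))))))))))))
 (Ls.cons (Ls.cons Ent.zero (Ls.cons Ent.zero (Ls.cons Ent.zero (Ls.cons Ent.zero (Ls.cons Ent.zero (Ls.cons Ent.zero (Ls.cons Ent.zero (Ls.cons Ent.zero (Ls.cons Ent.zero (Ls.cons Ent.zero (Ls.cons Ent.zero (Ls.cons Ent.zero (Ls.cons Ent.zero (Ls.cons Ent.zero (Ls.cons Ent.zero (Ls.cons Ent.zero (Ls.cons Ent.zero (Ls.cons Ent.zero (Ls.cons Ent.zero (Ls.cons Ent.zero (Ls.cons Ent.zero (Ls.cons Ent.zero (Ls.cons Ent.zero (Ls.cons Ent.zero (Ls.cons Ent.zero (Ls.cons Ent.zero (Ls.cons Ent.zero (Ls.cons Ent.zero (Ls.cons Ent.zero (Ls.cons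 Ent.zero Ls.nil))))))))))))))))))))))))))))))
 Ls.nil))))))

noncomputable def boxR17 : L3 := (Ls.cons bxR17_0 Ls.nil)

noncomputable def bsR18 : Ls L3 := Ls.cons boxR17 bsR17

end Vale.Agent.P181.K
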