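import Vale.Agent.P181.Six.K3

set_option maxRecDepth 100000
set_option maxHeartbeats 0

namespace Vale.Agent.P181.K

noncomputable def JR : Job := ⟨6, 114, 49, 123, 30, 6, 1⟩

noncomputable def tR : Ls (Ls Nat) := (Ls.cons (Ls.cons 30 (Ls.cons 30 (Ls.cons 28 (Ls.cons 28 (Ls.cons 26 (Ls.cons 26 Ls.nil)))))) Ls.nil)

noncomputable def tR17 : Ls (Ls Nat) := (Ls.cons (Ls.cons 30 (Ls.cons 30 (Ls.cons 28 (Ls.cons 28 (Ls.cons 0 (Ls.cons 0 Ls.nil)))))) Ls.nil)

noncomputable def tR18 : Ls (Ls Nat) := (Ls.cons (Ls.cons 30 (Ls.cons 30 (Ls.cons 0 (Ls.cons 0 (Ls.cons 0 (Ls.cons 0 Ls.nil)))))) Ls.nil)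

noncomputable def nR : Nat := JR.ones

noncomputable def oR1_4 : Nat := om JR 1 4
noncomputable def oR1_5 : Nat := om JR 1 5
noncomputable def oR1_6 : Nat := om JR 1 6
noncomputable def oR1_7 : Nat := om JR 1 7
noncomputable def oR1_8 : Nat := om JR 1 8
noncomputable def oR1_9 : Nat := om JR 1 9
noncomputable def oR1_10 : Nat := om JR 1 10
noncomputable def oR1_11 : Nat := om JR 1 11
noncomputable def oR1_12 : Nat := om JR 1 12
noncomputable def oR1_13 : Nat := om JR 1 13
noncomputable def oR1_14 : Nat := om JR 1 14
noncomputable def oR1_15 : Nat := om JR 1 15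
noncomputable def oR1_16 : Nat := om JR 1 16
noncomputable def oR1_17 : Nat := om JR 1 17
noncomputable def oR1_18 : Nat := om JR 1 18
noncomputable def oR1_19 : Nat := om JR 1 19
noncomputable def oR1_20 : Nat := om JR 1 20
noncomputable def oR1_21 : Nat := om JR 1 21
noncomputable def oR1_22 : Nat := om JR 1 22
noncomputable def oR1_24 : Nat := om JR 1 24
noncomputable def oR1_25 : Nat := om JR 1 25
noncomputable def oR1_26 : Nat := om JR 1 26
noncomputable def oR1_30 : Nat := om JR 1 30
noncomputable def oR2_9 : Nat := om JR 2 9
noncomputable def oR2_10 : Nat := om JR 2 10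
noncomputable def oR2_11 : Nat := om JR 2 11
noncomputable def oR2_12 : Nat := om JR 2 12
noncomputable def oR2_13 : Nat := om JR 2 13
noncomputable def oR2_14 : Nat := om JR 2 14
noncomputable def oR2_15 : Nat := om JR 2 15
noncomputable def oR2_17 : Nat := om JR 2 17
noncomputable def oR2_18 : Nat := om JR 2 18
noncomputable def oR2_19 : Nat := om JR 2 19
noncomputable def oR2_20 : Nat := om JR 2 20
noncomputable def oR2_21 : Nat := om JR 2 21
noncomputable def oR2_22 : Nat := om JR 2 22
noncomputable def oR2_23 : Nat := om JR 2 23
noncomputable def oR2_24 : Nat := om JR 2 24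
noncomputable def oR2_25 : Nat := om JR 2 25
noncomputable def oR2_26 : Nat := om JR 2 26
noncomputable def oR2_27 : Nat := om JR 2 27
noncomputable def oR2_28 : Nat := om JR 2 28
noncomputable def oR2_30 : Nat := om JR 2 30
noncomputable def oR3_11 : Nat := om JR 3 11
noncomputable def oR3_13 : Nat := om JR 3 13
noncomputable def oR3_14 : Nat := om JR 3 14
noncomputable def oR3_15 : Nat := om JR 3 15
noncomputable def oR3_16 : Nat := om JR 3 16
noncomputable def oR3_17 : Nat := om JR 3 17
noncomputable def oR3_20 : Nat := om JR 3 20
noncomputable def oR3_22 : Nat := om JR 3 22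
noncomputable def oR3_23 : Nat := om JR 3 23
noncomputable def oR3_24 : Nat := om JR 3 24
noncomputable def oR3_26 : Nat := om JR 3 26
noncomputable def oR3_27 : Nat := om JR 3 27
noncomputable def oR3_28 : Nat := om JR 3 28
noncomputable def oR3_30 : Nat := om JR 3 30
noncomputable def oR3_32 : Nat := om JR 3 32
noncomputable def oR3_36 : Nat := om JR 3 36
noncomputable def oR4_13 : Nat := om JR 4 13
noncomputable def oR4_14 : Nat := om JR 4 14
noncomputable def oR4_15 : Nat := om JR 4 15
noncomputable def oR4_16 : Nat := om JR 4 16
noncomputable def oR4_17 : Nat := om JR 4 17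
noncomputable def oR4_18 : Nat := om JR 4 18
noncomputable def oR4_19 : Nat := om JR 4 19
noncomputable def oR4_20 : Nat := om JR 4 20
noncomputable def oR4_21 : Nat := om JR 4 21
noncomputable def oR4_22 : Nat := om JR 4 22
noncomputable def oR4_23 : Nat := om JR 4 23
noncomputable def oR4_24 : Nat := om JR 4 24
noncomputable def oR4_25 : Nat := om JR 4 25
noncomputable def oR4_26 : Nat := om JR 4 26
noncomputable def oR4_27 : Nat := om JR 4 27
noncomputable def oR4_28 : Nat := om JR 4 28
noncomputable def oR4_29 : Nat := om JR 4 29
noncomputable def oR4_30 : Nat := om JR 4 30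
noncomputable def oR4_31 : Nat := om JR 4 31
noncomputable def oR4_32 : Nat := om JR 4 32
noncomputable def oR4_33 : Nat := om JR 4 33
noncomputable def oR4_34 : Nat := om JR 4 34
noncomputable def oR4_36 : Nat := om JR 4 36
noncomputable def oR5_17 : Nat := om JR 5 17
noncomputable def oR5_18 : Nat := om JR 5 18
noncomputable def oR5_19 : Nat := om JR 5 19
noncomputable def oR5_27 : Nat := om JR 5 27
noncomputable def oR5_28 : Nat := om JR 5 28
noncomputable def oR5_29 : Nat := om JR 5 29
noncomputable def oR5_30 : Nat := om JR 5 30
noncomputable def oR5_31 : Nat := om JR 5 31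
noncomputable def oR5_33 : Nat := om JR 5 33
noncomputable def oR5_36 : Nat := om JR 5 36
noncomputable def oR6_19 : Nat := om JR 6 19
noncomputable def oR6_20 : Nat := om JR 6 20
noncomputable def oR6_21 : Nat := om JR 6 21
noncomputable def oR6_26 : Nat := om JR 6 26
noncomputable def oR6_27 : Nat := om JR 6 27
noncomputable def oR6_28 : Nat := om JR 6 28
noncomputable def oR6_29 : Nat := om JR 6 29
noncomputable def oR6_32 : Nat := om JR 6 32
noncomputable def oR6_33 : Nat := om JR 6 33
noncomputable def oR6_34 : Nat := om JR 6 34
noncomputable def oR6_35 : Nat := om JR 6 35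
noncomputable def oR6_36 : Nat := om JR 6 36
noncomputable def oR6_37 : Nat := om JR 6 37
noncomputable def oR6_39 : Nat := om JR 6 39
noncomputable def oR6_40 : Nat := om JR 6 40
noncomputable def oR7_20 : Nat := om JR 7 20
noncomputable def oR7_21 : Nat := om JR 7 21
noncomputable def oR7_22 : Nat := om JR 7 22
noncomputable def oR7_23 : Nat := om JR 7 23
noncomputable def oR7_24 : Nat := om JR 7 24
noncomputable def oR7_25 : Nat := om JR 7 25
noncomputable def oR7_26 : Nat := om JR 7 26
noncomputable def oR7_27 : Nat := om JR 7 27
noncomputable def oR7_28 : Nat := om JR 7 28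
noncomputable def oR7_29 : Nat := om JR 7 29
noncomputable def oR7_30 : Nat := om JR 7 30
noncomputable def oR7_31 : Nat := om JR 7 31
noncomputable def oR7_32 : Nat := om JR 7 32
noncomputable def oR7_33 : Nat := om JR 7 33
noncomputable def oR7_34 : Nat := om JR 7 34
noncomputable def oR7_35 : Nat := om JR 7 35
noncomputable def oR7_36 : Nat := om JR 7 36
noncomputable def oR7_37 : Nat := om JR 7 37
noncomputable def oR7_38 : Nat := om JR 7 38
noncomputable def oR7_39 : Nat := om JR 7 39
noncomputable def oR7_40 : Nat := om JR 7 40
noncomputable def oR9_23 : Nat := om JR 9 23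
noncomputable def oR9_24 : Nat := om JR 9 24
noncomputable def oR9_25 : Nat := om JR 9 25
noncomputable def oR9_30 : Nat := om JR 9 30
noncomputable def oR9_31 : Nat := om JR 9 31
noncomputable def oR9_32 : Nat := om JR 9 32
noncomputable def oR9_33 : Nat := om JR 9 33
noncomputable def oR9_34 : Nat := om JR 9 34
noncomputable def oR9_35 : Nat := om JR 9 35
noncomputable def oR9_36 : Nat := om JR 9 36
noncomputable def oR9_37 : Nat := om JR 9 37
noncomputable def oR9_38 : Nat := om JR 9 38
noncomputable def oR9_39 : Nat := om JR 9 39
noncomputable def oR9_40 : Nat := om JR 9 40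
noncomputable def oR10_24 : Nat := om JR 10 24
noncomputable def oR10_25 : Nat := om JR 10 25
noncomputable def oR10_26 : Nat := om JR 10 26
noncomputable def oR10_27 : Nat := om JR 10 27
noncomputable def oR10_28 : Nat := om JR 10 28
noncomputable def oR10_29 : Nat := om JR 10 29
noncomputable def oR10_30 : Nat := om JR 10 30
noncomputable def oR10_31 : Nat := om JR 10 31
noncomputable def oR10_32 : Nat := om JR 10 32
noncomputable def oR10_33 : Nat := om JR 10 33
noncomputable def oR10_34 : Nat := om JR 10 34
noncomputable def oR10_35 : Nat := om JR 10 35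
noncomputable def oR10_36 : Nat := om JR 10 36
noncomputable def oR10_37 : Nat := om JR 10 37
noncomputable def oR10_38 : Nat := om JR 10 38
noncomputable def oR10_39 : Nat := om JR 10 39
noncomputable def oR11_29 : Nat := om JR 11 29
noncomputable def oR11_30 : Nat := om JR 11 30
noncomputable def oR11_33 : Nat := om JR 11 33
noncomputable def oR11_34 : Nat := om JR 11 34
noncomputable def oR11_35 : Nat := om JR 11 35
noncomputable def oR11_36 : Nat := om JR 11 36
noncomputable def oR11_37 : Nat := om JR 11 37
noncomputable def oR11_38 : Nat := om JR 11 38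
noncomputable def oR11_39 : Nat := om JR 11 39
noncomputable def oR11_40 : Nat := om JR 11 40
noncomputable def oR12_29 : Nat := om JR 12 29
noncomputable def oR12_30 : Nat := om JR 12 30
noncomputable def oR12_31 : Nat := om JR 12 31
noncomputable def oR12_32 : Nat := om JR 12 32
noncomputable def oR12_33 : Nat := om JR 12 33
noncomputable def oR12_34 : Nat := om JR 12 34
noncomputable def oR12_35 : Nat := om JR 12 35
noncomputable def oR12_36 : Nat := om JR 12 36
noncomputable def oR12_37 : Nat := om JR 12 37
noncomputable def oR12_38 : Nat := om JR 12 38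
noncomputable def oR12_39 : Nat := om JR 12 39
noncomputable def oR12_40 : Nat := om JR 12 40
noncomputable def oR13_31 : Nat := om JR 13 31
noncomputable def oR13_32 : Nat := om JR 13 32
noncomputable def oR13_33 : Nat := om JR 13 33
noncomputable def oR13_34 : Nat := om JR 13 34
noncomputable def oR13_35 : Nat := om JR 13 35
noncomputable def oR13_36 : Nat := om JR 13 36
noncomputable def oR13_37 : Nat := om JR 13 37
noncomputable def oR13_38 : Nat := om JR 13 38
noncomputable def oR13_39 : Nat := om JR 13 39
noncomputable def oR13_40 : Nat := om JR 13 40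
noncomputable def oR14_30 : Nat := om JR 14 30
noncomputable def oR14_31 : Nat := om JR 14 31
noncomputable def oR14_32 : Nat := om JR 14 32
noncomputable def oR14_33 : Nat := om JR 14 33
noncomputable def oR14_34 : Nat := om JR 14 34
noncomputable def oR14_35 : Nat := om JR 14 35
noncomputable def oR14_36 : Nat := om JR 14 36
noncomputable def oR14_37 : Nat := om JR 14 37
noncomputable def oR14_38 : Nat := om JR 14 38
noncomputable def oR14_39 : Nat := om JR 14 39
noncomputable def oR15_31 : Nat := om JR 15 31
noncomputable def oR15_32 : Nat := om JR 15 32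
noncomputable def oR15_33 : Nat := om JR 15 33
noncomputable def oR15_34 : Nat := om JR 15 34
noncomputable def oR15_35 : Nat := om JR 15 35
noncomputable def oR15_36 : Nat := om JR 15 36
noncomputable def oR15_37 : Nat := om JR 15 37
noncomputable def oR15_38 : Nat := om JR 15 38
noncomputable def oR15_39 : Nat := om JR 15 39
noncomputable def oR15_40 : Nat := om JR 15 40
noncomputable def oR16_31 : Nat := om JR 16 31
noncomputable def oR16_32 : Nat := om JR 16 32
noncomputable def oR16_33 : Nat := om JR 16 33
noncomputable def oR16_34 : Nat := om JR 16 34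
noncomputable def oR16_35 : Nat := om JR 16 35
noncomputable def oR16_36 : Nat := om JR 16 36
noncomputable def oR16_37 : Nat := om JR 16 37
noncomputable def oR16_38 : Nat := om JR 16 38
noncomputable def oR16_39 : Nat := om JR 16 39
noncomputable def oR16_40 : Nat := om JR 16 40
noncomputable def oR17_31 : Nat := om JR 17 31
noncomputable def oR17_32 : Nat := om JR 17 32
noncomputable def oR17_33 : Nat := om JR 17 33
noncomputable def oR17_34 : Nat := om JR 17 34
noncomputable def oR17_35 : Nat := om JR 17 35
noncomputable def oR17_36 : Nat := om JR 17 36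
noncomputable def oR17_37 : Nat := om JR 17 37
noncomputable def oR17_38 : Nat := om JR 17 38
noncomputable def oR17_39 : Nat := om JR 17 39
noncomputable def oR17_40 : Nat := om JR 17 40
noncomputable def oR18_31 : Nat := om JR 18 31
noncomputable def oR18_32 : Nat := om JR 18 32
noncomputable def oR18_33 : Nat := om JR 18 33
noncomputable def oR18_35 : Nat := om JR 18 35
noncomputable def oR18_36 : Nat := om JR 18 36
noncomputable def oR18_37 : Nat := om JR 18 37
noncomputable def oR18_38 : Nat := om JR 18 38
noncomputable def oR18_39 : Nat := om JR 18 39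
noncomputable def oR18_40 : Nat := om JR 18 40
noncomputable def oR19_31 : Nat := om JR 19 31
noncomputable def oR19_32 : Nat := om JR 19 32
noncomputable def oR19_33 : Nat := om JR 19 33
noncomputable def oR19_34 : Nat := om JR 19 34
noncomputable def oR19_35 : Nat := om JR 19 35
noncomputable def oR19_36 : Nat := om JR 19 36
noncomputable def oR19_37 : Nat := om JR 19 37
noncomputable def oR19_38 : Nat := om JR 19 38
noncomputable def oR19_39 : Nat := om JR 19 39
noncomputable def oR19_40 : Nat := om JR 19 40
noncomputable def oR20_31 : Nat := om JR 20 31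
noncomputable def oR20_32 : Nat := om JR 20 32
noncomputable def oR20_33 : Nat := om JR 20 33
noncomputable def oR20_34 : Nat := om JR 20 34
noncomputable def oR20_35 : Nat := om JR 20 35
noncomputable def oR20_36 : Nat := om JR 20 36
noncomputable def oR20_37 : Nat := om JR 20 37
noncomputable def oR20_38 : Nat := om JR 20 38
noncomputable def oR20_39 : Nat := om JR 20 39
noncomputable def oR20_40 : Nat := om JR 20 40
noncomputable def oR21_31 : Nat := om JR 21 31
noncomputable def oR21_32 : Nat := om JR 21 32
noncomputable def oR21_33 : Nat := om JR 21 33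
noncomputable def oR21_34 : Nat := om JR 21 34
noncomputable def oR21_35 : Nat := om JR 21 35
noncomputable def oR21_36 : Nat := om JR 21 36
noncomputable def oR21_37 : Nat := om JR 21 37
noncomputable def oR21_38 : Nat := om JR 21 38
noncomputable def oR21_39 : Nat := om JR 21 39
noncomputable def oR22_31 : Nat := om JR 22 31
noncomputable def oR22_32 : Nat := om JR 22 32
noncomputable def oR22_33 : Nat := om JR 22 33
noncomputable def oR22_34 : Nat := om JR 22 34
noncomputable def oR22_35 : Nat := om JR 22 35
noncomputable def oR22_36 : Nat := om JR 22 36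
noncomputable def oR22_37 : Nat := om JR 22 37
noncomputable def oR22_38 : Nat := om JR 22 38
noncomputable def oR22_39 : Nat := om JR 22 39
noncomputable def oR22_40 : Nat := om JR 22 40
noncomputable def oR23_31 : Nat := om JR 23 31
noncomputable def oR23_32 : Nat := om JR 23 32
noncomputable def oR23_33 : Nat := om JR 23 33
noncomputable def oR23_34 : Nat := om JR 23 34
noncomputable def oR23_35 : Nat := om JR 23 35
noncomputable def oR23_36 : Nat := om JR 23 36
noncomputable def oR23_37 : Nat := om JR 23 37
noncomputable def oR23_38 : Nat := om JR 23 38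
noncomputable def oR23_39 : Nat := om JR 23 39
noncomputable def oR24_31 : Nat := om JR 24 31
noncomputable def oR24_32 : Nat := om JR 24 32
noncomputable def oR24_33 : Nat := om JR 24 33
noncomputable def oR24_34 : Nat := om JR 24 34
noncomputable def oR24_35 : Nat := om JR 24 35
noncomputable def oR24_36 : Nat := om JR 24 36
noncomputable def oR24_37 : Nat := om JR 24 37
noncomputable def oR24_38 : Nat := om JR 24 38
noncomputable def oR24_39 : Nat := om JR 24 39
noncomputable def oR25_31 : Nat := om JR 25 31
noncomputable def oR25_32 : Nat := om JR 25 32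
noncomputable def oR25_33 : Nat := om JR 25 33
noncomputable def oR25_34 : Nat := om JR 25 34
noncomputable def oR25_35 : Nat := om JR 25 35
noncomputable def oR25_36 : Nat := om JR 25 36
noncomputable def oR25_37 : Nat := om JR 25 37
noncomputable def oR25_38 : Nat := om JR 25 38
noncomputable def oR25_39 : Nat := om JR 25 39
noncomputable def oR26_31 : Nat := om JR 26 31
noncomputable def oR26_32 : Nat := om JR 26 32
noncomputable def oR26_33 : Nat := om JR 26 33
noncomputable def oR26_34 : Nat := om JR 26 34
noncomputable def oR26_35 : Nat := om JR 26 35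
noncomputable def oR26_36 : Nat := om JR 26 36
noncomputable def oR26_37 : Nat := om JR 26 37
noncomputable def oR26_38 : Nat := om JR 26 38
noncomputable def oR26_39 : Nat := om JR 26 39
noncomputable def oR27_31 : Nat := om JR 27 31
noncomputable def oR27_32 : Nat := om JR 27 32
noncomputable def oR27_33 : Nat := om JR 27 33
noncomputable def oR27_34 : Nat := om JR 27 34
noncomputable def oR27_35 : Nat := om JR 27 35
noncomputable def oR27_36 : Nat := om JR 27 36
noncomputable def oR27_37 : Nat := om JR 27 37
noncomputable def oR27_38 : Nat := om JR 27 38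
noncomputable def oR27_39 : Nat := om JR 27 39
noncomputable def oR28_31 : Nat := om JR 28 31
noncomputable def oR28_32 : Nat := om JR 28 32
noncomputable def oR28_33 : Nat := om JR 28 33
noncomputable def oR28_34 : Nat := om JR 28 34
noncomputable def oR28_35 : Nat := om JR 28 35
noncomputable def oR28_36 : Nat := om JR 28 36
noncomputable def oR28_37 : Nat := om JR 28 37
noncomputable def oR28_38 : Nat := om JR 28 38
noncomputable def oR28_39 : Nat := om JR 28 39
noncomputable def oR29_31 : Nat := om JR 29 31
noncomputable def oR29_32 : Nat := om JR 29 32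
noncomputable def oR29_33 : Nat := om JR 29 33
noncomputable def oR29_34 : Nat := om JR 29 34
noncomputable def oR29_35 : Nat := om JR 29 35
noncomputable def oR29_36 : Nat := om JR 29 36
noncomputable def oR29_37 : Nat := om JR 29 37
noncomputable def oR29_38 : Nat := om JR 29 38
noncomputable def oR30_31 : Nat := om JR 30 31
noncomputable def oR30_32 : Nat := om JR 30 32
noncomputable def oR30_33 : Nat := om JR 30 33
noncomputable def oR30_34 : Nat := om JR 30 34
noncomputable def oR30_35 : Nat := om JR 30 35
noncomputable def oR30_36 : Nat := om JR 30 36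
noncomputable def oR30_37 : Nat := om JR 30 37
noncomputable def oR30_38 : Nat := om JR 30 38
noncomputable def oR31_31 : Nat := om JR 31 31
noncomputable def oR31_32 : Nat := om JR 31 32
noncomputable def oR31_33 : Nat := om JR 31 33
noncomputable def oR31_34 : Nat := om JR 31 34
noncomputable def oR31_35 : Nat := om JR 31 35
noncomputable def oR31_36 : Nat := om JR 31 36
noncomputable def oR31_37 : Nat := om JR 31 37
noncomputable def oR31_38 : Nat := om JR 31 38
noncomputable def oR32_31 : Nat := om JR 32 31
noncomputable def oR32_32 : Nat := om JR 32 32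
noncomputable def oR32_33 : Nat := om JR 32 33
noncomputable def oR32_34 : Nat := om JR 32 34
noncomputable def oR32_35 : Nat := om JR 32 35
noncomputable def oR32_36 : Nat := om JR 32 36
noncomputable def oR32_37 : Nat := om JR 32 37
noncomputable def oR32_38 : Nat := om JR 32 38
noncomputable def oR33_31 : Nat := om JR 33 31
noncomputable def oR33_32 : Nat := om JR 33 32
noncomputable def oR33_33 : Nat := om JR 33 33
noncomputable def oR33_34 : Nat := om JR 33 34
noncomputable def oR33_35 : Nat := om JR 33 35
noncomputable def oR33_36 : Nat := om JR 33 36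
noncomputable def oR33_37 : Nat := om JR 33 37
noncomputable def oR34_31 : Nat := om JR 34 31
noncomputable def oR34_32 : Nat := om JR 34 32
noncomputable def oR34_33 : Nat := om JR 34 33
noncomputable def oR34_34 : Nat := om JR 34 34
noncomputable def oR34_35 : Nat := om JR 34 35
noncomputable def oR34_36 : Nat := om JR 34 36
noncomputable def oR34_37 : Nat := om JR 34 37
noncomputable def oR35_31 : Nat := om JR 35 31
noncomputable def oR35_32 : Nat := om JR 35 32
noncomputable def oR35_33 : Nat := om JR 35 33
noncomputable def oR35_34 : Nat := om JR 35 34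
noncomputable def oR35_35 : Nat := om JR 35 35
noncomputable def oR35_36 : Nat := om JR 35 36
noncomputable def oR35_37 : Nat := om JR 35 37
noncomputable def oR36_31 : Nat := om JR 36 31
noncomputable def oR36_32 : Nat := om JR 36 32
noncomputable def oR36_33 : Nat := om JR 36 33
noncomputable def oR36_34 : Nat := om JR 36 34
noncomputable def oR36_35 : Nat := om JR 36 35
noncomputable def oR36_36 : Nat := om JR 36 36
noncomputable def oR37_31 : Nat := om JR 37 31
noncomputable def oR37_32 : Nat := om JR 37 32
noncomputable def oR37_33 : Nat := om JR 37 33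
noncomputable def oR37_34 : Nat := om JR 37 34
noncomputable def oR37_35 : Nat := om JR 37 35
noncomputable def oR37_36 : Nat := om JR 37 36
noncomputable def oR38_31 : Nat := om JR 38 31
noncomputable def oR38_32 : Nat := om JR 38 32
noncomputable def oR38_33 : Nat := om JR 38 33
noncomputable def oR38_34 : Nat := om JR 38 34
noncomputable def oR38_35 : Nat := om JR 38 35

end Vale.Agent.P181.K
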