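import Vale.Agent.P181.Six.KGlue
import Vale.Agent.P181.Six.R.K1_0
import Vale.Agent.P181.Six.R.K2_0
import Vale.Agent.P181.Six.R.K3_0
import Vale.Agent.P181.Six.R.K4_0
import Vale.Agent.P181.Six.R.K5_0
import Vale.Agent.P181.Six.R.K6_0
import Vale.Agent.P181.Six.R.K7_0
import Vale.Agent.P181.Six.R.K8_0
import Vale.Agent.P181.Six.R.K9_0
import Vale.Agent.P181.Six.R.K10_0
import Vale.Agent.P181.Six.R.K11_0
import Vale.Agent.P181.Six.R.K12_0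
import Vale.Agent.P181.Six.R.K13_0
import Vale.Agent.P181.Six.R.K14_0
import Vale.Agent.P181.Six.R.K15_0
import Vale.Agent.P181.Six.R.K16_0
import Vale.Agent.P181.Six.R.K17_0
import Vale.Agent.P181.Six.R.K18_0
import Vale.Agent.P181.Six.R.SK15
import Vale.Agent.P181.Six.R.SK16
import Vale.Agent.P181.Six.R.SK17
import Vale.Agent.P181.Six.R.SK18
import Vale.Agent.P181.Six.R.Q0
import Vale.Agent.P181.Six.R.Q1
import Vale.Agent.P181.Six.R.Q2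
import Vale.Agent.P181.Six.R.Q3
import Vale.Agent.P181.Six.R.Q4
import Vale.Agent.P181.Six.R.Q5
import Vale.Agent.P181.Six.R.Q6
import Vale.Agent.P181.Six.R.Q7
import Vale.Agent.P181.Six.R.Q8
import Vale.Agent.P181.Six.R.Q9
import Vale.Agent.P181.Six.R.Q10
import Vale.Agent.P181.Six.R.Q11
import Vale.Agent.P181.Six.R.Q12
import Vale.Agent.P181.Six.R.Q13
import Vale.Agent.P181.Six.R.Q14
import Vale.Agent.P181.Six.R.Q15
import Vale.Agent.P181.Six.R.Q16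
import Vale.Agent.P181.Six.R.Q17

set_option maxRecDepth 100000
set_option maxHeartbeats 0

namespace Vale.Agent.P181.K

theorem tR_ok : TOK JR tR := tok_of_check (by decide +kernel)

theorem tR_anti : TAnti tR := tanti_of_check tR_ok (by decide +kernel)

theorem tR17_ok : TOK JR tR17 := tok_of_check (by decide +kernel)

theorem tR17_anti : TAnti tR17 := tanti_of_check tR17_ok (by decide +kernel)

theorem tR17_le : TLe tR17 tR := tle_of_check tR17_ok (by decide +kernel)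

theorem tR18_ok : TOK JR tR18 := tok_of_check (by decide +kernel)

theorem tR18_le : TLe tR18 tR17 := tle_of_check tR18_ok (by decide +kernel)

theorem tbR0_ok : TblOK JR tR 0 0 tbR0 := tbl0_ok (by decide +kernel) tR_ok

theorem bsR1_ok : BoxesOK JR tR 1 1 bsR1 :=
  boxes_step tR_anti tbR0_ok boxR0_eq BoxesOK.nil rfl rfl

theorem levR1 : LevOK JR 1 1 1 := by decide +kernel

theorem cR1_0_0_ok : ChunkOK JR tR 1 1 0 0 6 cR1_0_0 :=
  chunk_ok_of_beq levR1 tR_ok (TLe.refl _) bsR1_ok cR1_0_0_eq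

theorem tbR1_ok : TblOK JR tR 1 1 tbR1 := tblOK_of_from
  (tblFrom_cons tR_ok (Nat.le_refl 6) cR1_0_0_ok
  (tblFrom_nil tR_ok (Nat.le_refl 1)))

theorem bsR2_ok : BoxesOK JR tR 2 3 bsR2 :=
  boxes_step tR_anti tbR1_ok boxR1_eq bsR1_ok rfl rfl

theorem levR2 : LevOK JR 2 1 3 := by decide +kernel

theorem cR2_0_0_ok : ChunkOK JR tR 2 1 0 0 6 cR2_0_0 :=
  chunk_ok_of_beq levR2 tR_ok (TLe.refl _) bsR2_ok cR2_0_0_eq

theorem tbR2_ok : TblOK JR tR 2 1 tbR2 := tblOK_of_from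
  (tblFrom_cons tR_ok (Nat.le_refl 6) cR2_0_0_ok
  (tblFrom_nil tR_ok (Nat.le_refl 1)))

theorem bsR3_ok : BoxesOK JR tR 3 5 bsR3 :=
  boxes_step tR_anti tbR2_ok boxR2_eq bsR2_ok rfl rfl

theorem levR3 : LevOK JR 3 2 5 := by decide +kernel

theorem cR3_0_0_ok : ChunkOK JR tR 3 2 0 0 6 cR3_0_0 :=
  chunk_ok_of_beq levR3 tR_ok (TLe.refl _) bsR3_ok cR3_0_0_eq

theorem tbR3_ok : TblOK JR tR 3 2 tbR3 := tblOK_of_from
  (tblFrom_cons tR_ok (Nat.le_refl 6) cR3_0_0_ok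
  (tblFrom_nil tR_ok (Nat.le_refl 1)))

theorem bsR4_ok : BoxesOK JR tR 4 9 bsR4 :=
  boxes_step tR_anti tbR3_ok boxR3_eq bsR3_ok rfl rfl

theorem levR4 : LevOK JR 4 3 9 := by decide +kernel

theorem cR4_0_0_ok : ChunkOK JR tR 4 3 0 0 6 cR4_0_0 :=
  chunk_ok_of_beq levR4 tR_ok (TLe.refl _) bsR4_ok cR4_0_0_eq

theorem tbR4_ok : TblOK JR tR 4 3 tbR4 := tblOK_of_from
  (tblFrom_cons tR_ok (Nat.le_refl 6) cR4_0_0_ok
  (tblFrom_nil tR_ok (Nat.le_refl 1)))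

theorem bsR5_ok : BoxesOK JR tR 5 17 bsR5 :=
  boxes_step tR_anti tbR4_ok boxR4_eq bsR4_ok rfl rfl

theorem levR5 : LevOK JR 5 5 17 := by decide +kernel

theorem cR5_0_0_ok : ChunkOK JR tR 5 5 0 0 6 cR5_0_0 :=
  chunk_ok_of_beq levR5 tR_ok (TLe.refl _) bsR5_ok cR5_0_0_eq

theorem tbR5_ok : TblOK JR tR 5 5 tbR5 := tblOK_of_from
  (tblFrom_cons tR_ok (Nat.le_refl 6) cR5_0_0_ok
  (tblFrom_nil tR_ok (Nat.le_refl 1)))

theorem bsR6_ok : BoxesOK JR tR 6 49 bsR6 :=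
  boxes_step tR_anti tbR5_ok boxR5_eq bsR5_ok rfl rfl

theorem levR6 : LevOK JR 6 7 49 := by decide +kernel

theorem cR6_0_0_ok : ChunkOK JR tR 6 7 0 0 6 cR6_0_0 :=
  chunk_ok_of_beq levR6 tR_ok (TLe.refl _) bsR6_ok cR6_0_0_eq

theorem tbR6_ok : TblOK JR tR 6 7 tbR6 := tblOK_of_from
  (tblFrom_cons tR_ok (Nat.le_refl 6) cR6_0_0_ok
  (tblFrom_nil tR_ok (Nat.le_refl 1)))

theorem bsR7_ok : BoxesOK JR tR 7 177 bsR7 :=
  boxes_step tR_anti tbR6_ok boxR6_eq bsR6_ok rfl rfl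

theorem levR7 : LevOK JR 7 11 177 := by decide +kernel

theorem cR7_0_0_ok : ChunkOK JR tR 7 11 0 0 6 cR7_0_0 :=
  chunk_ok_of_beq levR7 tR_ok (TLe.refl _) bsR7_ok cR7_0_0_eq

theorem tbR7_ok : TblOK JR tR 7 11 tbR7 := tblOK_of_from
  (tblFrom_cons tR_ok (Nat.le_refl 6) cR7_0_0_ok
  (tblFrom_nil tR_ok (Nat.le_refl 1)))

theorem bsR8_ok : BoxesOK JR tR 8 2225 bsR8 :=
  boxes_step tR_anti tbR7_ok boxR7_eq bsR7_ok rfl rfl

theorem levR8 : LevOK JR 8 14 2225 := by decide +kernel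

theorem cR8_0_0_ok : ChunkOK JR tR 8 14 0 0 6 cR8_0_0 :=
  chunk_ok_of_beq levR8 tR_ok (TLe.refl _) bsR8_ok cR8_0_0_eq

theorem tbR8_ok : TblOK JR tR 8 14 tbR8 := tblOK_of_from
  (tblFrom_cons tR_ok (Nat.le_refl 6) cR8_0_0_ok
  (tblFrom_nil tR_ok (Nat.le_refl 1)))

theorem bsR9_ok : BoxesOK JR tR 9 18609 bsR9 :=
  boxes_step tR_anti tbR8_ok boxR8_eq bsR8_ok rfl rfl

theorem levR9 : LevOK JR 9 17 18609 := by decide +kernel

theorem cR9_0_0_ok : ChunkOK JR tR 9 17 0 0 6 cR9_0_0 :=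
  chunk_ok_of_beq levR9 tR_ok (TLe.refl _) bsR9_ok cR9_0_0_eq

theorem tbR9_ok : TblOK JR tR 9 17 tbR9 := tblOK_of_from
  (tblFrom_cons tR_ok (Nat.le_refl 6) cR9_0_0_ok
  (tblFrom_nil tR_ok (Nat.le_refl 1)))

theorem bsR10_ok : BoxesOK JR tR 10 149681 bsR10 :=
  boxes_step tR_anti tbR9_ok boxR9_eq bsR9_ok rfl rfl

theorem levR10 : LevOK JR 10 21 149681 := by decide +kernel

theorem cR10_0_0_ok : ChunkOK JR tR 10 21 0 0 6 cR10_0_0 :=
  chunk_ok_of_beq levR10 tR_ok (TLe.refl _) bsR10_ok cR10_0_0_eq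

theorem tbR10_ok : TblOK JR tR 10 21 tbR10 := tblOK_of_from
  (tblFrom_cons tR_ok (Nat.le_refl 6) cR10_0_0_ok
  (tblFrom_nil tR_ok (Nat.le_refl 1)))

theorem bsR11_ok : BoxesOK JR tR 11 2246833 bsR11 :=
  boxes_step tR_anti tbR10_ok boxR10_eq bsR10_ok rfl rfl

theorem levR11 : LevOK JR 11 24 2246833 := by decide +kernel

theorem cR11_0_0_ok : ChunkOK JR tR 11 24 0 0 6 cR11_0_0 :=
  chunk_ok_of_beq levR11 tR_ok (TLe.refl _) bsR11_ok cR11_0_0_eq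

theorem tbR11_ok : TblOK JR tR 11 24 tbR11 := tblOK_of_from
  (tblFrom_cons tR_ok (Nat.le_refl 6) cR11_0_0_ok
  (tblFrom_nil tR_ok (Nat.le_refl 1)))

theorem bsR12_ok : BoxesOK JR tR 12 19024049 bsR12 :=
  boxes_step tR_anti tbR11_ok boxR11_eq bsR11_ok rfl rfl

theorem levR12 : LevOK JR 12 27 19024049 := by decide +kernel

theorem cR12_0_0_ok : ChunkOK JR tR 12 27 0 0 6 cR12_0_0 :=
  chunk_ok_of_beq levR12 tR_ok (TLe.refl _) bsR12_ok cR12_0_0_eq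

theorem tbR12_ok : TblOK JR tR 12 27 tbR12 := tblOK_of_from
  (tblFrom_cons tR_ok (Nat.le_refl 6) cR12_0_0_ok
  (tblFrom_nil tR_ok (Nat.le_refl 1)))

theorem bsR13_ok : BoxesOK JR tR 13 153241777 bsR13 :=
  boxes_step tR_anti tbR12_ok boxR12_eq bsR12_ok rfl rfl

theorem levR13 : LevOK JR 13 30 153241777 := by decide +kernel

theorem cR13_0_0_ok : ChunkOK JR tR 13 30 0 0 6 cR13_0_0 :=
  chunk_ok_of_beq levR13 tR_ok (TLe.refl _) bsR13_ok cR13_0_0_eq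

theorem tbR13_ok : TblOK JR tR 13 30 tbR13 := tblOK_of_from
  (tblFrom_cons tR_ok (Nat.le_refl 6) cR13_0_0_ok
  (tblFrom_nil tR_ok (Nat.le_refl 1)))

theorem bsR14_ok : BoxesOK JR tR 14 1226983601 bsR14 :=
  boxes_step tR_anti tbR13_ok boxR13_eq bsR13_ok rfl rfl

theorem levR14 : LevOK JR 14 33 1226983601 := by decide +kernel

theorem cR14_0_0_ok : ChunkOK JR tR 14 33 0 0 6 cR14_0_0 :=
  chunk_ok_of_beq levR14 tR_ok (TLe.refl _) bsR14_ok cR14_0_0_eq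

theorem tbR14_ok : TblOK JR tR 14 33 tbR14 := tblOK_of_from
  (tblFrom_cons tR_ok (Nat.le_refl 6) cR14_0_0_ok
  (tblFrom_nil tR_ok (Nat.le_refl 1)))

theorem bsR15_ok : BoxesOK JR tR 15 9816918193 bsR15 :=
  boxes_step tR_anti tbR14_ok boxR14_eq bsR14_ok rfl rfl

theorem levR15 : LevOK JR 15 36 9816918193 := by decide +kernel

theorem cR15_0_0_ok : ChunkOK JR tR 15 36 0 0 6 cR15_0_0 :=
  chunk_ok_of_beq levR15 tR_ok (TLe.refl _) bsR15_ok cR15_0_0_eq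

theorem tbR15_ok : TblOK JR tR 15 36 tbR15 := tblOK_of_from
  (tblFrom_cons tR_ok (Nat.le_refl 6) cR15_0_0_ok
  (tblFrom_nil tR_ok (Nat.le_refl 1)))

theorem bsR16_ok : BoxesOK JR tR 16 78536394929 bsR16 :=
  boxes_step tR_anti tbR15_ok boxR15_eq bsR15_ok rfl rfl

theorem levR16 : LevOK JR 16 38 78536394929 := by decide +kernel

theorem cR16_0_0_ok : ChunkOK JR tR 16 38 0 0 6 cR16_0_0 :=
  chunk_ok_of_beq levR16 tR_ok (TLe.refl _) bsR16_ok cR16_0_0_eq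

theorem tbR16_ok : TblOK JR tR 16 38 tbR16 := tblOK_of_from
  (tblFrom_cons tR_ok (Nat.le_refl 6) cR16_0_0_ok
  (tblFrom_nil tR_ok (Nat.le_refl 1)))

theorem bsR17_ok : BoxesOK JR tR 17 353414301873 bsR17 :=
  boxes_step tR_anti tbR16_ok boxR16_eq bsR16_ok rfl rfl

theorem levR17 : LevOK JR 17 38 353414301873 := by decide +kernel

theorem cR17_0_0_ok : ChunkOK JR tR17 17 38 0 0 6 cR17_0_0 :=
  chunk_ok_of_beq levR17 tR17_ok tR17_le bsR17_ok cR17_0_0_eq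

theorem tbR17_ok : TblOK JR tR17 17 38 tbR17 := tblOK_of_from
  (tblFrom_cons tR17_ok (Nat.le_refl 6) cR17_0_0_ok
  (tblFrom_nil tR17_ok (Nat.le_refl 1)))

theorem bsR18_ok : BoxesOK JR tR17 18 628292208817 bsR18 :=
  boxes_step tR17_anti tbR17_ok boxR17_eq (bsR17_ok.mono tR17_le) rfl rfl

theorem levR18 : LevOK JR 18 35 628292208817 := by decide +kernel

theorem cR18_0_0_ok : ChunkOK JR tR18 18 35 0 0 6 cR18_0_0 :=
  chunk_ok_of_beq levR18 tR18_ok tR18_le bsR18_ok cR18_0_0_eq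

theorem tbR18_ok : TblOK JR tR18 18 35 tbR18 := tblOK_of_from
  (tblFrom_cons tR18_ok (Nat.le_refl 6) cR18_0_0_ok
  (tblFrom_nil tR18_ok (Nat.le_refl 1)))

theorem srcR15_ok : SrcOK ⟨15, srcR15⟩ :=
  src_step (by decide +kernel) tR_ok tbR15_ok rfl rfl srcR15_eq

theorem srcR16_ok : SrcOK ⟨16, srcR16⟩ :=
  src_step (by decide +kernel) tR_ok tbR16_ok rfl rfl srcR16_eq

theorem srcR17_ok : SrcOK ⟨17, srcR17⟩ :=
  src_step (by decide +kernel) tR17_ok tbR17_ok rfl rfl srcR17_eq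

theorem srcR18_ok : SrcOK ⟨18, srcR18⟩ :=
  src_step (by decide +kernel) tR18_ok tbR18_ok rfl rfl srcR18_eq


end Vale.Agent.P181.K
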